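import Vale.Agent.P150.Beta1.Tests
import Vale.Agent.P150.Beta1.Words.Event
import Vale.Agent.P150.Beta1.Rule.Fields
import Vale.Agent.P150.Entropy

/-!
# Pass one at zero field

Along the iteration from a configuration the squared norms fall, up to test errors; while one of
them is at least `ρ` the radial inequality forces an increment of size `κ √n`, so after a number of
steps depending only on `ρ, κ` and the operator norm they are at most `2 ρ`. The energy identity
then gives `E xᵀJx ≈ n β²`.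
-/

namespace Vale.Agent.P150.Beta1.Profile

open Finset Real Vale.Agent.P150.Beta1.Rule
open Vale.Agent.P150.Beta1.Words (OpSq)

variable {n : ℕ}

/-- The radial inequality of `RadialStatement` for a given coupling. -/
def RadialAt (β ρ κ : ℝ) (J : Fin n → Fin n → ℝ) : Prop :=
  ∀ z : Fin n → ℝ, ρ ≤ qav (tanhv z) →
    (∑ i, tanhv z i * act J (tanhv z) i) + κ * n
      ≤ (∑ i, tanhv z i * z i) + onsager β (tanhv z) * (qav (tanhv z) * n)

/-- The scale of the errors. -/
noncomputable def errSize (J : Fin n → Fin n → ℝ) (F : (Fin n → Bool) → ℝ) : ℝ :=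
  √n * √(tdir (gibbs J 0) F + 1)

/-! ### Tilted means -/

section Mean

variable {ι : Type*} [Fintype ι] [DecidableEq ι] {ρ F φ ψ : (ι → Bool) → ℝ}

lemma tmean_add : tmean ρ F (fun x => φ x + ψ x) = tmean ρ F φ + tmean ρ F ψ := by
  simp only [tmean, mean, mul_add, sum_add_distrib, add_div]

lemma tmean_sub : tmean ρ F (fun x => φ x - ψ x) = tmean ρ F φ - tmean ρ F ψ := by
  simp only [tmean, mean, mul_sub, sum_sub_distrib, sub_div]

lemma tmean_mul (c : ℝ) : tmean ρ F (fun x => c * φ x) = c * tmean ρ F φ := by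
  simp only [tmean, mean, mul_div_assoc', mul_sum]
  exact congrArg (· / _) (sum_congr rfl fun x _ => by ring)

variable {J : ι → ι → ℝ} {h : ι → ℝ}

lemma tmean_const (hF : ∀ x, 0 < F x) (c : ℝ) : tmean (gibbs J h) F (fun _ => c) = c := by
  have h0 := (mean_pos (IsWeight.gibbs J h) hF).ne'
  rw [tmean, div_eq_iff h0, mean, mean, mul_sum]
  exact sum_congr rfl fun x _ => by ring

lemma tmean_mono (hF : ∀ x, 0 < F x) (hle : ∀ x, φ x ≤ ψ x) :
    tmean (gibbs J h) F φ ≤ tmean (gibbs J h) F ψ :=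
  div_le_div_of_nonneg_right (sum_le_sum fun x _ => mul_le_mul_of_nonneg_left
    (mul_le_mul_of_nonneg_left (hle x) (hF x).le) (gibbs_pos x).le)
    (mean_pos (IsWeight.gibbs J h) hF).le

lemma abs_tmean_le (hF : ∀ x, 0 < F x) (hle : ∀ x, |φ x| ≤ ψ x) :
    |tmean (gibbs J h) F φ| ≤ tmean (gibbs J h) F ψ := by
  refine abs_le.2 ⟨?_, tmean_mono hF fun x => (le_abs_self _).trans (hle x)⟩
  have := tmean_mono (J := J) (h := h) hF (φ := fun x => (-1) * φ x) (ψ := ψ) fun x => by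
    have := (neg_le_abs (φ x)).trans (hle x)
    linarith
  rw [tmean_mul] at this
  linarith

end Mean

/-! ### Pointwise facts -/

lemma goodWords_mono {β C C' : ℝ} {m m' : ℕ} {J : Fin n → Fin n → ℝ}
    (h : GoodWords β m C J) (hm : m' ≤ m) (hC : C ≤ C') : GoodWords β m' C' J :=
  ⟨h.1, h.2.1, fun a => (h.2.2.1 a).trans
    (mul_le_mul_of_nonneg_right hC (sum_nonneg fun _ _ => sq_nonneg _)),
    fun d l hl hd he => ⟨(h.2.2.2 d l (hl.trans hm) hd he).1.trans hC,
      (h.2.2.2 d l (hl.trans hm) hd he).2.trans hC⟩⟩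

lemma mul_qav (hn : 0 < n) (u : Fin n → ℝ) : (n : ℝ) * qav u = ∑ i, u i ^ 2 := by
  have : (n : ℝ) ≠ 0 := Nat.cast_ne_zero.2 hn.ne'
  simp only [qav, avg, Fintype.card_fin]
  field_simp

lemma sum_mul_act_comm {J : Fin n → Fin n → ℝ} (hs : ∀ i j, J i j = J j i) (u v : Fin n → ℝ) :
    ∑ i, u i * act J v i = ∑ i, act J u i * v i := by
  simp only [act, mul_sum, sum_mul]
  rw [sum_comm]
  exact sum_congr rfl fun i _ => sum_congr rfl fun j _ => by rw [hs]; ring

variable {β Λ : ℝ} {J : Fin n → Fin n → ℝ}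

/-- The iterates of `x` at zero field. -/
noncomputable abbrev Ait (β : ℝ) (J : Fin n → Fin n → ℝ) (x : Fin n → Bool) (k : ℕ) :
    Fin n → ℝ := ampA β J 0 (spins x) k

/-- The fields of `x` at zero field. -/
noncomputable abbrev Zit (β : ℝ) (J : Fin n → Fin n → ℝ) (x : Fin n → Bool) (k : ℕ) :
    Fin n → ℝ := ampZ β J 0 (spins x) k

/-- The increments of `x` at zero field. -/
noncomputable abbrev Dit (β : ℝ) (J : Fin n → Fin n → ℝ) (x : Fin n → Bool) (k : ℕ) :
    Fin n → ℝ := ampD β J 0 (spins x) k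

variable {x : Fin n → Bool}

lemma zit_zero (i : Fin n) : Zit β J x 0 i = act J (Ait β J x 0) i := by simp [ampZ, ampA]

lemma zit_succ (k : ℕ) (i : Fin n) :
    Zit β J x (k + 1) i
      = act J (Ait β J x (k + 1)) i - onsager β (Ait β J x (k + 1)) * Ait β J x k i := by
  cases k <;> simp [ampZ, ampA]

lemma qav_mem_it (k : ℕ) : 0 ≤ qav (Ait β J x k) ∧ qav (Ait β J x k) ≤ 1 :=
  qav_mem (abs_ampA_le β J 0 x k)

lemma qav_zero (hn : 0 < n) : qav (Ait β J x 0) = 1 := by
  have h : ∑ i, Ait β J x 0 i ^ 2 = (n : ℝ) := by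
    have : ∀ i, spins x i ^ 2 = 1 := fun i => by
      rcases spin_cases (x i) with h | h <;> simp [spins, h]
    simp [ampA, this]
  have h2 := mul_qav hn (Ait β J x 0)
  rw [h] at h2
  exact (mul_right_eq_self₀.1 h2).resolve_right (Nat.cast_ne_zero.2 hn.ne')

/-- Squared norms of the fields. -/
lemma sum_zit_sq_le (hn : 0 < n) (hO : OpSq J Λ) (k : ℕ) :
    ∑ i, Zit β J x (k + 1) i ^ 2
      ≤ 2 * (Λ * (n * qav (Ait β J x (k + 1))) + β ^ 4 * (n * qav (Ait β J x k))) := by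
  have hb : onsager β (Ait β J x (k + 1)) ^ 2 ≤ β ^ 4 := by
    rw [← sq_abs, show β ^ 4 = (β ^ 2) ^ 2 by ring]
    exact pow_le_pow_left₀ (abs_nonneg _) (abs_onsager_le β (abs_ampA_le β J 0 x _)) 2
  simp only [mul_qav hn, zit_succ]
  calc ∑ i, (act J (Ait β J x (k + 1)) i - onsager β (Ait β J x (k + 1)) * Ait β J x k i) ^ 2
      ≤ ∑ i, 2 * (act J (Ait β J x (k + 1)) i ^ 2
          + onsager β (Ait β J x (k + 1)) ^ 2 * Ait β J x k i ^ 2) :=
        sum_le_sum fun i _ => by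
          nlinarith [sq_nonneg (act J (Ait β J x (k + 1)) i
            + onsager β (Ait β J x (k + 1)) * Ait β J x k i)]
    _ ≤ _ := by
      rw [← mul_sum, sum_add_distrib, ← mul_sum]
      exact mul_le_mul_of_nonneg_left (add_le_add (hO _)
        (mul_le_mul_of_nonneg_right hb (sum_nonneg fun _ _ => sq_nonneg _))) zero_le_two

lemma sum_zit_sq_le' (hn : 0 < n) (hΛ : 0 ≤ Λ) (hO : OpSq J Λ) :
    ∀ k, ∑ i, Zit β J x k i ^ 2 ≤ 2 * (Λ + β ^ 4) * n
  | 0 => by
    simp only [zit_zero]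
    refine (hO _).trans ?_
    rw [← mul_qav hn, qav_zero hn, mul_one]
    have : (0 : ℝ) ≤ (n : ℝ) * (Λ + 2 * β ^ 4) := by positivity
    linarith
  | k + 1 => by
    refine (sum_zit_sq_le hn hO k).trans ?_
    have h1 := mul_le_mul_of_nonneg_left (qav_mem_it (β := β) (J := J) (x := x) (k + 1)).2
      (show 0 ≤ Λ * n by positivity)
    have h2 := mul_le_mul_of_nonneg_left (qav_mem_it (β := β) (J := J) (x := x) k).2
      (show 0 ≤ β ^ 4 * n by positivity)
    linarith

lemma qav_step (hn : 0 < n) (k : ℕ) :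
    (n : ℝ) * (qav (Ait β J x k) - qav (Ait β J x (k + 1)))
      = ∑ i, Dit β J x k i ^ 2 + 2 * ∑ i, Ait β J x (k + 1) i * Dit β J x k i := by
  rw [mul_sub, mul_qav hn, mul_qav hn, mul_sum, ← sum_add_distrib, ← sum_sub_distrib]
  exact sum_congr rfl fun i _ => by simp only [ampD]; ring

lemma qav_step_sq (hn : 0 < n) (k : ℕ) :
    (n : ℝ) * (qav (Ait β J x k) - qav (Ait β J x (k + 1))) ^ 2
      ≤ 4 * ∑ i, Dit β J x k i ^ 2 := by
  have h1 := abs_ampA_le β J 0 x
  have e : (n : ℝ) * (qav (Ait β J x k) - qav (Ait β J x (k + 1)))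
      = ∑ i, Dit β J x k i * (Ait β J x k i + Ait β J x (k + 1) i) := by
    rw [mul_sub, mul_qav hn, mul_qav hn, ← sum_sub_distrib]
    exact sum_congr rfl fun i _ => by simp only [ampD]; ring
  have h2 : ∑ i, (Ait β J x k i + Ait β J x (k + 1) i) ^ 2 ≤ 4 * n := by
    refine (sum_le_sum (g := fun _ => (4 : ℝ)) fun i _ => ?_).trans_eq (by simp [mul_comm])
    have ha := abs_le.1 (h1 k i)
    have hb := abs_le.1 (h1 (k + 1) i)
    calc (Ait β J x k i + Ait β J x (k + 1) i) ^ 2 ≤ 2 ^ 2 :=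
          sq_le_sq' (by linarith [ha.1, hb.1]) (by linarith [ha.2, hb.2])
      _ = 4 := by norm_num
  refine le_of_mul_le_mul_left ?_ (Nat.cast_pos.2 hn : (0 : ℝ) < n)
  calc (n : ℝ) * (n * (qav (Ait β J x k) - qav (Ait β J x (k + 1))) ^ 2)
      = (∑ i, Dit β J x k i * (Ait β J x k i + Ait β J x (k + 1) i)) ^ 2 := by rw [← e]; ring
    _ ≤ (∑ i, Dit β J x k i ^ 2) * ∑ i, (Ait β J x k i + Ait β J x (k + 1) i) ^ 2 :=
        sum_mul_sq_le_sq_mul_sq _ _ _
    _ ≤ (∑ i, Dit β J x k i ^ 2) * (4 * n) :=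
        mul_le_mul_of_nonneg_left h2 (sum_nonneg fun _ _ => sq_nonneg _)
    _ = _ := by ring

/-- While the squared norm is at least `ρ`, two increments are large. -/
lemma radial_point {ρ κ : ℝ} (hρ : 0 ≤ ρ) (hκ : 0 < κ) (hΛ : 0 ≤ Λ) (hn : 0 < n)
    (hO : OpSq J Λ) (hR : RadialAt β ρ κ J) (k : ℕ) :
    (n : ℝ) * qav (Ait β J x (k + 2)) ≤ n * ρ + (3 * Λ + 18 * β ^ 4) / κ ^ 2
      * (∑ i, Dit β J x k i ^ 2 + ∑ i, Dit β J x (k + 1) i ^ 2) := by
  have hS : ∀ j, 0 ≤ ∑ i, Dit β J x j i ^ 2 := fun j => sum_nonneg fun _ _ => sq_nonneg _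
  have hn' : (0 : ℝ) < n := Nat.cast_pos.2 hn
  by_cases hq : ρ ≤ qav (Ait β J x (k + 2))
  swap
  · have := mul_le_mul_of_nonneg_left (le_of_not_ge hq) hn'.le
    have : 0 ≤ (3 * Λ + 18 * β ^ 4) / κ ^ 2
      * (∑ i, Dit β J x k i ^ 2 + ∑ i, Dit β J x (k + 1) i ^ 2) :=
      mul_nonneg (by positivity) (add_nonneg (hS _) (hS _))
    linarith
  set a := Ait β J x (k + 2) with ha
  set b1 := onsager β (Ait β J x (k + 1)) with hb1
  set b2 := onsager β a with hb2
  set w := fun i => Zit β J x (k + 1) i - act J a i + b2 * a i with hw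
  have h := hR (Zit β J x (k + 1)) hq
  change (∑ i, a i * act J a i) + κ * n
    ≤ (∑ i, a i * Zit β J x (k + 1) i) + b2 * (qav a * n) at h
  have hkey : κ * n ≤ ∑ i, a i * w i := by
    simp only [hw, mul_add, mul_sub, sum_add_distrib, sum_sub_distrib]
    have : ∑ i, a i * (b2 * a i) = b2 * (qav a * n) := by
      rw [mul_comm (qav a), mul_qav hn, mul_sum]
      exact sum_congr rfl fun i _ => by ring
    linarith
  have hwsq : ∑ i, w i ^ 2 ≤ (3 * Λ + 18 * β ^ 4)
      * (∑ i, Dit β J x k i ^ 2 + ∑ i, Dit β J x (k + 1) i ^ 2) := by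
    have hwe : ∀ i, w i = act J (Dit β J x (k + 1)) i
        + -b1 * (Dit β J x k i + Dit β J x (k + 1) i) + (b2 - b1) * a i := fun i => by
      have : act J (Dit β J x (k + 1)) i = act J (Ait β J x (k + 1)) i - act J a i := by
        simp only [ha, ampD, act, mul_sub, sum_sub_distrib]
      simp only [hw, zit_succ, this, ← hb1, ha, ampD]
      ring
    have hb : b1 ^ 2 ≤ β ^ 4 := by
      rw [← sq_abs, show β ^ 4 = (β ^ 2) ^ 2 by ring]
      exact pow_le_pow_left₀ (abs_nonneg _) (abs_onsager_le β (abs_ampA_le β J 0 x _)) 2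
    have hd : (b2 - b1) ^ 2 * (n * qav a) ≤ β ^ 4 * (4 * ∑ i, Dit β J x (k + 1) i ^ 2) := by
      have h1 : (b2 - b1) ^ 2 * (n * qav a) ≤ (b2 - b1) ^ 2 * n := by
        refine mul_le_mul_of_nonneg_left ?_ (sq_nonneg _)
        exact mul_le_of_le_one_right hn'.le (qav_mem_it (k + 2)).2
      have h2 : (b2 - b1) ^ 2 * (n : ℝ)
          = β ^ 4 * (n * (qav (Ait β J x (k + 1)) - qav a) ^ 2) := by
        simp only [hb1, hb2, onsager]
        ring
      exact h1.trans (h2.trans_le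
        (mul_le_mul_of_nonneg_left (qav_step_sq hn (k + 1)) (by positivity)))
    have hsum : ∑ i, (Dit β J x k i + Dit β J x (k + 1) i) ^ 2
        ≤ 2 * (∑ i, Dit β J x k i ^ 2 + ∑ i, Dit β J x (k + 1) i ^ 2) := by
      rw [← sum_add_distrib, mul_sum]
      exact sum_le_sum fun i _ => add_sq_le
    calc ∑ i, w i ^ 2
        ≤ ∑ i, 3 * (act J (Dit β J x (k + 1)) i ^ 2
            + b1 ^ 2 * (Dit β J x k i + Dit β J x (k + 1) i) ^ 2
            + (b2 - b1) ^ 2 * a i ^ 2) := sum_le_sum fun i _ => by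
          rw [hwe]
          set p := act J (Dit β J x (k + 1)) i
          set q := Dit β J x k i + Dit β J x (k + 1) i
          nlinarith [sq_nonneg (p - -b1 * q), sq_nonneg (p - (b2 - b1) * a i),
            sq_nonneg (-b1 * q - (b2 - b1) * a i)]
      _ ≤ 3 * (Λ * ∑ i, Dit β J x (k + 1) i ^ 2
            + β ^ 4 * (2 * (∑ i, Dit β J x k i ^ 2 + ∑ i, Dit β J x (k + 1) i ^ 2))
            + β ^ 4 * (4 * ∑ i, Dit β J x (k + 1) i ^ 2)) := by
          rw [← mul_sum, sum_add_distrib, sum_add_distrib, ← mul_sum, ← mul_sum, ← mul_qav hn a]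
          refine mul_le_mul_of_nonneg_left (add_le_add (add_le_add (hO _) ?_) hd) (by norm_num)
          exact mul_le_mul hb hsum (sum_nonneg fun _ _ => sq_nonneg _) (by positivity)
      _ ≤ _ := by
          have : 0 ≤ (Λ + 4 * β ^ 4) * ∑ i, Dit β J x k i ^ 2 :=
            mul_nonneg (by positivity) (hS _)
          linarith
  have hsq : κ ^ 2 * n ≤ ∑ i, w i ^ 2 := by
    refine le_of_mul_le_mul_left ?_ hn'
    calc (n : ℝ) * (κ ^ 2 * n) = (κ * n) ^ 2 := by ring
      _ ≤ (∑ i, a i * w i) ^ 2 := pow_le_pow_left₀ (by positivity) hkey 2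
      _ ≤ (∑ i, a i ^ 2) * ∑ i, w i ^ 2 := sum_mul_sq_le_sq_mul_sq _ _ _
      _ ≤ n * ∑ i, w i ^ 2 := by
          refine mul_le_mul_of_nonneg_right ?_ (sum_nonneg fun _ _ => sq_nonneg _)
          rw [← mul_qav hn]
          exact mul_le_of_le_one_right hn'.le (qav_mem_it (k + 2)).2
  have h1 : (n : ℝ) ≤ (3 * Λ + 18 * β ^ 4) / κ ^ 2
      * (∑ i, Dit β J x k i ^ 2 + ∑ i, Dit β J x (k + 1) i ^ 2) := by
    rw [div_mul_eq_mul_div, le_div_iff₀ (by positivity), mul_comm]
    exact hsq.trans hwsq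
  have := mul_le_of_le_one_right hn'.le (qav_mem_it (β := β) (J := J) (x := x) (k + 2)).2
  have : (0 : ℝ) ≤ n * ρ := by positivity
  rw [ha]
  linarith

/-! ### The test errors -/

lemma slow_const {C : ℝ} (hC : 0 ≤ C) : SlowScalar C (fun _ : Fin n → Bool => (1 : ℝ)) :=
  fun x => ⟨by norm_num, by simpa [deriv2] using hC⟩

lemma tanh_test {C : ℝ} (hC : 2 ≤ C) (t : ℝ) :
    HasDerivAt tanh (1 - tanh t ^ 2) t ∧
      HasDerivAt (fun s => 1 - tanh s ^ 2) (-(2 * tanh t * (1 - tanh t ^ 2))) t ∧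
      |1 - tanh t ^ 2| ≤ C ∧ |-(2 * tanh t * (1 - tanh t ^ 2))| ≤ C := by
  refine ⟨hasDerivAt_tanh' t, ?_, (abs_one_sub_tanh_sq t).trans (by linarith), ?_⟩
  · simpa using ((hasDerivAt_tanh' t).fun_pow 2).const_sub 1
  · rw [abs_neg, abs_mul, abs_mul, abs_two]
    nlinarith [mul_le_mul (abs_tanh_le t) (abs_one_sub_tanh_sq t) (abs_nonneg _) zero_le_one,
      abs_nonneg (tanh t)]

/-- Later iterates against increments. -/
lemma test_tanh (hT : TestsStatement β) (k : ℕ) : ∃ m : ℕ, ∀ C, ∃ C', 0 ≤ C' ∧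
    ∀ (n : ℕ) (J : Fin n → Fin n → ℝ) (F s : (Fin n → Bool) → ℝ),
      GoodWords β m C J → (∀ x, 0 < F x) → SlowScalar C s → ∀ j ≤ k,
        |tmean (gibbs J 0) F (fun x => s x * ∑ i, Ait β J x (k + 1) i * Dit β J x j i)|
          ≤ C' * errSize J F := by
  obtain ⟨m, hm⟩ := hT k
  refine ⟨m, fun C => ?_⟩
  obtain ⟨C', hC'⟩ := hm (max C 2)
  refine ⟨max C' 0, le_max_right _ _, fun n J F s hG hF hs j hj => ?_⟩
  have h := (hC' n J 0 0 F s tanh (fun t => 1 - tanh t ^ 2)
    (fun t => -(2 * tanh t * (1 - tanh t ^ 2))) (goodWords_mono hG le_rfl (le_max_left _ _)) hF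
    (fun x => ⟨(hs x).1, (hs x).2.trans (le_max_left _ _)⟩)
    (fun t => tanh_test (le_max_right _ _) t) (fun x => ?_) j hj).1
  · refine h.trans ?_
    rw [errSize, mul_assoc]
    exact mul_le_mul_of_nonneg_right (le_max_left _ _) (by positivity)
  · refine (sum_le_sum (g := fun _ => (1 : ℝ)) fun i _ =>
      (sq_le_one_iff_abs_le_one _).2 (abs_tanh_le _)).trans ?_
    simpa using le_mul_of_one_le_left (Nat.cast_nonneg n)
      (one_le_two.trans (le_max_right C 2))

/-- Fields against increments. -/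
lemma test_id (hT : TestsStatement β) (hΛ : 0 ≤ Λ) (k : ℕ) : ∃ m : ℕ, ∀ C, ∃ C', 0 ≤ C' ∧
    ∀ (n : ℕ) (J : Fin n → Fin n → ℝ) (F : (Fin n → Bool) → ℝ), 0 < n →
      GoodWords β m C J → OpSq J Λ → (∀ x, 0 < F x) →
        |tmean (gibbs J 0) F (fun x => ∑ i, Zit β J x k i * Dit β J x k i)|
          ≤ C' * errSize J F := by
  obtain ⟨m, hm⟩ := hT k
  refine ⟨m, fun C => ?_⟩
  set C₂ := max C (max 1 (2 * (Λ + β ^ 4)))
  obtain ⟨C', hC'⟩ := hm C₂
  refine ⟨max C' 0, le_max_right _ _, fun n J F hn hG hO hF => ?_⟩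
  have h1 : 1 ≤ C₂ := le_max_of_le_right (le_max_left _ _)
  have h := (hC' n J 0 0 F (fun _ => 1) id (fun _ => 1) (fun _ => 0)
    (goodWords_mono hG le_rfl (le_max_left _ _)) hF (slow_const (zero_le_one.trans h1))
    (fun t => ⟨hasDerivAt_id t, hasDerivAt_const t 1, by simpa using h1,
      by simpa using zero_le_one.trans h1⟩) (fun x => ?_) k le_rfl).1
  · simp only [one_mul, id] at h
    refine h.trans ?_
    rw [errSize, mul_assoc]
    exact mul_le_mul_of_nonneg_right (le_max_left _ _) (by positivity)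
  · exact (sum_zit_sq_le' hn hΛ hO k).trans (mul_le_mul_of_nonneg_right
      (le_max_of_le_right (le_max_right _ _)) (Nat.cast_nonneg n))

/-- An Onsager coefficient times a later iterate against an increment. -/
lemma test_onsager (hT : TestsStatement β) (l k : ℕ) : ∃ m : ℕ, ∀ C, ∃ C', 0 ≤ C' ∧
    ∀ (n : ℕ) (J : Fin n → Fin n → ℝ) (F : (Fin n → Bool) → ℝ),
      GoodWords β m C J → (∀ x, 0 < F x) → ∀ j ≤ k,
        |tmean (gibbs J 0) F (fun x =>
            onsager β (Ait β J x (l + 1)) * ∑ i, Ait β J x (k + 1) i * Dit β J x j i)|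
          ≤ C' * errSize J F := by
  obtain ⟨m, hm⟩ := test_tanh hT k
  refine ⟨max m (l + 1), fun C => ?_⟩
  obtain ⟨R, -, hR⟩ := exists_zgrad β C l
  set b := 1 + β ^ 2 with hb
  have hb0 : 0 < b := by positivity
  obtain ⟨C', hC0, hC'⟩ := hm (max C (bGrad β C l R / b ^ 2))
  refine ⟨b * C', by positivity, fun n J F hG hF j hj => ?_⟩
  set s := fun x : Fin n → Bool => onsager β (Ait β J x (l + 1)) / b with hs
  have hslow : SlowScalar (max C (bGrad β C l R / b ^ 2)) s := fun x => by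
    refine ⟨?_, le_max_of_le_right ?_⟩
    · rw [hs]
      simp only [abs_div, abs_of_pos hb0]
      refine div_le_one_of_le₀ ((abs_onsager_le β (abs_ampA_le β J 0 x _)).trans ?_) hb0.le
      linarith
    · have h := (hR (Fin n) _ J 0 x (le_max_right m (l + 1)) hG).gradB hG (le_max_right _ _)
      have e : ∀ i, deriv2 i s x
          = deriv2 i (fun z => onsager β (Ait β J z (l + 1))) x / b := fun i => by
        simp only [hs, deriv2]
        ring
      simp only [e, div_pow, ← sum_div]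
      rw [← mul_div_assoc]
      refine div_le_div_of_nonneg_right ?_ (by positivity)
      simpa [scGrad] using h
  have h := hC' n J F s (goodWords_mono hG (le_max_left _ _) (le_max_left _ _)) hF hslow j hj
  have e : (fun x => onsager β (Ait β J x (l + 1)) * ∑ i, Ait β J x (k + 1) i * Dit β J x j i)
      = fun x => b * (s x * ∑ i, Ait β J x (k + 1) i * Dit β J x j i) := by
    funext x
    simp only [hs]
    field_simp
  rw [e, tmean_mul, abs_mul, abs_of_pos hb0, mul_assoc]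
  exact mul_le_mul_of_nonneg_left h hb0.le

/-- The fall of the squared norm is the increment, up to an error. -/
lemma step_sq (hT : TestsStatement β) (k : ℕ) : ∃ m : ℕ, ∀ C, ∃ C', 0 ≤ C' ∧
    ∀ (n : ℕ) (J : Fin n → Fin n → ℝ) (F : (Fin n → Bool) → ℝ), 0 < n →
      GoodWords β m C J → (∀ x, 0 < F x) →
        |(n : ℝ) * (tmean (gibbs J 0) F (fun x => qav (Ait β J x k))
            - tmean (gibbs J 0) F (fun x => qav (Ait β J x (k + 1))))
          - tmean (gibbs J 0) F (fun x => ∑ i, Dit β J x k i ^ 2)| ≤ C' * errSize J F := by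
  obtain ⟨m, hm⟩ := test_tanh hT k
  refine ⟨m, fun C => ?_⟩
  obtain ⟨C', hC0, hC'⟩ := hm (max C 1)
  refine ⟨2 * C', by positivity, fun n J F hn hG hF => ?_⟩
  have h := hC' n J F (fun _ => 1) (goodWords_mono hG le_rfl (le_max_left _ _)) hF
    (slow_const (zero_le_one.trans (le_max_right _ _))) k le_rfl
  simp only [one_mul] at h
  rw [← tmean_sub, ← tmean_mul, ← tmean_sub]
  simp only [qav_step hn, add_sub_cancel_left]
  rw [tmean_mul, abs_mul, abs_two, mul_assoc]
  exact mul_le_mul_of_nonneg_left h zero_le_two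

/-! ### The radius -/

/-- After boundedly many steps the squared norm is at most `2 ρ`. -/
lemma radius_aux (hT : TestsStatement β) {ρ κ : ℝ} (hρ : 0 < ρ) (hκ : 0 < κ) (hΛ : 0 ≤ Λ) :
    ∃ L : ℕ, ∀ K ≥ L, ∃ m : ℕ, ∀ C, ∃ C', 0 ≤ C' ∧
      ∀ (n : ℕ) (J : Fin n → Fin n → ℝ) (F : (Fin n → Bool) → ℝ), 0 < n →
        GoodWords β m C J → OpSq J Λ → RadialAt β ρ κ J → (∀ x, 0 < F x) →
          n * tmean (gibbs J 0) F (fun x => qav (Ait β J x K))
            ≤ n * (2 * ρ) + C' * errSize J F := by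
  set c := (3 * Λ + 18 * β ^ 4) / κ ^ 2 with hc
  have hc0 : 0 ≤ c := by positivity
  set L := ⌈2 * c / ρ⌉₊ + 1 with hL
  have hL1 : (1 : ℝ) ≤ L := by simp [hL]
  have hL2 : 2 * c ≤ L * ρ := by
    have := (div_le_iff₀ hρ).1 (Nat.le_ceil (2 * c / ρ))
    rw [hL]
    push_cast
    linarith
  choose m C' hC0 hC' using fun k => step_sq hT k
  refine ⟨L + 1, fun K hK => ⟨(range K).sup m, fun C => ?_⟩⟩
  set D := ∑ k ∈ range K, C' k C with hD
  have hD0 : 0 ≤ D := sum_nonneg fun k _ => hC0 k C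
  refine ⟨(1 + 2 * c) * D, by positivity, fun n J F hn hG hO hR hF => ?_⟩
  set e := errSize J F with he
  have he0 : 0 ≤ e := by rw [he, errSize]; positivity
  set q := fun k => (n : ℝ) * tmean (gibbs J 0) F (fun x => qav (Ait β J x k)) with hq
  set S := fun k => tmean (gibbs J 0) F (fun x => ∑ i, Dit β J x k i ^ 2) with hS
  have hS0 : ∀ k, 0 ≤ S k := fun k => (tmean_const hF (0 : ℝ)).symm.trans_le
    (tmean_mono hF fun x => sum_nonneg fun _ _ => sq_nonneg _)
  have hstep : ∀ k < K, |q k - q (k + 1) - S k| ≤ C' k C * e := fun k hk => by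
    have := hC' k C n J F hn
      (goodWords_mono hG (le_sup (f := m) (mem_range.2 hk)) le_rfl) hF
    rwa [mul_sub] at this
  have htel : ∀ b ≤ K, ∀ a ≤ b, ∑ k ∈ Ico a b, S k + q b ≤ q a + D * e := by
    intro b hb a hab
    have h1 : ∑ k ∈ Ico a b, S k + q b - q a ≤ ∑ k ∈ Ico a b, C' k C * e := by
      have h2 : q b - q a = ∑ k ∈ Ico a b, (q (k + 1) - q k) := (sum_Ico_sub q hab).symm
      rw [add_sub_assoc, h2, ← sum_add_distrib]
      refine sum_le_sum fun k hk => ?_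
      have := (abs_le.1 (hstep k ((mem_Ico.1 hk).2.trans_le hb))).1
      linarith
    have h3 : ∑ k ∈ Ico a b, C' k C * e ≤ D * e := by
      rw [hD, sum_mul]
      exact sum_le_sum_of_subset_of_nonneg
        (fun k hk => mem_range.2 ((mem_Ico.1 hk).2.trans_le hb))
        fun k _ _ => mul_nonneg (hC0 k C) he0
    linarith
  have hq0 : ∀ k, 0 ≤ q k := fun k => mul_nonneg (Nat.cast_nonneg n)
    ((tmean_const hF (0 : ℝ)).symm.trans_le (tmean_mono hF fun x => (qav_mem_it k).1))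
  have hqz : q 0 = n := by simp [hq, qav_zero hn, tmean_const hF]
  have hbud : ∀ b ≤ K, ∑ k ∈ range b, S k ≤ n + D * e := fun b hb => by
    have := htel b hb 0 (Nat.zero_le b)
    rw [Nat.Ico_zero_eq_range, hqz] at this
    linarith [hq0 b]
  have hrad : ∀ k, q (k + 2) ≤ n * ρ + c * (S k + S (k + 1)) := fun k => by
    simp only [hq, hS]
    rw [← tmean_mul, ← tmean_add, ← tmean_mul, ← tmean_const (J := J) (h := 0) hF ((n : ℝ) * ρ),
      ← tmean_add]
    exact tmean_mono hF fun x => radial_point hρ.le hκ hΛ hn hO hR k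
  have hall : ∀ k ∈ range L, q K ≤ n * ρ + D * e + c * (S k + S (k + 1)) := fun k hk => by
    have hk2 : k + 2 ≤ K := by
      have := mem_range.1 hk
      omega
    have h1 := htel K le_rfl (k + 2) hk2
    have h2 : 0 ≤ ∑ l ∈ Ico (k + 2) K, S l := sum_nonneg fun l _ => hS0 l
    linarith [hrad k]
  have hsum := sum_le_sum hall
  simp only [sum_add_distrib, ← mul_sum, sum_const, card_range, nsmul_eq_mul] at hsum
  have hb1 := hbud L (by omega)
  have hb2 : ∑ k ∈ range L, S (k + 1) ≤ n + D * e := by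
    have h := hbud (L + 1) hK
    rw [sum_range_succ'] at h
    linarith [hS0 0]
  have hb3 := mul_le_mul_of_nonneg_left (add_le_add hb1 hb2) hc0
  have hb4 := mul_le_mul_of_nonneg_left hL2 (Nat.cast_nonneg (α := ℝ) n)
  have hb5 : c * (D * e) ≤ L * (c * (D * e)) := le_mul_of_one_le_left (by positivity) hL1
  refine le_of_mul_le_mul_left (a := (L : ℝ)) ?_ (by linarith)
  change (L : ℝ) * q K ≤ _
  linarith

/-- The squared norm of the iterates falls below `2 ρ` in a number of steps that does not depend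
on the constant of the words. -/
theorem zeroField_radius (hT : TestsStatement β) {ρ κ : ℝ} (hρ : 0 < ρ) (hκ : 0 < κ)
    (hΛ : 0 ≤ Λ) :
    ∃ L : ℕ, ∀ K ≥ L, ∃ m : ℕ, ∀ C, ∃ C',
      ∀ (n : ℕ) (J : Fin n → Fin n → ℝ) (F : (Fin n → Bool) → ℝ), 0 < n →
        GoodWords β m C J → OpSq J Λ → RadialAt β ρ κ J → (∀ x, 0 < F x) →
          tmean (gibbs J 0) F (fun x => qav (ampA β J 0 (spins x) K))
            ≤ 2 * ρ + C' * √((tdir (gibbs J 0) F + 1) / n) := by
  obtain ⟨L, hL⟩ := radius_aux hT hρ hκ hΛ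
  refine ⟨L, fun K hK => ?_⟩
  obtain ⟨m, hm⟩ := hL K hK
  refine ⟨m, fun C => ?_⟩
  obtain ⟨C', -, hC'⟩ := hm C
  refine ⟨C', fun n J F hn hG hO hR hF => ?_⟩
  have hn' : (0 : ℝ) < n := Nat.cast_pos.2 hn
  have h := hC' n J F hn hG hO hR hF
  rw [errSize] at h
  rw [sqrt_div' _ hn'.le, ← mul_div_assoc]
  refine le_of_mul_le_mul_left (h.trans (le_of_eq ?_)) hn'
  have hs : √(n : ℝ) ^ 2 = n := sq_sqrt hn'.le
  have : √(n : ℝ) ≠ 0 := (sqrt_pos.2 hn').ne'
  field_simp
  linear_combination C' * √(tdir (gibbs J 0) F + 1) * hs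

/-! ### The energy -/

/-- The pairing of a field with the next iterate. -/
noncomputable def fieldPair (β : ℝ) (J : Fin n → Fin n → ℝ) (x : Fin n → Bool) (k : ℕ) : ℝ :=
  ∑ i, Ait β J x (k + 1) i * Zit β J x k i

lemma fieldPair_step_zero (hn : 0 < n) (hs : ∀ i j, J i j = J j i) :
    fieldPair β J x 0 - fieldPair β J x 1
        - n * β ^ 2 * (qav (Ait β J x 0) - qav (Ait β J x 1))
      = ((∑ i, act J (Ait β J x 1) i * Dit β J x 0 i)
          - n * (onsager β (Ait β J x 1) * (qav (Ait β J x 0) - qav (Ait β J x 1))))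
        + onsager β (Ait β J x 1) * (∑ i, Ait β J x 1 i * Dit β J x 0 i)
        + ∑ i, Zit β J x 1 i * Dit β J x 1 i := by
  have e1 : ∀ i, Dit β J x 0 i = Ait β J x 0 i - Ait β J x 1 i := fun i => rfl
  have hq := mul_qav hn (Ait β J x 1)
  have hB : onsager β (Ait β J x 1) = β ^ 2 * (1 - qav (Ait β J x 1)) := rfl
  simp only [fieldPair, zit_zero, zit_succ, e1, ampD, mul_sub, sub_mul, sum_sub_distrib,
    sum_mul_act_comm hs (Ait β J x 1)]
  have p1 : ∑ i, Ait β J x 2 i * (onsager β (Ait β J x 1) * Ait β J x 0 i)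
      = onsager β (Ait β J x 1) * ∑ i, Ait β J x 2 i * Ait β J x 0 i := by
    rw [mul_sum]; exact sum_congr rfl fun i _ => by ring
  have p2 : ∑ i, onsager β (Ait β J x 1) * Ait β J x 0 i * Ait β J x 2 i
      = onsager β (Ait β J x 1) * ∑ i, Ait β J x 2 i * Ait β J x 0 i := by
    rw [mul_sum]; exact sum_congr rfl fun i _ => by ring
  have p3 : ∑ i, onsager β (Ait β J x 1) * Ait β J x 0 i * Ait β J x 1 i
      = onsager β (Ait β J x 1) * ∑ i, Ait β J x 1 i * Ait β J x 0 i := by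
    rw [mul_sum]; exact sum_congr rfl fun i _ => by ring
  have p4 : ∑ i, act J (Ait β J x 1) i * Ait β J x 2 i
      = ∑ i, Ait β J x 2 i * act J (Ait β J x 1) i := sum_congr rfl fun i _ => mul_comm _ _
  have p5 : ∑ i, Ait β J x 1 i * Ait β J x 1 i = ∑ i, Ait β J x 1 i ^ 2 :=
    sum_congr rfl fun i _ => (sq _).symm
  have hq0 := qav_zero (β := β) (J := J) (x := x) hn
  rw [p1, p2, p3, p4, p5, ← hq, hq0, hB]
  ring

lemma fieldPair_step_succ (hn : 0 < n) (hs : ∀ i j, J i j = J j i) (k : ℕ) :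
    fieldPair β J x (k + 1) - fieldPair β J x (k + 2)
        - n * β ^ 2 * (qav (Ait β J x (k + 1)) - qav (Ait β J x (k + 2)))
      = ((∑ i, act J (Ait β J x (k + 2)) i * Dit β J x (k + 1) i)
          - n * (onsager β (Ait β J x (k + 2))
            * (qav (Ait β J x (k + 1)) - qav (Ait β J x (k + 2)))))
        + onsager β (Ait β J x (k + 2)) * (∑ i, Ait β J x (k + 2) i * Dit β J x (k + 1) i)
        - onsager β (Ait β J x (k + 1)) * (∑ i, Ait β J x (k + 2) i * Dit β J x (k + 1) i)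
        - onsager β (Ait β J x (k + 1)) * (∑ i, Ait β J x (k + 2) i * Dit β J x k i)
        + ∑ i, Zit β J x (k + 2) i * Dit β J x (k + 2) i := by
  set a0 := Ait β J x k
  set a1 := Ait β J x (k + 1)
  set a2 := Ait β J x (k + 2)
  set a3 := Ait β J x (k + 3)
  have hj : ∑ i, act J a2 i * a1 i = ∑ i, a2 i * act J a1 i := (sum_mul_act_comm hs a2 a1).symm
  have q2 := mul_qav hn a2
  have hz2 : ∀ i, Zit β J x (k + 2) i = act J a2 i - onsager β a2 * a1 i := zit_succ (k + 1)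
  have hz1 : ∀ i, Zit β J x (k + 1) i = act J a1 i - onsager β a1 * a0 i := zit_succ k
  have e : fieldPair β J x (k + 1) - fieldPair β J x (k + 2)
      - (∑ i, act J a2 i * Dit β J x (k + 1) i)
      - onsager β a2 * (∑ i, a2 i * Dit β J x (k + 1) i)
      + onsager β a1 * (∑ i, a2 i * Dit β J x (k + 1) i)
      + onsager β a1 * (∑ i, a2 i * Dit β J x k i)
      - (∑ i, Zit β J x (k + 2) i * Dit β J x (k + 2) i)
      - (∑ i, a2 i * act J a1 i - ∑ i, act J a2 i * a1 i)
      = (onsager β a2 - onsager β a1) * ∑ i, a2 i ^ 2 := by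
    simp only [fieldPair, mul_sum, ← sum_sub_distrib, ← sum_add_distrib]
    refine sum_congr rfl fun i _ => ?_
    rw [hz1, hz2]
    simp only [a0, a1, a2, ampD]
    ring
  rw [hj, sub_self, sub_zero, ← q2] at e
  have hB : ∀ u : Fin n → ℝ, onsager β u = β ^ 2 * (1 - qav u) := fun u => rfl
  simp only [hB] at e ⊢
  linear_combination e

/-- One step of the energy. -/
lemma step_energy (hT : TestsStatement β) (hE : EnergyStepStatement β) (hΛ : 0 ≤ Λ) (k : ℕ) :
    ∃ m : ℕ, ∀ C, ∃ C', 0 ≤ C' ∧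
      ∀ (n : ℕ) (J : Fin n → Fin n → ℝ) (F : (Fin n → Bool) → ℝ), 0 < n →
        GoodWords β m C J → OpSq J Λ → (∀ x, 0 < F x) →
          |tmean (gibbs J 0) F (fun x => fieldPair β J x k - fieldPair β J x (k + 1)
              - n * β ^ 2 * (qav (Ait β J x k) - qav (Ait β J x (k + 1))))|
            ≤ C' * errSize J F := by
  obtain ⟨mE, hmE⟩ := hE k
  obtain ⟨mI, hmI⟩ := test_id hT hΛ (k + 1)
  obtain ⟨mB, hmB⟩ := test_onsager hT k k
  obtain ⟨mP, hmP⟩ := test_onsager hT (k - 1) k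
  refine ⟨max (max mE mI) (max mB mP), fun C => ?_⟩
  obtain ⟨CE, hCE⟩ := hmE C
  obtain ⟨CI, hI0, hCI⟩ := hmI C
  obtain ⟨CB, hB0, hCB⟩ := hmB C
  obtain ⟨CP, hP0, hCP⟩ := hmP C
  refine ⟨max CE 0 + CI + CB + 2 * CP, by positivity, fun n J F hn hG hO hF => ?_⟩
  have he0 : 0 ≤ errSize J F := by rw [errSize]; positivity
  have hs := hG.1
  have hm : mE ≤ max (max mE mI) (max mB mP) := le_max_of_le_left (le_max_left _ _)
  have hE' := hCE n J 0 F (goodWords_mono hG hm le_rfl) hF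
  rw [mul_assoc CE] at hE'
  have hE'' := hE'.trans (mul_le_mul_of_nonneg_right (le_max_left CE 0) he0)
  have hI' := hCI n J F hn
    (goodWords_mono hG (le_max_of_le_left (le_max_right _ _)) le_rfl) hO hF
  have hB' := hCB n J F
    (goodWords_mono hG (le_max_of_le_right (le_max_left _ _)) le_rfl) hF k le_rfl
  have hP' := hCP n J F (goodWords_mono hG (le_max_of_le_right (le_max_right _ _)) le_rfl) hF
  cases k with
  | zero =>
    simp only [fieldPair_step_zero hn hs, tmean_add]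
    refine (abs_add_le _ _).trans ?_
    have := abs_add_le
      (tmean (gibbs J 0) F fun x => (∑ i, act J (Ait β J x 1) i * Dit β J x 0 i)
        - n * (onsager β (Ait β J x 1) * (qav (Ait β J x 0) - qav (Ait β J x 1))))
      (tmean (gibbs J 0) F fun x =>
        onsager β (Ait β J x 1) * ∑ i, Ait β J x 1 i * Dit β J x 0 i)
    have := mul_nonneg hP0 he0
    simp only [errSize, zero_add] at *
    linarith
  | succ k =>
    have hP1 := hP' (k + 1) le_rfl
    have hP2 := hP' k (Nat.le_succ k)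
    simp only [Nat.add_sub_cancel] at hP1 hP2
    simp only [fieldPair_step_succ hn hs, tmean_add, tmean_sub]
    simp only [tmean_sub] at hE''
    simp only [errSize, add_assoc, one_add_one_eq_two] at *
    rw [abs_le] at hE'' hI' hB' hP1 hP2 ⊢
    constructor <;> linarith [hE''.1, hE''.2, hI'.1, hI'.2, hB'.1, hB'.2, hP1.1, hP1.2,
      hP2.1, hP2.2]

lemma abs_fieldPair_le (hn : 0 < n) (hO : OpSq J Λ) (k : ℕ) :
    |fieldPair β J x (k + 1)| ≤ 1 / 2 * (n * qav (Ait β J x (k + 2)))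
      + Λ * (n * qav (Ait β J x (k + 1))) + β ^ 4 * (n * qav (Ait β J x k)) := by
  have h1 : |fieldPair β J x (k + 1)|
      ≤ (∑ i, Ait β J x (k + 2) i ^ 2 + ∑ i, Zit β J x (k + 1) i ^ 2) / 2 := by
    rw [fieldPair, ← sum_add_distrib, sum_div]
    refine (abs_sum_le_sum_abs _ _).trans (sum_le_sum fun i _ => ?_)
    rw [abs_mul, ← sq_abs (Ait β J x (k + 1 + 1) i), ← sq_abs (Zit β J x (k + 1) i)]
    nlinarith [sq_nonneg (|Ait β J x (k + 1 + 1) i| - |Zit β J x (k + 1) i|)]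
  rw [← mul_qav hn] at h1
  linarith [sum_zit_sq_le (β := β) (x := x) hn hO k]

/-- At zero field every tilt of small Dirichlet form has energy `n β²`, up to the radius. -/
theorem zeroField_energy (hT : TestsStatement β) (hE : EnergyStepStatement β) {ρ κ : ℝ}
    (hρ : 0 < ρ) (hκ : 0 < κ) (hΛ : 0 ≤ Λ) :
    ∃ m : ℕ, ∀ C, ∃ C',
      ∀ (n : ℕ) (J : Fin n → Fin n → ℝ) (F : (Fin n → Bool) → ℝ), 0 < n →
        GoodWords β m C J → OpSq J Λ → RadialAt β ρ κ J → (∀ x, 0 < F x) →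
          |tmean (gibbs J 0) F (fun x => ∑ i, spins x i * act J (spins x) i) - n * β ^ 2|
            ≤ n * ((1 + 2 * β ^ 2 + 2 * β ^ 4 + 2 * Λ) * ρ)
              + C' * √n * √(tdir (gibbs J 0) F + 1) := by
  obtain ⟨L, hL⟩ := radius_aux hT hρ hκ hΛ
  obtain ⟨m0, hm0⟩ := hL L le_rfl
  obtain ⟨m1, hm1⟩ := hL (L + 1) (by omega)
  obtain ⟨m2, hm2⟩ := hL (L + 2) (by omega)
  obtain ⟨mI, hmI⟩ := test_id hT hΛ 0
  choose mS CS hS0 hS using fun k => step_energy hT hE hΛ k
  set M := max ((range (L + 1)).sup mS) (max (max m0 m1) (max m2 mI))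
  refine ⟨M, fun C => ?_⟩
  obtain ⟨D0, hD0, h0⟩ := hm0 C
  obtain ⟨D1, hD1, h1⟩ := hm1 C
  obtain ⟨D2, hD2, h2⟩ := hm2 C
  obtain ⟨DI, hDI, hI⟩ := hmI C
  refine ⟨DI + ∑ k ∈ range (L + 1), CS k C + β ^ 2 * D1
    + (1 / 2 * D2 + Λ * D1 + β ^ 4 * D0), fun n J F hn hG hO hR hF => ?_⟩
  rw [show ∀ a : ℝ, a * √n * √(tdir (gibbs J 0) F + 1) = a * errSize J F from
    fun a => by rw [errSize, mul_assoc]]
  set e := errSize J F with he
  have g : ∀ {a : ℕ}, a ≤ M → GoodWords β a C J := fun h => goodWords_mono hG h le_rfl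
  have q0 := h0 n J F hn (g (le_max_of_le_right (le_max_of_le_left (le_max_left _ _)))) hO hR hF
  have q1 := h1 n J F hn (g (le_max_of_le_right (le_max_of_le_left (le_max_right _ _)))) hO hR hF
  have q2 := h2 n J F hn (g (le_max_of_le_right (le_max_of_le_right (le_max_left _ _)))) hO hR hF
  have qI := hI n J F hn (g (le_max_of_le_right (le_max_of_le_right (le_max_right _ _)))) hO hF
  set X := fun k => tmean (gibbs J 0) F (fun x => fieldPair β J x k) with hX
  set q := fun k => (n : ℝ) * tmean (gibbs J 0) F (fun x => qav (Ait β J x k)) with hq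
  have hbase : |tmean (gibbs J 0) F (fun x => ∑ i, spins x i * act J (spins x) i) - X 0|
      ≤ DI * e := by
    rw [hX, ← tmean_sub]
    refine le_of_eq_of_le ?_ qI
    refine congrArg abs (congrArg _ (funext fun x => ?_))
    rw [fieldPair, ← sum_sub_distrib]
    exact sum_congr rfl fun i _ => by simp [ampD, ampZ, ampA]; ring
  have hstep : ∀ k ∈ range (L + 1),
      |X k - X (k + 1) - β ^ 2 * (q k - q (k + 1))| ≤ CS k C * e := fun k hk => by
    have h := hS k C n J F hn (g (le_max_of_le_left (le_sup (f := mS) hk))) hO hF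
    rw [tmean_sub, tmean_sub, tmean_mul, tmean_sub] at h
    refine le_of_eq_of_le (congrArg abs ?_) h
    simp only [hX, hq]
    ring
  have hsum : |X 0 - X (L + 1) - β ^ 2 * (q 0 - q (L + 1))|
      ≤ (∑ k ∈ range (L + 1), CS k C) * e := by
    rw [sum_mul]
    refine le_of_eq_of_le ?_ ((abs_sum_le_sum_abs _ _).trans (sum_le_sum hstep))
    rw [sum_sub_distrib, ← mul_sum, sum_range_sub', sum_range_sub']
  have hqz : q 0 = n := by simp [hq, qav_zero hn, tmean_const hF]
  have hfin : |X (L + 1)| ≤ 1 / 2 * q (L + 2) + Λ * q (L + 1) + β ^ 4 * q L := by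
    refine (abs_tmean_le hF fun x => abs_fieldPair_le hn hO L).trans_eq ?_
    simp only [hq, tmean_add, tmean_mul]
  have h1' := mul_le_mul_of_nonneg_left q1 hΛ
  have h0' := mul_le_mul_of_nonneg_left q0 (show 0 ≤ β ^ 4 by positivity)
  have hb := mul_le_mul_of_nonneg_left q1 (sq_nonneg β)
  have hq1 : 0 ≤ β ^ 2 * q (L + 1) :=
    mul_nonneg (sq_nonneg β) (mul_nonneg (Nat.cast_nonneg n)
      ((tmean_const hF (0 : ℝ)).symm.trans_le (tmean_mono hF fun x => (qav_mem_it _).1)))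
  rw [hqz] at hsum
  simp only [hX, hq] at hbase hsum hfin hq1
  rw [abs_le] at hbase hsum hfin ⊢
  constructor <;>
    linarith [hbase.1, hbase.2, hsum.1, hsum.2, hfin.1, hfin.2, q2]

end Vale.Agent.P150.Beta1.Profile
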