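import Vale.Agent.P150.Beta1.Profile.Grid
import Vale.Agent.P150.Beta1.Statements
import Vale.Agent.P150.Beta1.Words.Main
import Vale.Agent.P150.Beta1.Words.Event
import Vale.Agent.P150.Beta1.Trap.Main

/-!
# The profile: the mean magnetisation stays below the replica-symmetric one

The level recursion turns the small start (zero field radius) into concentration of `Q_K` around
`psi (profS i)` at every grid point; the squared mean is at most the mean of `Q_K`.
-/

namespace Vale.Agent.P150.Beta1.Profile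

open MeasureTheory ProbabilityTheory Finset Filter Function Real
open Local
open Words (OpSq radSq Ev)
open scoped ENNReal Topology

variable {n : ℕ} {β : ℝ} {J : Fin n → Fin n → ℝ} {F : (Fin n → Bool) → ℝ}

/-- Continuity of a tilted mean in the field. -/
lemma continuous_tmean_gibbs (hF : ∀ x, 0 < F x) (f : (Fin n → Bool) → ℝ) :
    Continuous fun y : Fin n → ℝ => tmean (gibbs J y) F f := by
  have hρ : ∀ z, Continuous fun y : Fin n → ℝ => gibbs J y z := fun z => by
    simp only [gibbs, energy]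
    exact Continuous.div₀ (by fun_prop) (by fun_prop) fun q => partition_pos.ne'
  exact Continuous.div₀ (continuous_finsetSum _ fun z _ => (hρ z).mul continuous_const)
    (continuous_finsetSum _ fun z _ => (hρ z).mul continuous_const)
    fun y => (mean_pos (IsWeight.gibbs J y) hF).ne'

lemma abs_tmean_le_one (hF : ∀ x, 0 < F x) (y : Fin n → ℝ) (i : Fin n) :
    |tmean (gibbs J y) F (fun z => spins z i)| ≤ 1 :=
  (abs_tmean_le hF fun z => Rule.abs_spins_le z i).trans_eq (tmean_const hF 1)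

/-- The squared mean is at most the mean of `Q_K`. -/
lemma magSq_le (hR : RuleStatement β) (K : ℕ) : ∃ m : ℕ, ∀ C, ∃ C', 0 ≤ C' ∧ ∀ (n : ℕ), 0 < n →
    ∀ (J : Fin n → Fin n → ℝ), GoodWords β m C J →
    ∀ F : (Fin n → Bool) → ℝ, (∀ x, 0 < F x) → mean (p0 J) F = 1 → ∀ v, 0 ≤ v →
      magSq J F v ≤ n * (pE J F v (fun x y => qav (ampA β J y (spins x) K)) + C' * errN J F) := by
  choose m hm using fun j => hR j
  refine ⟨(range K).sup m, fun C => ?_⟩
  choose C₁ hC₁ using fun j => hm j C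
  set S := ∑ j ∈ range K, max (C₁ j) 0
  refine ⟨4 * S, mul_nonneg zero_le_four (sum_nonneg fun j _ => le_max_right _ _),
    fun n hn J hG F hF hmass v hv => ?_⟩
  have hn' : (0:ℝ) < n := Nat.cast_pos.2 hn
  set b := fun (y : Fin n → ℝ) i => tmean (gibbs J y) F fun z => spins z i
  set A := fun (x : Fin n → Bool) (y : Fin n → ℝ) => ampA β J y (spins x) K
  set Φ := fun (x : Fin n → Bool) (y : Fin n → ℝ) => avg fun i => (spins x i - A x y i) * b y i
  set Q := fun (x : Fin n → Bool) (y : Fin n → ℝ) => qav (A x y)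
  set P := fun (x : Fin n → Bool) (y : Fin n → ℝ) => avg fun i => spins x i * b y i
  set B2 := fun (_ : Fin n → Bool) (y : Fin n → ℝ) => qav (b y)
  have hb : ∀ y i, |b y i| ≤ 1 := fun y i => abs_tmean_le_one hF y i
  have hA : ∀ x y i, |A x y i| ≤ 1 := fun x y i => Rule.abs_ampA_le β J y x K i
  have cb : ∀ i, Continuous fun y => b y i := fun i => continuous_tmean_gibbs hF _
  have cA : ∀ x i, Continuous fun y => A x y i := fun x i =>
    (continuous_apply i).comp (continuous_ampA' x K)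
  have bq : ∀ {w : Fin n → ℝ}, (∀ i, |w i| ≤ 1) → |qav w| ≤ 1 := fun hw => by
    rw [abs_of_nonneg (Rule.qav_mem hw).1]; exact (Rule.qav_mem hw).2
  have hP : BddCont2 fun x y _ => P x y := bddCont2_fst (fun x => (continuous_finsetSum _ fun i _ =>
    continuous_const.mul (cb i)).div_const _) (B := 1) fun x y => abs_avg_le_of_le zero_le_one
      fun i => by rw [abs_mul]; exact mul_le_one₀ (Rule.abs_spins_le x i) (abs_nonneg _) (hb y i)
  have hQ : BddCont2 fun x y _ => Q x y := bddCont2_fst (fun x => (continuous_finsetSum _ fun i _ =>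
    (cA x i).pow 2).div_const _) (B := 1) fun x y => bq (hA x y)
  have hB2 : BddCont2 fun x y _ => B2 x y := bddCont2_fst (fun x => (continuous_finsetSum _ fun i _ =>
    (cb i).pow 2).div_const _) (B := 1) fun x y => bq (hb y)
  have cΦ : ∀ x, Continuous (Φ x) := fun x => (continuous_finsetSum _ fun i _ =>
    (continuous_const.sub (cA x i)).mul (cb i)).div_const _
  have bΦ : ∀ x y, |Φ x y| ≤ 2 := fun x y => abs_avg_le_of_le zero_le_two fun i => by
    rw [abs_mul]
    exact (mul_le_of_le_one_right (abs_nonneg _) (hb y i)).trans ((abs_sub _ _).trans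
      (by linarith [Rule.abs_spins_le x i, hA x y i]))
  have tΦ : ∀ y, |tmean (gibbs J y) F (fun x => Φ x y)| ≤ 2 * S / √n * √(tdir (gibbs J y) F + 1) := by
    intro y
    set s := √(tdir (gibbs J y) F + 1)
    have hj : ∀ j ∈ range K, |tmean (gibbs J y) F (fun x => ∑ i, ampD β J y (spins x) j i * b y i)|
        ≤ max (C₁ j) 0 * s * (2 * √n) := fun j hjK => by
      have h := hC₁ j n J y F (fun _ => b y) (goodWords_mono hG (Finset.le_sup hjK) le_rfl) hF
      have e0 : ∀ x, tracePair (ampL β J y (spins x) j) (fun _ => b y) x = 0 := fun x => by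
        simp [tracePair, deriv2]
      have e1 : tmean (gibbs J y) F (fun _ => (0:ℝ)) = 0 := tmean_const hF 0
      simp only [e0, e1, sub_zero] at h
      refine h.trans (mul_le_mul (mul_le_mul_of_nonneg_right (le_max_left _ _) (Real.sqrt_nonneg _))
        ?_ (Real.sqrt_nonneg _) (mul_nonneg (le_max_right _ _) (Real.sqrt_nonneg _)))
      have ht : tmean (gibbs J y) F (testSq fun _ => b y) ≤ n := by
        refine (tmean_mono hF fun x => ?_).trans_eq (tmean_const hF (n:ℝ))
        simp only [testSq, deriv2, sub_self, zero_div, ne_eq, OfNat.ofNat_ne_zero, not_false_iff,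
          zero_pow, sum_const_zero, add_zero]
        refine (sum_le_sum fun i _ => (sq_le_one_iff_abs_le_one _).2 (hb y i)).trans_eq ?_
        simp
      rw [Real.sqrt_le_left (by positivity), mul_pow, Real.sq_sqrt hn'.le]
      linarith [(Nat.one_le_cast (α := ℝ)).2 hn]
    have e : ∀ x, Φ x y = (n:ℝ)⁻¹ * ∑ j ∈ range K, ∑ i, ampD β J y (spins x) j i * b y i := fun x => by
      have : ∀ i, spins x i - A x y i = ∑ j ∈ range K, ampD β J y (spins x) j i := fun i => by
        simp only [A, ampA_eq_sub y x K i]; ring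
      simp only [Φ, avg, this, sum_mul, Fintype.card_fin]
      rw [sum_comm]
      ring
    have esum : tmean (gibbs J y) F (fun x => ∑ j ∈ range K, ∑ i, ampD β J y (spins x) j i * b y i)
        = ∑ j ∈ range K, tmean (gibbs J y) F (fun x => ∑ i, ampD β J y (spins x) j i * b y i) := by
      simp only [tmean, mean, ← sum_div]
      refine congrArg (· / _) ?_
      simp only [mul_sum]
      rw [sum_comm]
    simp only [e, tmean_mul, esum, abs_mul, abs_inv, Nat.abs_cast]
    refine (mul_le_mul_of_nonneg_left ((abs_sum_le_sum_abs _ _).trans (sum_le_sum hj))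
      (inv_nonneg.2 hn'.le)).trans (le_of_eq ?_)
    rw [← sum_mul, ← sum_mul]
    change (n:ℝ)⁻¹ * (S * s * (2 * √n)) = _
    have hsn : √(n:ℝ) ≠ 0 := (Real.sqrt_pos.2 hn').ne'
    field_simp
    rw [Real.sq_sqrt hn'.le]
    ring
  have hS : 0 ≤ S := sum_nonneg fun j _ => le_max_right _ _
  have e1 : |pE J F v Φ| ≤ 2 * S * errN J F := by
    refine (abs_pE_le hF hmass hv cΦ bΦ (div_nonneg (by positivity) (Real.sqrt_nonneg _)) tΦ).trans
      (le_of_eq ?_)
    rw [errN, Real.sqrt_div' _ hn'.le]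
    ring
  have e2 : pE J F v P = magSq J F v / n ∧ pE J F v B2 = magSq J F v / n := by
    obtain ⟨B₁, hP'⟩ := hP
    obtain ⟨B₂, hB2'⟩ := hB2
    have cP : ∀ x, Continuous (P x) := fun x =>
      ((hP' x).1.comp (continuous_id.prodMk continuous_id) : _)
    have cB : ∀ x, Continuous (B2 x) := fun x =>
      ((hB2' x).1.comp (continuous_id.prodMk continuous_id) : _)
    rw [pE_eq F hv cP (fun x y => (hP' x).2 y y), pE_eq F hv cB (fun x y => (hB2' x).2 y y), magSq]
    simp only [← integral_div]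
    constructor <;> refine integral_congr_ae (ae_of_all _ fun g => ?_)
    · set y := fld v g
      have hmy := (mean_pos (IsWeight.gibbs J y) hF).ne'
      have eb : ∀ i, mean (gibbs J y) (fun z => F z * spins z i) = mean (gibbs J y) F * b y i :=
        fun i => by
          change _ = mean (gibbs J y) F * (mean (gibbs J y) (fun x => F x * spins x i)
            / mean (gibbs J y) F)
          rw [mul_div_cancel₀ _ hmy]
      have em : mean (gibbs J y) (fun x => F x * P x y)
          = (∑ i, b y i * mean (gibbs J y) (fun z => F z * spins z i)) / n := by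
        simp only [P, avg, mean, Fintype.card_fin, mul_sum, sum_div]
        rw [sum_comm]
        exact sum_congr rfl fun i _ => sum_congr rfl fun x _ => by ring
      beta_reduce
      rw [em]
      simp only [eb, mul_sum, sum_div]
      exact sum_congr rfl fun i _ => by simp only [b, y]; ring
    · set y := fld v g
      have em : mean (gibbs J y) (fun x => F x * B2 x y) = mean (gibbs J y) F * qav (b y) := by
        simp only [B2, mean, sum_mul]
        exact sum_congr rfl fun x _ => by ring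
      beta_reduce
      rw [em]
      simp only [qav, avg, Fintype.card_fin, b, y]
      ring
  have hle : ∀ x y, P x y ≤ 1 * Φ x y + 1 * ((1/2) * Q x y + (1/2) * B2 x y) := fun x y => by
    simp only [P, Φ, Q, B2, qav, avg, Fintype.card_fin, one_mul, mul_div_assoc', ← add_div, mul_sum,
      ← sum_add_distrib]
    refine div_le_div_of_nonneg_right (sum_le_sum fun i _ => ?_) hn'.le
    nlinarith [sq_nonneg (A x y i - b y i)]
  have iΦ : BddCont2 fun x y _ => Φ x y := bddCont2_fst cΦ bΦ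
  have h3 := pE_mono (J := J) (u := v) hF hP (iΦ.comb (hQ.comb hB2 (1/2) (1/2)) 1 1) hle
  rw [pE_comb iΦ (hQ.comb hB2 (1/2) (1/2)), pE_comb hQ hB2, e2.1, e2.2] at h3
  have h4 : magSq J F v / n ≤ pE J F v Q + 4 * S * errN J F := by linarith [(abs_le.1 e1).2]
  rw [div_le_iff₀ hn', mul_comm] at h4
  exact h4

/-- Between grid points the overlap moves by `O(√h)`. -/
lemma shift_le (β : ℝ) (k : ℕ) : ∀ C, ∃ C', 0 ≤ C' ∧ ∀ (n : ℕ), 0 < n →
    ∀ (J : Fin n → Fin n → ℝ) (m : ℕ), GoodWords β m C J →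
    ∀ F : (Fin n → Bool) → ℝ, (∀ x, 0 < F x) → mean (p0 J) F = 1 → ∀ u h, 0 ≤ u → 0 ≤ h → h ≤ 1 →
      pE J F (u + h) (avgO β J tsq k) ≤ pE J F u (avgO β J tsq k) + C' * √h := by
  intro C
  obtain ⟨Cs, hCs, hs⟩ := avg_shift_sq β C k
  refine ⟨256 * Cs + 1, by positivity, fun n hn J m hG F hF hmass u h hu hh hh1 => ?_⟩
  have hn' : (0:ℝ) < n := Nat.cast_pos.2 hn
  have cO : ∀ x, Continuous (avgO β J tsq k x) := continuous_avgO smoothB_tsq.continuous k
  have bO : ∀ x y, |avgO β J tsq k x y| ≤ 1 := fun x y => avgO_mem tsq_mem k x y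
  have i1 : BddCont2 fun x (_ : Fin n → ℝ) y' => avgO β J tsq k x y' :=
    ⟨1, fun x => ⟨(cO x).comp continuous_snd, fun _ y' => bO x y'⟩⟩
  have i0 : BddCont2 fun x y (_ : Fin n → ℝ) => avgO β J tsq k x y := bddCont2_fst cO bO
  have e : pE J F (u + h) (avgO β J tsq k) - pE J F u (avgO β J tsq k)
      = pE2 J F u h (fun x y y' => avgO β J tsq k x y' - avgO β J tsq k x y) := by
    rw [pE2_sub (i1.int2 u h) (i0.int2 u h), pE2_snd J F hu hh cO bO, pE2_fst]
  have hb : |pE2 J F u h (fun x y y' => avgO β J tsq k x y' - avgO β J tsq k x y)|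
      ≤ (256 * Cs + 1) * √h := by
    refine abs_pE2_le_inner hF hmass fun x y => ?_
    rcases hh.eq_or_lt with rfl | hpos
    · have : ∀ ξ, nfield 0 x y ξ = y := fun ξ => by funext i; simp [nfield]
      simp [this]
    set f := fun ξ => avgO β J tsq k x (nfield h x y ξ) - avgO β J tsq k x y
    have cf : Continuous f := ((cO x).comp (by unfold nfield; fun_prop)).sub continuous_const
    have hsq : Integrable (fun ξ => f ξ ^ 2) (gauss (Fin n)) :=
      Integrable.of_bound (cf.pow 2).aestronglyMeasurable 4 (ae_of_all _ fun ξ => by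
        rw [Real.norm_eq_abs, abs_pow, show (4:ℝ) = 2 ^ 2 by norm_num]
        exact pow_le_pow_left₀ (abs_nonneg _) ((abs_sub _ _).trans
          (by linarith [bO x y, bO x (nfield h x y ξ)])) 2)
    have hb2 : ∫ ξ, f ξ ^ 2 ∂gauss (Fin n) ≤ 256 * Cs * (2 * h) := by
      refine (hs n m J y (spins x) h 16 tsq hh (Rule.abs_spins_le x) hG smoothB_tsq).trans ?_
      have h1 : h ^ 2 ≤ h := by rw [sq]; exact mul_le_of_le_one_left hh hh1
      have h2 : h / n ≤ h := div_le_self hh (Nat.one_le_cast.2 hn)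
      calc Cs * 16 ^ 2 * (h ^ 2 + h / n) ≤ Cs * 16 ^ 2 * (2 * h) :=
            mul_le_mul_of_nonneg_left (by linarith) (by positivity)
        _ = _ := by ring
    set t := √h
    have ht : 0 < t := Real.sqrt_pos.2 hpos
    refine abs_integral_le_integral_abs.trans ((integral_mono_of_nonneg
      (ae_of_all _ fun ξ => abs_nonneg _) ((hsq.div_const (2 * t)).fun_add (integrable_const (t / 2)))
      (ae_of_all _ fun ξ => ?_)).trans ?_)
    · change |f ξ| ≤ f ξ ^ 2 / (2 * t) + t / 2
      have h0 := sq_nonneg (|f ξ| - t)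
      rw [div_add_div _ _ (by positivity) two_ne_zero, le_div_iff₀ (by positivity)]
      nlinarith [sq_abs (f ξ)]
    · rw [integral_add (hsq.div_const _) (integrable_const _), integral_div, integral_const,
        probReal_univ, one_smul]
      calc (∫ ξ, f ξ ^ 2 ∂gauss (Fin n)) / (2 * t) + t / 2
          ≤ 256 * Cs * (2 * h) / (2 * t) + t / 2 := by gcongr
        _ = 256 * Cs * t + t / 2 := by
            rw [show h = t * t from (Real.mul_self_sqrt hh).symm]; field_simp
        _ ≤ _ := by linarith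
  linarith [(abs_le.1 hb).2]

/-- The level recursion, started from a small radius. -/
lemma avgGap_tsq_le {N L k : ℕ} {h η e T Kφ lam' CL CC : ℝ} (hb2 : β ^ 2 < 1) (hF : ∀ x, 0 < F x)
    (hmass : mean (p0 J) F = 1) (hh : 0 < h) (hN' : (N:ℝ) * h ≤ T) (hη0 : 0 ≤ η) (he0 : 0 ≤ e)
    (hKφ : 0 ≤ Kφ) (hCCdef : CC = max Kφ ((1 + 2 / (1 - β ^ 4)) / (1 - β ^ 2) ^ 2))
    (hl0 : 0 ≤ lam') (hCL : 0 ≤ CL)
    (hlev : ∀ (N L : ℕ) (h η e : ℝ) (G F : ℕ → ℕ → ℝ) (init : ℕ → ℝ),
      0 ≤ h → N * h ≤ T → 0 ≤ η → 0 ≤ e → (∀ i ≤ N, G L i ≤ (1 / (1 - β ^ 2)) ^ 2) →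
      (∀ k ≥ L, init k ≤ η) →
      (∀ k ≥ L, ∀ i ≤ N, F k i ≤ exp T * (init k + CC * h * ∑ l ∈ range i, G k l + e)) →
      (∀ k ≥ L, ∀ i ≤ N, G (k + 1) i ≤ (1 + β ^ 4) / 2 * G k i + CC * F k i + e) →
      ∀ k ≥ L, ∀ i ≤ N, F k i ≤ CL * (lam' ^ (k - L) + η + e) ∧
        G k i ≤ CL * (lam' ^ (k - L) + η + e))
    (hgapl : ∀ l, l ≤ k → ∀ φ, SmoothB 300 φ → ∀ i ≤ N, avgGap β J F h φ l i
      ≤ exp T * (Kφ * startGap β J F l + Kφ * h * ∑ q ∈ range i, rateGap β J F h l q + e))
    (hinit : ∀ l, L ≤ l → l ≤ k → Kφ * startGap β J F l ≤ η) (hLk : L ≤ k) {i : ℕ} (hi : i < N) :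
    avgGap β J F h tsq k i
      ≤ exp T * (1 + CC * T * CL) * (1 + CC) * (lam' ^ (k - L) + η + e) := by
  set bg := (1 + 2 / (1 - β ^ 4)) / (1 - β ^ 2) ^ 2 with hbg
  set b := 1 / (1 - β ^ 2) with hbdef
  set lam := (1 + β ^ 4) / 2 with hlamdef
  have hb : 0 ≤ b := one_div_nonneg.2 (by linarith)
  have hCC : 0 ≤ CC := hCCdef ▸ hKφ.trans (le_max_left _ _)
  have hT0 : 0 ≤ T := (mul_nonneg N.cast_nonneg hh.le).trans hN'
  set G := fun l i => if l ≤ k + 1 then rateGap β J F h l i else 0
  set Fa := fun l i => if l ≤ k then avgGap β J F h vsq l i else 0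
  set init := fun l => if L ≤ l ∧ l ≤ k then Kφ * startGap β J F l else 0
  have hGn : ∀ l i, 0 ≤ rateGap β J F h l i := fun l i =>
    sum_nonneg fun x _ => mul_nonneg (pF_nonneg J hF x) (integral_nonneg fun ξ => sq_nonneg _)
  have hlevels := hlev N L h η e G Fa init hh.le hN' hη0 he0 (fun i _ => ?_) (fun l hl => ?_)
    (fun l hl i hi => ?_) (fun l hl i hi => ?_) k (by omega)
  rotate_left
  · simp only [G]
    rw [if_pos (by omega)]
    have hσ := sigStar_mem (h := h) hb2 i
    refine (pE_mono hF (bddCont2_sigGap hb2 _ L) (bddCont2_fst (fun _ => continuous_const)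
      (B := |b ^ 2|) fun _ _ => le_rfl) fun x y => ?_).trans_eq (pE_const hmass _)
    obtain ⟨s0, s1⟩ := sigO_mem (J := J) hb2 L x y
    rw [sq_le_sq, abs_of_nonneg hb, abs_le]
    constructor <;> linarith [hσ.1, hσ.2]
  · simp only [init]
    split_ifs with h'
    · exact hinit l h'.1 h'.2
    · exact hη0
  · simp only [Fa, G, init]
    by_cases hlk : l ≤ k
    · rw [if_pos hlk, if_pos ⟨hl, hlk⟩]
      refine (hgapl l hlk vsq (smoothB_vsq.mono le_rfl) i hi).trans
        (mul_le_mul_of_nonneg_left ?_ (exp_pos _).le)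
      refine add_le_add (add_le_add le_rfl ?_) le_rfl
      rw [sum_congr rfl fun q _ => if_pos (show l ≤ k + 1 by omega)]
      exact mul_le_mul_of_nonneg_right (mul_le_mul_of_nonneg_right (hCCdef ▸ le_max_left _ _) hh.le)
        (sum_nonneg fun q _ => hGn l q)
    · rw [if_neg hlk, if_neg fun h' => hlk h'.2]
      refine mul_nonneg (exp_pos _).le (add_nonneg (add_nonneg le_rfl (mul_nonneg
        (mul_nonneg hCC hh.le) (sum_nonneg fun q _ => ?_))) he0)
      split_ifs
      · exact hGn l q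
      · exact le_rfl
  · simp only [G, Fa]
    by_cases hlk : l ≤ k
    · rw [if_pos (by omega), if_pos (by omega), if_pos hlk]
      refine (rateGap_succ hb2 hF l i).trans ?_
      have hF0 : 0 ≤ avgGap β J F h vsq l i :=
        sum_nonneg fun x _ => mul_nonneg (pF_nonneg J hF x) (integral_nonneg fun ξ => sq_nonneg _)
      have := mul_le_mul_of_nonneg_right (hCCdef ▸ le_max_right Kφ bg : bg ≤ CC) hF0
      simp only [lam, bg] at this ⊢
      linarith
    · rw [if_neg (show ¬(l + 1 ≤ k + 1) by omega), if_neg hlk]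
      have : 0 ≤ (if l ≤ k + 1 then rateGap β J F h l i else 0) := by
        split_ifs
        · exact hGn l i
        · exact le_rfl
      have hlam : 0 ≤ lam := by simp only [lam]; positivity
      linarith [mul_nonneg hlam this]
  set X := lam' ^ (k - L) + η + e
  have hX0 : 0 ≤ X := by positivity
  show avgGap β J F h tsq k i ≤ exp T * (1 + CC * T * CL) * (1 + CC) * X
  refine (hgapl k le_rfl tsq (smoothB_tsq.mono (by norm_num)) i hi.le).trans ?_
  have hs : Kφ * h * ∑ q ∈ range i, rateGap β J F h k q ≤ CC * T * CL * X := by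
    have h1 : ∑ q ∈ range i, rateGap β J F h k q ≤ i * (CL * X) := by
      refine (sum_le_sum fun q hq => ?_).trans_eq (by simp : ∑ _q ∈ range i, CL * X = _)
      have := (hlevels q (by have := mem_range.1 hq; omega)).2
      simp only [G] at this
      rwa [if_pos (Nat.le_succ k)] at this
    calc Kφ * h * ∑ q ∈ range i, rateGap β J F h k q ≤ Kφ * h * (i * (CL * X)) :=
          mul_le_mul_of_nonneg_left h1 (mul_nonneg hKφ hh.le)
      _ = Kφ * (i * h) * (CL * X) := by ring
      _ ≤ CC * T * (CL * X) := mul_le_mul_of_nonneg_right (mul_le_mul (hCCdef ▸ le_max_left _ _)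
          ((mul_le_mul_of_nonneg_right (Nat.cast_le.2 hi.le) hh.le).trans hN') (by positivity) hCC)
          (by positivity)
      _ = _ := by ring
  have h2 : Kφ * startGap β J F k + e ≤ X := by
    have := hinit k (by omega) le_rfl
    have := pow_nonneg hl0 (k - L)
    simp only [X]
    linarith
  calc exp T * (Kφ * startGap β J F k + Kφ * h * ∑ q ∈ range i, rateGap β J F h k q + e)
      ≤ exp T * ((1 + CC * T * CL) * X) :=
        mul_le_mul_of_nonneg_left (by linarith) (exp_pos _).le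
    _ ≤ exp T * (1 + CC * T * CL) * (1 + CC) * X := by
        rw [← mul_assoc]
        exact mul_le_mul_of_nonneg_right (le_mul_of_one_le_right (by positivity) (by linarith)) hX0

/-- A small radius gives short iterates at the start. -/
lemma startGap_small {Λ Kφ r : ℝ} {l' : ℕ} (hn : 0 < n) (hO : OpSq J Λ) (hΛ : 0 ≤ Λ) (hKφ : 0 ≤ Kφ)
    (hF : ∀ x, 0 < F x) (hA : tmean (gibbs J 0) F (fun x => qav (ampA β J 0 (spins x) (l' + 1))) ≤ r)
    (hB : tmean (gibbs J 0) F (fun x => qav (ampA β J 0 (spins x) l')) ≤ r) :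
    Kφ * startGap β J F (l' + 1) ≤ 2 * (Λ + β ^ 4) * Kφ * r := by
  have hn' : (0:ℝ) < n := Nat.cast_pos.2 hn
  have hp : ∀ x, avg (fun i => ampZ β J 0 (spins x) (l' + 1) i ^ 2)
      ≤ 2 * Λ * qav (ampA β J 0 (spins x) (l' + 1))
        + 2 * β ^ 4 * qav (ampA β J 0 (spins x) l') := fun x => by
    rw [avg, Fintype.card_fin, div_le_iff₀ hn']
    refine (sum_zit_sq_le hn hO l').trans (le_of_eq ?_)
    ring
  have hs : startGap β J F (l' + 1) ≤ (2 * Λ + 2 * β ^ 4) * r := by
    refine (tmean_mono hF hp).trans ?_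
    rw [tmean_add, tmean_mul, tmean_mul, add_mul]
    exact add_le_add (mul_le_mul_of_nonneg_left hA (by positivity))
      (mul_le_mul_of_nonneg_left hB (by positivity))
  exact (mul_le_mul_of_nonneg_left hs hKφ).trans (le_of_eq (by ring))

/-- A small mean square distance from the profile bounds the mean. -/
lemma mid_le {δ h : ℝ} {k i : ℕ} (hδ : 0 < δ) (hF : ∀ x, 0 < F x) (hmass : mean (p0 J) F = 1)
    (hg : avgGap β J F h tsq k i ≤ δ ^ 2 / 16) :
    pE J F (i * h) (avgO β J tsq k) ≤ psi (profS β h i) + δ / 4 := by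
  set c := psi (profS β h i)
  set f := fun x y => (avgO β J tsq k x y - c) ^ 2
  have hf : BddCont2 fun x y (_ : Fin n → ℝ) => f x y :=
    bddCont2_avgGap smoothB_tsq.continuous (by norm_num) smoothB_tsq.b0 c k
  have he1 : pE J F (i * h) f = avgGap β J F h tsq k i := by
    simp only [avgGap, flow_tsq_zero, f, c]
  have i0 := bddCont2_fst (f := avgO β J tsq k) (continuous_avgO smoothB_tsq.continuous k)
    (fun x y => avgO_mem tsq_mem k x y)
  have ic : BddCont2 fun (_ : Fin n → Bool) (_ : Fin n → ℝ) (_ : Fin n → ℝ) => (1:ℝ) :=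
    bddCont2_fst (fun _ => continuous_const) fun _ _ => le_rfl
  have h1 := pE_mono (J := J) (u := i * h) hF i0 (hf.comb ic (2 / δ) (c + δ / 8)) fun x y => by
    simp only [f, mul_one]
    set d := avgO β J tsq k x y - c
    have : 0 ≤ (4 * d - δ) ^ 2 / (8 * δ) := by positivity
    rw [show (4 * d - δ) ^ 2 / (8 * δ) = 2 / δ * d ^ 2 - d + δ / 8 by field_simp; ring] at this
    simp only [d] at this ⊢
    linarith
  rw [pE_comb hf ic, pE_const hmass, mul_one, he1] at h1
  have h2 : 2 / δ * avgGap β J F h tsq k i ≤ δ / 8 := by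
    refine (mul_le_mul_of_nonneg_left hg (by positivity)).trans (le_of_eq ?_)
    field_simp
    ring
  linarith

lemma exists_small_eps {G0 m : ℝ} (hm : 0 < m) (hG0 : 0 < G0) :
    ∃ ε, 0 < ε ∧ G0 * √(2 * ε) ≤ m := by
  refine ⟨(m / (4 * G0)) ^ 2, by positivity, ?_⟩
  have h1 : √(2 * (m / (4 * G0)) ^ 2) ≤ 2 * (m / (4 * G0)) :=
    (Real.sqrt_le_left (by positivity)).2 (by rw [mul_pow]; linarith [sq_nonneg (m / (4 * G0))])
  refine (mul_le_mul_of_nonneg_left h1 hG0.le).trans ?_
  rw [show G0 * (2 * (m / (4 * G0))) = m / 2 by field_simp; ring]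
  linarith

theorem profileStatement_of (hβ : 0 ≤ β) (hβ1 : β < 1) (hR : RuleStatement β)
    (hT : TestsStatement β) (hGr : GradStatement β) (hRad : RadialStatement β) :
    ProfileStatement β := by
  intro T hT0 δ hδ
  have hb2 : β ^ 2 < 1 := pow_lt_one₀ hβ hβ1 two_ne_zero
  have hb4 : β ^ 4 < 1 := pow_lt_one₀ hβ hβ1 (by norm_num)
  set b := 1 / (1 - β ^ 2)
  have hb : 0 ≤ b := one_div_nonneg.2 (by linarith)
  obtain ⟨Kφ, hKφ, hgap⟩ := avgGap_le hT hGr hb2 300
  set lam := (1 + β ^ 4) / 2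
  set bg := (1 + 2 / (1 - β ^ 4)) / (1 - β ^ 2) ^ 2
  set CC := max Kφ bg
  have hCC : 0 ≤ CC := hKφ.trans (le_max_left _ _)
  obtain ⟨lam', hl0, hl1, CL, hCL, hlev⟩ := level_bound (T := T) (lam := lam) (C := CC) (B := b ^ 2)
    (by simp only [lam]; positivity) (by simp only [lam]; linarith) hCC (sq_nonneg b)
  set A := exp T * (1 + CC * T * CL) * (1 + CC)
  have hA : 0 < A := by
    simp only [A]
    have : 0 ≤ CC * T * CL := by positivity
    positivity
  set tol := δ ^ 2 / (64 * A)
  have htol : 0 < tol := by positivity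
  obtain ⟨j, hj⟩ := exists_pow_lt_of_lt_one htol hl1
  set Λ := radSq β
  have hΛ : 0 ≤ Λ := zero_le_one.trans (Words.one_le_radSq β)
  set Z := 2 * (Λ + β ^ 4) * Kφ
  have hZ : 0 ≤ Z := by positivity
  set ρ := tol / (2 * Z + 1)
  have hρ : 0 < ρ := by positivity
  have hZρ : Z * (2 * ρ) ≤ tol := by
    rw [show Z * (2 * ρ) = tol * (2 * Z / (2 * Z + 1)) by simp only [ρ]; ring]
    exact mul_le_of_le_one_right htol.le ((div_le_one (by positivity)).2 (by linarith))
  obtain ⟨κ, hκ, hrad⟩ := hRad ρ hρ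
  obtain ⟨L₀, hL₀⟩ := zeroField_radius (Λ := Λ) hT hρ hκ hΛ
  set L := L₀ + 1
  set k := L + j
  choose mg hmg using hgap
  have hrad' : ∀ K', ∃ m : ℕ, ∀ C, ∃ C', K' ≥ L₀ → ∀ (n : ℕ) (J : Fin n → Fin n → ℝ)
      (F : (Fin n → Bool) → ℝ), 0 < n → GoodWords β m C J → OpSq J Λ → RadialAt β ρ κ J →
      (∀ x, 0 < F x) → tmean (gibbs J 0) F (fun x => qav (ampA β J 0 (spins x) K'))
        ≤ 2 * ρ + C' * √((tdir (gibbs J 0) F + 1) / n) := fun K' => by
    by_cases hK : K' ≥ L₀
    · obtain ⟨m, hm⟩ := hL₀ K' hK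
      exact ⟨m, fun C => ⟨(hm C).choose, fun _ => (hm C).choose_spec⟩⟩
    · exact ⟨0, fun C => ⟨0, fun h => absurd h hK⟩⟩
  choose mr hmr using hrad'
  obtain ⟨mm, hmm⟩ := magSq_le hR (k + 1)
  set M := max ((range (k + 2)).sup mg) (max ((range (k + 2)).sup mr) mm)
  obtain ⟨C, hC⟩ := wordsStatement β M
  choose Cg hCg0 hCg using fun l => hmg l C
  choose Cr hCr using fun l => hmr l C
  obtain ⟨Cm, hCm0, hCm⟩ := hmm C
  obtain ⟨Cs, hCs0, hCs⟩ := shift_le β k C
  set CA := ∑ l ∈ range (k + 2), Cg l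
  set CR := ∑ l ∈ range (k + 2), max (Cr l) 0
  have hCA : 0 ≤ CA := sum_nonneg fun l _ => hCg0 l
  have hCR : 0 ≤ CR := sum_nonneg fun l _ => le_max_right _ _
  -- the grid
  set h₀ := min (1 - β ^ 2) (min ((δ / (4 * (Cs + 1))) ^ 2) ((tol / (CA * T + 1)) ^ 2))
  have hh₀ : 0 < h₀ := lt_min (by linarith) (lt_min (by positivity) (by positivity))
  refine ⟨⌈T / h₀⌉₊, fun N hN hN0 => ?_⟩
  have hNr : (0:ℝ) < N := Nat.cast_pos.2 hN0
  set h := T / N
  have hh : 0 < h := div_pos hT0 hNr
  have hhh : h ≤ h₀ := (div_le_iff₀ hNr).2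
    (((div_le_iff₀ hh₀).1 ((Nat.le_ceil _).trans (Nat.cast_le.2 hN))).trans_eq (mul_comm _ _))
  have hh1 : h ≤ 1 - β ^ 2 := hhh.trans (min_le_left _ _)
  have hh1' : h ≤ 1 := hh1.trans (by linarith [sq_nonneg β])
  have hsh : Cs * √h ≤ δ / 4 := by
    have h1 : √h ≤ δ / (4 * (Cs + 1)) :=
      (Real.sqrt_le_left (by positivity)).2 (hhh.trans ((min_le_right _ _).trans (min_le_left _ _)))
    refine (mul_le_mul_of_nonneg_left h1 hCs0).trans ?_
    rw [mul_div_assoc', div_le_div_iff₀ (by positivity) (by norm_num)]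
    linarith [mul_nonneg hδ.le hCs0]
  have hgr : CA * T * √h ≤ tol := by
    have h1 : √h ≤ tol / (CA * T + 1) :=
      (Real.sqrt_le_left (by positivity)).2 (hhh.trans ((min_le_right _ _).trans (min_le_right _ _)))
    refine (mul_le_mul_of_nonneg_left h1 (by positivity)).trans ?_
    rw [mul_div_assoc', div_le_iff₀ (by positivity)]
    linarith
  set G0 := CA * (T + N) + Z * CR + Cm + 1
  have hG0 : 0 < G0 := by positivity
  obtain ⟨ε, hε, hεG⟩ := exists_small_eps (lt_min htol (by positivity : 0 < δ / 8)) hG0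
  refine ⟨ε, hε, ?_⟩
  -- probability
  set P := fun n : ℕ => Measure.pi fun _ : Fin n × Fin n => gaussianReal 0 1
  set b₁ := fun n : ℕ => P n {g | ¬GoodWords β M C (skCoupling β g)}
  set b₂ := fun n : ℕ => P n (Ev β n)ᶜ
  set b₃ := fun n : ℕ => P n {g | RadialAt β ρ κ (skCoupling β g)}ᶜ
  have t₁ : Tendsto b₁ atTop (𝓝 0) := tendsto_of_tendsto_of_tendsto_of_le_of_le' tendsto_const_nhds
    (Trap.tendsto_ofReal_exp_neg one_pos) (Eventually.of_forall fun n => zero_le)
    (hC.mono fun n h => by simpa using h)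
  have t₂ : Tendsto b₂ atTop (𝓝 0) := tendsto_of_tendsto_of_tendsto_of_le_of_le' tendsto_const_nhds
    (Trap.tendsto_ofReal_exp_neg two_pos) (Eventually.of_forall fun n => zero_le)
    ((eventually_gt_atTop 0).mono fun n hn =>
      (ENNReal.le_ofReal_iff_toReal_le (measure_ne_top _ _) (exp_pos _).le).2
        (Words.gauss_ev_compl β hn))
  have t₃ : Tendsto b₃ atTop (𝓝 0) :=
    Trap.tendsto_compl_zero (Trap.measurableSet_radial ρ κ) hrad
  have hlow := ENNReal.Tendsto.sub (tendsto_const_nhds (x := (1 : ℝ≥0∞))) ((t₁.add t₂).add t₃)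
    (Or.inl ENNReal.one_ne_top)
  simp only [add_zero, tsub_zero] at hlow
  refine tendsto_of_tendsto_of_tendsto_of_le_of_le' hlow tendsto_const_nhds ?_
    (Eventually.of_forall fun n => prob_le_one)
  have hbig : ∀ᶠ n : ℕ in atTop, 1 / (n:ℝ) ≤ ε :=
    (tendsto_one_div_atTop_nhds_zero_nat).eventually_le_const hε
  filter_upwards [eventually_gt_atTop 0, hbig] with n hn hnε
  rw [tsub_le_iff_right, ← measure_univ
    (μ := Measure.pi fun _ : Fin n × Fin n => gaussianReal 0 1)]
  refine le_trans (measure_mono fun g _ => ?_) ((measure_union_le _ _).trans (add_le_add le_rfl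
    ((measure_union_le _ _).trans (add_le_add (measure_union_le _ _) le_rfl))))
  rw [Set.mem_union]
  by_cases hbad : g ∈ {g | ¬GoodWords β M C (skCoupling β g)} ∪ (Ev β n)ᶜ
      ∪ {g | RadialAt β ρ κ (skCoupling β g)}ᶜ
  · exact Or.inr hbad
  left
  simp only [Set.mem_union, Set.mem_compl_iff, not_or, not_not] at hbad
  obtain ⟨⟨hW, hO⟩, hRa⟩ := hbad
  have hW' : GoodWords β M C (skCoupling β g) := by simpa using hW
  set J := skCoupling β g
  intro F hF hmass hD i hi v hv hv'
  have hn' : (0:ℝ) < n := Nat.cast_pos.2 hn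
  have hN' : (N:ℝ) * h ≤ T := le_of_eq (mul_div_cancel₀ _ hNr.ne')
  -- small errors
  have herr : errN J F ≤ √(2 * ε) := by
    refine Real.sqrt_le_sqrt ?_
    rw [add_div]
    have : dirichlet (p0 J) (fun x => √(F x)) / n ≤ ε := (div_le_iff₀ hn').2 hD
    linarith
  have hinv : 1 / √(n:ℝ) ≤ √(2 * ε) := by
    rw [show 1 / √(n:ℝ) = √(1 / n) by rw [Real.sqrt_div' _ hn'.le, Real.sqrt_one]]
    exact Real.sqrt_le_sqrt (hnε.trans (by linarith))
  have hE0 := errE_nonneg (J := J) hh.le F
  set e := CA * ((N:ℝ) * errE J F h)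
  have he0 : 0 ≤ e := mul_nonneg hCA (mul_nonneg hNr.le hE0)
  have he : e ≤ tol + CA * (T + N) * √(2 * ε) := by
    have h1 : (N:ℝ) * errE J F h = T * √h + T * (1 / √(n:ℝ)) + N * errN J F := by
      simp only [errE, h]; field_simp
    simp only [e, h1]
    have a1 := mul_le_mul_of_nonneg_left hinv (mul_nonneg hCA hT0.le)
    have a2 := mul_le_mul_of_nonneg_left herr (mul_nonneg hCA hNr.le)
    linarith
  have hrs : ∀ K', L₀ ≤ K' → K' ≤ k + 1 →
      tmean (gibbs J 0) F (fun x => qav (ampA β J 0 (spins x) K')) ≤ 2 * ρ + CR * √(2 * ε) := by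
    intro K' h1 h2
    have hr := hCr K' h1 n J F hn (goodWords_mono hW' ((Finset.le_sup (f := mr)
      (mem_range.2 (show K' < k + 2 by omega))).trans ((le_max_left _ _).trans (le_max_right _ _)))
      le_rfl) hO hRa hF
    refine hr.trans (add_le_add le_rfl ?_)
    have hc : Cr K' ≤ CR := (le_max_left _ _).trans (single_le_sum
      (f := fun l => max (Cr l) 0) (fun l _ => le_max_right _ _)
      (mem_range.2 (show K' < k + 2 by omega)))
    rw [show √((tdir (gibbs J 0) F + 1) / n) = errN J F by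
      simp only [errN, tdir, p0, show mean (gibbs J 0) F = 1 from hmass, div_one]]
    exact mul_le_mul hc herr (Real.sqrt_nonneg _) hCR
  set η := Z * (2 * ρ + CR * √(2 * ε))
  have hη0 : 0 ≤ η := mul_nonneg hZ (add_nonneg (mul_nonneg zero_le_two hρ.le)
    (mul_nonneg hCR (Real.sqrt_nonneg _)))
  have hinit : ∀ l, L ≤ l → l ≤ k → Kφ * startGap β J F l ≤ η := by
    intro l h1 h2
    obtain ⟨l', rfl⟩ : ∃ l', l = l' + 1 := ⟨l - 1, by omega⟩
    exact startGap_small hn hO hΛ hKφ hF (hrs _ (by omega) (by omega)) (hrs _ (by omega) (by omega))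
  -- the levels
  have hgapl : ∀ l, l ≤ k → ∀ φ, SmoothB 300 φ → ∀ i ≤ N, avgGap β J F h φ l i
      ≤ exp T * (Kφ * startGap β J F l + Kφ * h * ∑ q ∈ range i, rateGap β J F h l q + e) := by
    intro l hl φ hφ i hi
    refine (hCg l n hn J (goodWords_mono hW' ((Finset.le_sup (f := mg)
      (mem_range.2 (show l < k + 2 by omega))).trans (le_max_left _ _)) le_rfl) F hF hmass h T hh.le
      hh1 N hN' φ hφ i hi).trans (mul_le_mul_of_nonneg_left (add_le_add le_rfl ?_) (exp_pos _).le)
    exact mul_le_mul_of_nonneg_right (single_le_sum (f := Cg) (fun l _ => hCg0 l)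
      (mem_range.2 (show l < k + 2 by omega))) (mul_nonneg hNr.le hE0)
  have hkj : k - L = j := by omega
  set X := lam' ^ j + η + e
  have hX0 : 0 ≤ X := add_nonneg (add_nonneg (pow_nonneg hl0 _) hη0) he0
  have hFt : avgGap β J F h tsq k i ≤ A * X := by
    have := avgGap_tsq_le (k := k) hb2 hF hmass hh hN' hη0 he0 hKφ rfl hl0 hCL hlev hgapl hinit
      (by omega) hi
    rwa [hkj] at this
  have hXb : X ≤ 4 * tol := by
    have h2 : (CA * (T + N) + Z * CR) * √(2 * ε) ≤ tol := by
      refine le_trans ?_ (hεG.trans (min_le_left _ _))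
      exact mul_le_mul_of_nonneg_right (by simp only [G0]; linarith) (Real.sqrt_nonneg _)
    simp only [X, η]
    linarith [hj.le]
  have hmid : pE J F (i * h) (avgO β J tsq k) ≤ psi (profS β h i) + δ / 4 := by
    refine mid_le hδ hF hmass ((hFt.trans (mul_le_mul_of_nonneg_left hXb hA.le)).trans (le_of_eq ?_))
    simp only [tol]
    field_simp
    ring
  set h' := v - i * h
  have hh'0 : 0 ≤ h' := sub_nonneg.2 hv
  have hh'1 : h' ≤ h := by simp only [h']; linarith
  have hsft := hCs n hn J M hW' F hF hmass (i * h) h' (mul_nonneg i.cast_nonneg hh.le) hh'0 (hh'1.trans hh1')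
  rw [show (i:ℝ) * h + h' = v by simp only [h']; ring] at hsft
  have hmag := hCm n hn J (goodWords_mono hW' ((le_max_right _ _).trans (le_max_right _ _)) le_rfl) F
    hF hmass v ((mul_nonneg i.cast_nonneg hh.le).trans hv)
  refine hmag.trans (mul_le_mul_of_nonneg_left ?_ hn'.le)
  have e3 : pE J F v (fun x y => qav (ampA β J y (spins x) (k + 1))) = pE J F v (avgO β J tsq k) := rfl
  rw [e3]
  have h5 : Cm * errN J F ≤ δ / 8 := by
    refine le_trans ?_ (hεG.trans (min_le_right _ _))
    refine mul_le_mul ?_ herr (Real.sqrt_nonneg _) hG0.le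
    simp only [G0]
    have : 0 ≤ CA * (T + N) + Z * CR :=
      add_nonneg (mul_nonneg hCA (add_nonneg hT0.le hNr.le)) (mul_nonneg hZ hCR)
    linarith
  have h6 : Cs * √h' ≤ δ / 4 :=
    (mul_le_mul_of_nonneg_left (Real.sqrt_le_sqrt hh'1) hCs0).trans hsh
  linarith

end Vale.Agent.P150.Beta1.Profile
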