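import Mathlib
import Vale.Agent.P150.GaussIBP
import Vale.Agent.P150.Beta1.Rule.Fields

/-!
# The one-site flow: the semigroup of `tanh z · d/dz + 1/2 · d²/dz²`

`flow w φ z` averages `φ (z + e w + √w G)` over a standard Gaussian `G` and over the sign `e` drawn
with probabilities `(1 ± tanh z) / 2`.
-/

namespace Vale.Agent.P150.Beta1.Profile

open MeasureTheory ProbabilityTheory Real
open scoped NNReal

/-- Gaussian average around a point. -/
noncomputable def gsm (m w : ℝ) (φ : ℝ → ℝ) : ℝ := ∫ g, φ (m + √w * g) ∂gaussianReal 0 1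

/-- The flow. -/
noncomputable def flow (w : ℝ) (φ : ℝ → ℝ) (z : ℝ) : ℝ :=
  (1 + tanh z) / 2 * gsm (z + w) w φ + (1 - tanh z) / 2 * gsm (z - w) w φ

/-- Three derivatives bounded by `C`. -/
structure SmoothB (C : ℝ) (φ : ℝ → ℝ) : Prop where
  d1 : ∀ z, HasDerivAt φ (deriv φ z) z
  d2 : ∀ z, HasDerivAt (deriv φ) (deriv (deriv φ) z) z
  d3 : ∀ z, HasDerivAt (deriv (deriv φ)) (deriv (deriv (deriv φ)) z) z
  b0 : ∀ z, |φ z| ≤ C
  b1 : ∀ z, |deriv φ z| ≤ C
  b2 : ∀ z, |deriv (deriv φ) z| ≤ C
  b3 : ∀ z, |deriv (deriv (deriv φ)) z| ≤ C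

/-- Smoothness from explicit derivatives. -/
lemma SmoothB.of_derivs {C : ℝ} {φ p q r : ℝ → ℝ} (h1 : ∀ z, HasDerivAt φ (p z) z)
    (h2 : ∀ z, HasDerivAt p (q z) z) (h3 : ∀ z, HasDerivAt q (r z) z) (b0 : ∀ z, |φ z| ≤ C)
    (b1 : ∀ z, |p z| ≤ C) (b2 : ∀ z, |q z| ≤ C) (b3 : ∀ z, |r z| ≤ C) : SmoothB C φ := by
  have e1 : deriv φ = p := funext fun z => (h1 z).deriv
  have e2 : deriv p = q := funext fun z => (h2 z).deriv
  have e3 : deriv q = r := funext fun z => (h3 z).deriv
  constructor <;> first | assumption | (simp only [e1, e2, e3]; assumption)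

lemma SmoothB.nonneg {C : ℝ} {φ : ℝ → ℝ} (h : SmoothB C φ) : 0 ≤ C :=
  (abs_nonneg _).trans (h.b0 0)

lemma SmoothB.continuous {C : ℝ} {φ : ℝ → ℝ} (h : SmoothB C φ) : Continuous φ :=
  continuous_iff_continuousAt.2 fun z => (h.d1 z).continuousAt

lemma SmoothB.continuous_d1 {C : ℝ} {φ : ℝ → ℝ} (h : SmoothB C φ) : Continuous (deriv φ) :=
  continuous_iff_continuousAt.2 fun z => (h.d2 z).continuousAt

lemma SmoothB.continuous_d2 {C : ℝ} {φ : ℝ → ℝ} (h : SmoothB C φ) : Continuous (deriv (deriv φ)) :=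
  continuous_iff_continuousAt.2 fun z => (h.d3 z).continuousAt

lemma SmoothB.mono {C D : ℝ} {φ : ℝ → ℝ} (h : SmoothB C φ) (hD : C ≤ D) : SmoothB D φ :=
  ⟨h.d1, h.d2, h.d3, fun z => (h.b0 z).trans hD, fun z => (h.b1 z).trans hD,
    fun z => (h.b2 z).trans hD, fun z => (h.b3 z).trans hD⟩

/-- Quadratic Taylor remainder. -/
lemma SmoothB.taylor2 {C : ℝ} {φ : ℝ → ℝ} (h : SmoothB C φ) (z r : ℝ) :
    |φ (z + r) - φ z - deriv φ z * r| ≤ C * r ^ 2 := by
  have hl : ∀ s t, |deriv φ s - deriv φ t| ≤ C * |s - t| := fun s t => by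
    have := (convex_univ (𝕜 := ℝ) (E := ℝ)).norm_image_sub_le_of_norm_hasDerivWithin_le
      (f := deriv φ) (f' := deriv (deriv φ)) (C := C) (fun u _ => (h.d2 u).hasDerivWithinAt)
      (fun u _ => by rw [norm_eq_abs]; exact h.b2 u) (Set.mem_univ t) (Set.mem_univ s)
    simpa using this
  simpa using Rule.taylor_one h.d1 hl h.nonneg z (z + r)

/-- Cubic Taylor remainder. -/
lemma SmoothB.taylor3 {C : ℝ} {φ : ℝ → ℝ} (h : SmoothB C φ) (z r : ℝ) :
    |φ (z + r) - φ z - deriv φ z * r - deriv (deriv φ) z * r ^ 2 / 2| ≤ C * |r| ^ 3 := by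
  have hl : ∀ s t, |deriv (deriv φ) s - deriv (deriv φ) t| ≤ C * |s - t| := fun s t => by
    have := (convex_univ (𝕜 := ℝ) (E := ℝ)).norm_image_sub_le_of_norm_hasDerivWithin_le
      (f := deriv (deriv φ)) (f' := deriv (deriv (deriv φ))) (C := C)
      (fun u _ => (h.d3 u).hasDerivWithinAt)
      (fun u _ => by rw [norm_eq_abs]; exact h.b3 u) (Set.mem_univ t) (Set.mem_univ s)
    simpa using this
  set ψ := fun t => φ t - deriv φ z * (t - z) - deriv (deriv φ) z * (t - z) ^ 2 / 2 with hψ
  have hd : ∀ t ∈ Set.uIcc z (z + r),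
      HasDerivWithinAt ψ (deriv φ t - deriv φ z - deriv (deriv φ) z * (t - z))
        (Set.uIcc z (z + r)) t := fun t _ => by
    have h1 := ((hasDerivAt_id t).sub_const z).const_mul (deriv φ z)
    have h2 := ((((hasDerivAt_id t).sub_const z).fun_pow 2).const_mul
      (deriv (deriv φ) z)).div_const 2
    refine ((((h.d1 t).sub h1).sub h2).congr_deriv ?_).hasDerivWithinAt
    simp
    ring
  have hb : ∀ t ∈ Set.uIcc z (z + r),
      ‖deriv φ t - deriv φ z - deriv (deriv φ) z * (t - z)‖ ≤ C * r ^ 2 := fun t ht => by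
    refine (Rule.taylor_one h.d2 hl h.nonneg z t).trans (mul_le_mul_of_nonneg_left ?_ h.nonneg)
    have := Set.abs_sub_left_of_mem_uIcc ht
    rw [add_sub_cancel_left] at this
    exact sq_le_sq.2 this
  have := (convex_uIcc z (z + r)).norm_image_sub_le_of_norm_hasDerivWithin_le hd hb
    Set.left_mem_uIcc Set.right_mem_uIcc
  simp only [hψ, norm_eq_abs, add_sub_cancel_left, sub_self, mul_zero, sub_zero,
    zero_pow two_ne_zero, zero_div] at this
  calc |φ (z + r) - φ z - deriv φ z * r - deriv (deriv φ) z * r ^ 2 / 2|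
      = |φ (z + r) - deriv φ z * r - deriv (deriv φ) z * r ^ 2 / 2 - φ z| := by ring_nf
    _ ≤ C * r ^ 2 * |r| := this
    _ = _ := by rw [← sq_abs r]; ring

/-! ### Gaussian averages -/

lemma integrable_bdd {f : ℝ → ℝ} (hf : Continuous f) {C : ℝ} (hC : ∀ z, |f z| ≤ C) (m a : ℝ) :
    Integrable (fun g => f (m + a * g)) (gaussianReal 0 1) :=
  (integrable_const C).mono' (Continuous.aestronglyMeasurable (by fun_prop))
    (ae_of_all _ fun g => by rw [norm_eq_abs]; exact hC _)

lemma abs_gsm_le {f : ℝ → ℝ} {C : ℝ} (hC : ∀ z, |f z| ≤ C) (m w : ℝ) : |gsm m w f| ≤ C := by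
  have := norm_integral_le_of_norm_le_const (μ := gaussianReal 0 1) (f := fun g => f (m + √w * g))
    (C := C) (ae_of_all _ fun g => by rw [norm_eq_abs]; exact hC _)
  simpa [gsm] using this

lemma gsm_zero (f : ℝ → ℝ) (m : ℝ) : gsm m 0 f = f m := by simp [gsm]

lemma gsm_hasDerivAt {f f' : ℝ → ℝ} (hd : ∀ z, HasDerivAt f (f' z) z) (hc : Continuous f')
    {C : ℝ} (h0 : ∀ z, |f z| ≤ C) (h1 : ∀ z, |f' z| ≤ C) (b w z : ℝ) :
    HasDerivAt (fun z => gsm (z + b) w f) (gsm (z + b) w f') z := by
  have hfc : Continuous f := continuous_iff_continuousAt.2 fun x => (hd x).continuousAt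
  exact (hasDerivAt_integral_of_dominated_loc_of_deriv_le (μ := gaussianReal 0 1)
    (F := fun x g => f (x + b + √w * g)) (F' := fun x g => f' (x + b + √w * g))
    (bound := fun _ => C) (s := Set.univ) Filter.univ_mem
    (Filter.Eventually.of_forall fun x => Continuous.aestronglyMeasurable (by fun_prop))
    (integrable_bdd hfc h0 _ _) (Continuous.aestronglyMeasurable (by fun_prop))
    (ae_of_all _ fun g x _ => by rw [norm_eq_abs]; exact h1 _) (integrable_const C)
    (ae_of_all _ fun g x _ => by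
      have e : (fun x => f (x + b + √w * g)) = fun x => f (x + (b + √w * g)) :=
        funext fun x => by rw [add_assoc]
      rw [e, add_assoc]
      exact (hd _).comp_add_const x _)).2

/-- Exponential tilts shift a standard Gaussian. -/
lemma gauss_tilt (c : ℝ) (f : ℝ → ℝ) :
    ∫ g, exp (c * g) * f g ∂gaussianReal 0 1
      = exp (c ^ 2 / 2) * ∫ g, f (g + c) ∂gaussianReal 0 1 := by
  rw [integral_gaussianReal_eq_integral_smul one_ne_zero,
    integral_gaussianReal_eq_integral_smul one_ne_zero, ← integral_const_mul]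
  have hR := integral_add_right_eq_self (μ := volume)
    (fun x => exp (c ^ 2 / 2) * (gaussianPDFReal 0 1 (x - c) * f x)) c
  simp only [add_sub_cancel_right] at hR
  simp only [smul_eq_mul]
  rw [hR]
  refine integral_congr_ae (ae_of_all _ fun x => ?_)
  simp only [gaussianPDFReal_def, NNReal.coe_one, mul_one, sub_zero]
  have e : exp (-x ^ 2 / 2) * exp (c * x) = exp (c ^ 2 / 2) * exp (-(x - c) ^ 2 / 2) := by
    rw [← exp_add, ← exp_add]
    ring_nf
  linear_combination (√(2 * π))⁻¹ * f x * e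

/-- Sums of independent centred Gaussians. -/
lemma gauss_add (f : ℝ → ℝ) (hf : Continuous f) {C : ℝ} (hC : ∀ z, |f z| ≤ C) {a b : ℝ}
    (ha : 0 ≤ a) (hb : 0 ≤ b) (m : ℝ) :
    ∫ g, ∫ g', f (m + √a * g + √b * g') ∂gaussianReal 0 1 ∂gaussianReal 0 1
      = gsm m (a + b) f := by
  have hscale : ∀ c : ℝ, ∀ hc : 0 ≤ c,
      (gaussianReal 0 1).map (√c * ·) = gaussianReal 0 ⟨c, hc⟩ := fun c hc => by
    rw [gaussianReal_map_const_mul, mul_zero]
    congr 1
    refine NNReal.coe_injective ?_
    show √c ^ 2 * ((1 : ℝ≥0) : ℝ) = c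
    simp [sq_sqrt hc]
  have hmap : ((gaussianReal 0 1).prod (gaussianReal 0 1)).map
      (fun p : ℝ × ℝ => √a * p.1 + √b * p.2) = (gaussianReal 0 1).map (√(a + b) * ·) := by
    rw [hscale (a + b) (add_nonneg ha hb)]
    have h := gaussianReal_conv_gaussianReal (m₁ := 0) (m₂ := 0) (v₁ := (⟨a, ha⟩ : ℝ≥0))
      (v₂ := ⟨b, hb⟩)
    rw [add_zero, Measure.conv, ← hscale a ha, ← hscale b hb,
      Measure.map_prod_map _ _ (by fun_prop) (by fun_prop),
      Measure.map_map (by fun_prop) (by fun_prop)] at h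
    exact h
  have h2 : gsm m (a + b) f = ∫ x, f (m + x) ∂(gaussianReal 0 1).map (√(a + b) * ·) :=
    (integral_map (φ := (√(a + b) * ·)) (f := fun x => f (m + x)) (by fun_prop)
      (Continuous.aestronglyMeasurable (by fun_prop))).symm
  rw [h2, ← hmap, integral_map (by fun_prop) (Continuous.aestronglyMeasurable (by fun_prop)),
    integral_prod]
  · simp only [add_assoc]
  · exact (integrable_const C).mono' (Continuous.aestronglyMeasurable (by fun_prop))
      (ae_of_all _ fun g => by rw [norm_eq_abs]; exact hC _)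

/-! ### Basic properties of the flow -/

lemma weights_nonneg (z : ℝ) : 0 ≤ (1 + tanh z) / 2 ∧ 0 ≤ (1 - tanh z) / 2 := by
  have := abs_le.1 (abs_tanh_lt_one z).le
  constructor <;> linarith

lemma flow_zero (φ : ℝ → ℝ) (z : ℝ) : flow 0 φ z = φ z := by
  simp only [flow, gsm_zero, add_zero, sub_zero]
  ring

lemma flow_const (w c z : ℝ) : flow w (fun _ => c) z = c := by
  simp [flow, gsm]
  ring

lemma abs_flow_le {φ : ℝ → ℝ} {C : ℝ} (hC : ∀ z, |φ z| ≤ C) (w z : ℝ) : |flow w φ z| ≤ C := by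
  obtain ⟨h1, h2⟩ := weights_nonneg z
  refine (abs_add_le _ _).trans ?_
  rw [abs_mul, abs_mul, abs_of_nonneg h1, abs_of_nonneg h2]
  have := mul_le_mul_of_nonneg_left (abs_gsm_le hC (z + w) w) h1
  have := mul_le_mul_of_nonneg_left (abs_gsm_le hC (z - w) w) h2
  linarith

/-- Values in an interval are kept. -/
lemma flow_mem_Icc {φ : ℝ → ℝ} (hc : Continuous φ) {a b : ℝ} (h : ∀ z, φ z ∈ Set.Icc a b)
    (w z : ℝ) : flow w φ z ∈ Set.Icc a b := by
  have hb : ∀ z, |φ z| ≤ max |a| |b| := fun z => abs_le_max_abs_abs (h z).1 (h z).2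
  have hg : ∀ m, gsm m w φ ∈ Set.Icc a b := fun m => by
    have h1 := integral_mono (μ := gaussianReal 0 1) (integrable_const a)
      (integrable_bdd hc hb m (√w)) fun g => (h _).1
    have h2 := integral_mono (μ := gaussianReal 0 1)
      (integrable_bdd hc hb m (√w)) (integrable_const b) fun g => (h _).2
    simp only [integral_const, probReal_univ, one_smul] at h1 h2
    exact ⟨h1, h2⟩
  obtain ⟨h1, h2⟩ := weights_nonneg z
  obtain ⟨p1, p2⟩ := hg (z + w)
  obtain ⟨q1, q2⟩ := hg (z - w)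
  have := mul_le_mul_of_nonneg_left p1 h1
  have := mul_le_mul_of_nonneg_left p2 h1
  have := mul_le_mul_of_nonneg_left q1 h2
  have := mul_le_mul_of_nonneg_left q2 h2
  rw [Set.mem_Icc, flow]
  constructor <;> linarith

/-- Semigroup. -/
theorem flow_flow {φ : ℝ → ℝ} (hc : Continuous φ) {C : ℝ} (hC : ∀ z, |φ z| ≤ C) {a b : ℝ}
    (ha : 0 ≤ a) (hb : 0 ≤ b) (z : ℝ) : flow a (flow b φ) z = flow (a + b) φ z := by
  have hcg : ∀ c : ℝ, Continuous fun m => gsm (m + c) b φ := fun c =>
    continuous_of_dominated (bound := fun _ => C)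
      (fun m => Continuous.aestronglyMeasurable (by fun_prop))
      (fun m => ae_of_all _ fun g => by rw [norm_eq_abs]; exact hC _) (integrable_const C)
      (ae_of_all _ fun g => by fun_prop)
  have hct : Continuous tanh :=
    continuous_iff_continuousAt.2 fun u => (hasDerivAt_tanh' u).continuousAt
  -- one branch: average of `exp (ε u) / (2 cosh u) · h u` over the two signs
  have key : ∀ (h : ℝ → ℝ), Continuous h → (∀ u, |h u| ≤ C) → ∀ ε : ℝ, ε = 1 ∨ ε = -1 →
      (1 + tanh z) / 2 * gsm (z + a) a (fun u => (1 + ε * tanh u) / 2 * h u)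
        + (1 - tanh z) / 2 * gsm (z - a) a (fun u => (1 + ε * tanh u) / 2 * h u)
      = (1 + ε * tanh z) / 2 * gsm (z + ε * a) a h := by
    intro h hh hhC ε hε
    have hwt : ∀ (e : ℝ), e = 1 ∨ e = -1 → ∀ u, (1 + e * tanh u) / 2 = exp (e * u) / (2 * cosh u) := by
      intro e he u
      have := cosh_pos u
      rw [tanh_eq_sinh_div_cosh]
      rcases he with rfl | rfl
      · rw [one_mul, one_mul]
        field_simp
        linarith [cosh_add_sinh u]
      · rw [neg_one_mul, neg_one_mul]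
        field_simp
        linarith [cosh_sub_sinh u]
    have hside : ∀ e : ℝ, e = 1 ∨ e = -1 → ∀ f : ℝ → ℝ,
        exp (e * z) * gsm (z + e * a) a f
          = exp (-(a / 2)) * ∫ g, exp (e * (z + √a * g)) * f (z + √a * g) ∂gaussianReal 0 1 := by
      intro e he f
      have ee : (e * √a) ^ 2 = a := by
        rcases he with rfl | rfl <;> simp [sq_sqrt ha]
      have e1 : ∀ g, exp (e * (z + √a * g)) * f (z + √a * g)
          = exp (e * z) * (exp (e * √a * g) * f (z + √a * g)) := fun g => by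
        rw [← mul_assoc (exp _) (exp _), ← exp_add]
        ring_nf
      simp only [e1]
      rw [integral_const_mul, gauss_tilt, ee, gsm]
      have e2 : ∀ g, z + √a * (g + e * √a) = z + e * a + √a * g := fun g => by
        rw [mul_add, show √a * (e * √a) = e * (√a * √a) by ring, mul_self_sqrt ha]
        ring
      simp only [e2]
      have := exp_ne_zero (a / 2)
      rw [exp_neg]
      field_simp
    set f := fun u => (1 + ε * tanh u) / 2 * h u
    have hf : Continuous f :=
      (((continuous_const.mul hct).const_add 1).div_const 2).mul hh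
    have hfb : ∀ u, |f u| ≤ C := fun u => by
      rw [abs_mul]
      refine le_trans (mul_le_of_le_one_left (abs_nonneg _) ?_) (hhC u)
      have := abs_le.1 (abs_tanh_lt_one u).le
      rcases hε with rfl | rfl <;> rw [abs_le] <;> constructor <;> linarith
    have hint : ∀ e : ℝ, e = 1 ∨ e = -1 →
        Integrable (fun g => exp (e * (z + √a * g)) * f (z + √a * g)) (gaussianReal 0 1) := by
      intro e _
      refine (((integrable_exp_mul_gaussianReal (e * √a)).const_mul (exp (e * z))).mul_const C).mono'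
        (Continuous.aestronglyMeasurable (by fun_prop)) (ae_of_all _ fun g => ?_)
      rw [norm_eq_abs, abs_mul, abs_of_pos (exp_pos _), ← exp_add]
      refine (mul_le_mul_of_nonneg_left (hfb _) (exp_pos _).le).trans_eq ?_
      ring_nf
    have hz : 2 * cosh z ≠ 0 := by have := cosh_pos z; positivity
    have h1 := hside 1 (Or.inl rfl) f
    have h2 := hside (-1) (Or.inr rfl) f
    have h3 := hside ε hε h
    have hw1 := hwt 1 (Or.inl rfl) z
    have hw2 := hwt (-1) (Or.inr rfl) z
    simp only [one_mul, neg_mul, ← sub_eq_add_neg] at h1 h2 hw1 hw2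
    rw [hw1, hw2, hwt ε hε z, div_mul_eq_mul_div, div_mul_eq_mul_div, div_mul_eq_mul_div,
      ← add_div, h1, h2, h3, ← mul_add]
    congr 2
    rw [← integral_add (by simpa using hint 1 (Or.inl rfl))
      (by simpa using hint (-1) (Or.inr rfl))]
    refine integral_congr_ae (ae_of_all _ fun g => ?_)
    set u := z + √a * g
    simp only [f, hwt ε hε]
    have := cosh_pos u
    field_simp
    rw [cosh_eq]
    ring
  have hconv : ∀ ε : ℝ, gsm (z + ε * a) a (fun u => gsm (u + ε * b) b φ)
      = gsm (z + ε * (a + b)) (a + b) φ := fun ε => by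
    rw [← gauss_add φ hc hC ha hb]
    simp only [gsm]
    refine integral_congr_ae (ae_of_all _ fun g => integral_congr_ae (ae_of_all _ fun g' => ?_))
    ring_nf
  have k1 := key (fun u => gsm (u + 1 * b) b φ) (hcg _) (fun u => abs_gsm_le hC _ _) 1 (Or.inl rfl)
  have k2 := key (fun u => gsm (u + -1 * b) b φ) (hcg _) (fun u => abs_gsm_le hC _ _) (-1)
    (Or.inr rfl)
  rw [hconv] at k1 k2
  have hsplit : ∀ m, gsm m a (flow b φ)
      = gsm m a (fun u => (1 + 1 * tanh u) / 2 * gsm (u + 1 * b) b φ)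
        + gsm m a (fun u => (1 + -1 * tanh u) / 2 * gsm (u + -1 * b) b φ) := fun m => by
    have hi : ∀ ε : ℝ, |ε| ≤ 1 → Integrable (fun g => (1 + ε * tanh (m + √a * g)) / 2
        * gsm (m + √a * g + ε * b) b φ) (gaussianReal 0 1) := fun ε hε => by
      refine integrable_bdd (f := fun u => (1 + ε * tanh u) / 2 * gsm (u + ε * b) b φ)
        ((((continuous_const.mul hct).const_add 1).div_const 2).mul (hcg _))
        (C := C) (fun u => ?_) m (√a)
      rw [abs_mul]
      refine le_trans (mul_le_of_le_one_left (abs_nonneg _) ?_) (abs_gsm_le hC _ _)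
      have h1 : |ε * tanh u| ≤ 1 := by
        rw [abs_mul]; exact mul_le_one₀ hε (abs_nonneg _) (abs_tanh_lt_one u).le
      have := abs_le.1 h1
      rw [abs_le]
      constructor <;> linarith
    simp only [gsm]
    refine Eq.trans (integral_congr_ae (ae_of_all _ fun g => ?_))
      (integral_add (hi 1 (by simp)) (hi (-1) (by simp)))
    simp only [flow, gsm, one_mul, neg_mul, ← sub_eq_add_neg]
  simp only [one_mul] at k1 k2 hsplit
  simp only [neg_mul, one_mul, ← sub_eq_add_neg] at k2 hsplit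
  rw [flow, hsplit, hsplit, flow]
  linarith

/-- The flow preserves smoothness, with an absolute factor. -/
theorem SmoothB.flow {C : ℝ} {φ : ℝ → ℝ} (h : SmoothB C φ) (w : ℝ) :
    SmoothB (24 * C) (Profile.flow w φ) := by
  have hC := h.nonneg
  set ψ := fun z => gsm (z + w) w φ + gsm (z + -w) w φ
  set χ := fun z => gsm (z + w) w φ - gsm (z + -w) w φ
  have hd3 : ∀ z, HasDerivAt (deriv (deriv φ)) (deriv (deriv (deriv φ)) z) z := h.d3
  have e : Profile.flow w φ = fun z => ψ z / 2 + tanh z * (χ z / 2) := funext fun z => by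
    simp only [Profile.flow, ψ, χ, ← sub_eq_add_neg]
    ring
  have hg : ∀ b z, HasDerivAt (fun z => gsm (z + b) w φ) (gsm (z + b) w (deriv φ)) z := fun b z =>
    gsm_hasDerivAt h.d1 h.continuous_d1 h.b0 h.b1 b w z
  have hg1 : ∀ b z, HasDerivAt (fun z => gsm (z + b) w (deriv φ))
      (gsm (z + b) w (deriv (deriv φ))) z := fun b z =>
    gsm_hasDerivAt h.d2 h.continuous_d2 h.b1 h.b2 b w z
  have hg2 : ∀ b z, HasDerivAt (fun z => gsm (z + b) w (deriv (deriv φ)))
      (gsm (z + b) w (deriv (deriv (deriv φ)))) z := fun b z => by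
    have hfc : Continuous (deriv (deriv φ)) := h.continuous_d2
    exact (hasDerivAt_integral_of_dominated_loc_of_deriv_le (μ := gaussianReal 0 1)
      (F := fun x g => deriv (deriv φ) (x + b + √w * g))
      (F' := fun x g => deriv (deriv (deriv φ)) (x + b + √w * g))
      (bound := fun _ => C) (s := Set.univ) Filter.univ_mem
      (Filter.Eventually.of_forall fun x => Continuous.aestronglyMeasurable (by fun_prop))
      (integrable_bdd hfc h.b2 _ _)
      ((measurable_deriv _).comp (by fun_prop)).aestronglyMeasurable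
      (ae_of_all _ fun g x _ => by rw [norm_eq_abs]; exact h.b3 _) (integrable_const C)
      (ae_of_all _ fun g x _ => by
        have e : (fun x => deriv (deriv φ) (x + b + √w * g))
            = fun x => deriv (deriv φ) (x + (b + √w * g)) := funext fun x => by rw [add_assoc]
        rw [e, add_assoc]
        exact (hd3 _).comp_add_const x _)).2
  set P : (ℝ → ℝ) → ℝ → ℝ := fun f z => (gsm (z + w) w f + gsm (z + -w) w f) / 2
  set M : (ℝ → ℝ) → ℝ → ℝ := fun f z => (gsm (z + w) w f - gsm (z + -w) w f) / 2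
  have bP : ∀ (f : ℝ → ℝ) z, (∀ u, |f u| ≤ C) → |P f z| ≤ C := fun f z hf => by
    have := abs_le.1 (abs_gsm_le hf (z + w) w)
    have := abs_le.1 (abs_gsm_le hf (z + -w) w)
    simp only [P]
    rw [abs_le]
    constructor <;> linarith
  have bM : ∀ (f : ℝ → ℝ) z, (∀ u, |f u| ≤ C) → |M f z| ≤ C := fun f z hf => by
    have := abs_le.1 (abs_gsm_le hf (z + w) w)
    have := abs_le.1 (abs_gsm_le hf (z + -w) w)
    simp only [M]
    rw [abs_le]
    constructor <;> linarith
  have ht : ∀ z, |tanh z| ≤ 1 := fun z => (abs_tanh_lt_one z).le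
  have hv : ∀ z, |1 - tanh z ^ 2| ≤ 1 := Rule.abs_one_sub_tanh_sq
  rw [e]
  refine SmoothB.of_derivs (p := fun z => P (deriv φ) z + ((1 - tanh z ^ 2) * M φ z
      + tanh z * M (deriv φ) z))
    (q := fun z => P (deriv (deriv φ)) z + (-2 * tanh z * (1 - tanh z ^ 2) * M φ z
      + 2 * (1 - tanh z ^ 2) * M (deriv φ) z + tanh z * M (deriv (deriv φ)) z))
    (r := fun z => P (deriv (deriv (deriv φ))) z
      + ((-2 * (1 - tanh z ^ 2) ^ 2 + 4 * tanh z ^ 2 * (1 - tanh z ^ 2)) * M φ z
      - 6 * tanh z * (1 - tanh z ^ 2) * M (deriv φ) z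
      + 3 * (1 - tanh z ^ 2) * M (deriv (deriv φ)) z
      + tanh z * M (deriv (deriv (deriv φ))) z))
    (fun z => ?_) (fun z => ?_) (fun z => ?_) (fun z => ?_) (fun z => ?_) (fun z => ?_)
    (fun z => ?_)
  · have hp := ((hg w z).add (hg (-w) z)).div_const 2
    have hm := ((hg w z).sub (hg (-w) z)).div_const 2
    exact hp.add ((hasDerivAt_tanh' z).mul hm)
  · have hp := ((hg1 w z).add (hg1 (-w) z)).div_const 2
    have hm := ((hg w z).sub (hg (-w) z)).div_const 2
    have hm1 := ((hg1 w z).sub (hg1 (-w) z)).div_const 2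
    refine (hp.add ((((hasDerivAt_tanh' z).fun_pow 2).const_sub 1 |>.mul hm).add
      ((hasDerivAt_tanh' z).mul hm1))).congr_deriv ?_
    simp only [P, M, Pi.sub_apply, Nat.cast_ofNat, Nat.add_one_sub_one, pow_one]
    ring
  · have hp := ((hg2 w z).add (hg2 (-w) z)).div_const 2
    have hm := ((hg w z).sub (hg (-w) z)).div_const 2
    have hm1 := ((hg1 w z).sub (hg1 (-w) z)).div_const 2
    have hm2 := ((hg2 w z).sub (hg2 (-w) z)).div_const 2
    have hv' := ((hasDerivAt_tanh' z).fun_pow 2).const_sub 1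
    refine (hp.add (((((hasDerivAt_tanh' z).const_mul (-2)).mul hv').mul hm).add
      ((hv'.const_mul 2).mul hm1) |>.add ((hasDerivAt_tanh' z).mul hm2))).congr_deriv ?_
    simp only [P, M, Pi.sub_apply, Pi.mul_apply, Nat.cast_ofNat, Nat.add_one_sub_one, pow_one]
    ring
  · have e0 : ψ z / 2 + tanh z * (χ z / 2) = P φ z + tanh z * M φ z := rfl
    rw [e0]
    refine (abs_add_le _ _).trans ?_
    rw [abs_mul]
    have := bP φ z h.b0
    have := mul_le_mul (ht z) (bM φ z h.b0) (abs_nonneg _) zero_le_one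
    linarith
  all_goals
    have t0 := ht z
    have v0 := hv z
    have m0 := bM φ z h.b0
    have m1 := bM (deriv φ) z h.b1
    have tv : |tanh z * (1 - tanh z ^ 2)| ≤ 1 := by
      rw [abs_mul]; exact mul_le_one₀ t0 (abs_nonneg _) v0
  · refine (abs_add_le _ _).trans ((add_le_add (bP _ z h.b1) (abs_add_le _ _)).trans ?_)
    rw [abs_mul, abs_mul]
    have := mul_le_mul v0 m0 (abs_nonneg _) zero_le_one
    have := mul_le_mul t0 m1 (abs_nonneg _) zero_le_one
    linarith
  · refine (abs_add_le _ _).trans ((add_le_add (bP _ z h.b2) ((abs_add_le _ _).trans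
      (add_le_add (abs_add_le _ _) le_rfl))).trans ?_)
    rw [mul_assoc (-2 : ℝ) (tanh z), abs_mul (-2 * _), abs_mul (-2 : ℝ), abs_mul (2 * _),
      abs_mul (2 : ℝ), abs_neg, abs_two, abs_mul (tanh z) (M _ z)]
    have := mul_le_mul tv m0 (abs_nonneg _) zero_le_one
    have := mul_le_mul v0 m1 (abs_nonneg _) zero_le_one
    have := mul_le_mul t0 (bM _ z h.b2) (abs_nonneg _) zero_le_one
    linarith
  · refine (abs_add_le _ _).trans ((add_le_add (bP _ z h.b3) ((abs_add_le _ _).trans (add_le_add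
      ((abs_add_le _ _).trans (add_le_add (abs_sub _ _) le_rfl)) le_rfl))).trans ?_)
    have t2 : |tanh z ^ 2| ≤ 1 := by rw [abs_pow]; exact pow_le_one₀ (abs_nonneg _) t0
    have c0 : |-2 * (1 - tanh z ^ 2) ^ 2 + 4 * tanh z ^ 2 * (1 - tanh z ^ 2)| ≤ 6 := by
      have := (abs_le.1 (show |(1 - tanh z ^ 2) ^ 2| ≤ 1 by
        rw [abs_pow]; exact pow_le_one₀ (abs_nonneg _) v0))
      have := (abs_le.1 (show |tanh z ^ 2 * (1 - tanh z ^ 2)| ≤ 1 by
        rw [abs_mul]; exact mul_le_one₀ t2 (abs_nonneg _) v0))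
      rw [abs_le]
      constructor <;> linarith
    have n0 := mul_le_mul c0 m0 (abs_nonneg _) (by norm_num)
    have n1 := mul_le_mul tv m1 (abs_nonneg _) zero_le_one
    have n2 := mul_le_mul v0 (bM _ z h.b2) (abs_nonneg _) zero_le_one
    have n3 := mul_le_mul t0 (bM _ z h.b3) (abs_nonneg _) zero_le_one
    rw [abs_mul (-2 * (1 - tanh z ^ 2) ^ 2 + 4 * tanh z ^ 2 * (1 - tanh z ^ 2)),
      mul_assoc (6 : ℝ) (tanh z), abs_mul (6 * _), abs_mul (6 : ℝ), abs_mul (3 * _),
      abs_mul (3 : ℝ), abs_mul (tanh z) (M _ z), abs_of_pos (by norm_num : (0:ℝ) < 6),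
      abs_of_pos (by norm_num : (0:ℝ) < 3)]
    linarith

lemma integrable_pow_gauss (k : ℕ) : Integrable (fun g : ℝ => |g| ^ k) (gaussianReal 0 1) := by
  refine (integrable_one_add_abs_pow k).mono' (by fun_prop) (ae_of_all _ fun g => ?_)
  rw [norm_eq_abs, abs_pow, abs_abs]
  exact pow_le_pow_left₀ (abs_nonneg g) (le_add_of_nonneg_left zero_le_one) k

/-- The generator of the flow, one step. -/
theorem flow_step : ∃ K, 0 ≤ K ∧ ∀ (C : ℝ) (φ : ℝ → ℝ), SmoothB C φ → ∀ w, 0 ≤ w → w ≤ 1 →
    ∀ z, |flow w φ z - φ z - w * (tanh z * deriv φ z + deriv (deriv φ) z / 2)|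
      ≤ K * C * (w * √w) := by
  set M := ∫ g : ℝ, |g| ^ 3 ∂gaussianReal 0 1
  have hM : 0 ≤ M := integral_nonneg fun g => by positivity
  refine ⟨4 * (1 + M) + 1, by positivity, fun C φ h w hw hw1 z => ?_⟩
  have hC := h.nonneg
  set s := √w
  have hs : 0 ≤ s := sqrt_nonneg w
  have hss : s * s = w := mul_self_sqrt hw
  have hs1 : s ≤ 1 := sqrt_le_one.2 hw1
  set p := deriv φ z
  set q := deriv (deriv φ) z
  have i1 : Integrable (fun g : ℝ => g) (gaussianReal 0 1) :=
    (memLp_id_gaussianReal (μ := 0) (v := 1) 1).integrable le_rfl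
  have i2 : Integrable (fun g : ℝ => g ^ 2) (gaussianReal 0 1) := by
    simpa [sq_abs] using integrable_pow_gauss 2
  have e1 : ∫ g : ℝ, g ∂gaussianReal 0 1 = 0 := by simp
  have e2 : ∫ g : ℝ, g ^ 2 ∂gaussianReal 0 1 = 1 := by
    have := variance_fun_id_gaussianReal (μ := 0) (v := 1)
    rw [variance_eq_integral (by fun_prop)] at this
    simpa using this
  have side : ∀ e : ℝ, |e| ≤ 1 →
      |gsm (z + e * w) w φ - (φ z + p * (e * w) + q * (e ^ 2 * w ^ 2 + w) / 2)|
        ≤ 4 * C * (1 + M) * (w * s) := by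
    intro e he
    set P : ℝ → ℝ := fun g => (φ z + p * (e * w) + q * (e * w) ^ 2 / 2)
      + (p * s + q * (e * w) * s) * g + q * s ^ 2 / 2 * g ^ 2
    have iP : Integrable P (gaussianReal 0 1) :=
      ((integrable_const _).add (i1.const_mul _)).add (i2.const_mul _)
    have hP : ∫ g, P g ∂gaussianReal 0 1
        = φ z + p * (e * w) + q * (e ^ 2 * w ^ 2 + w) / 2 := by
      simp only [P]
      have j1 : Integrable (fun g : ℝ => (φ z + p * (e * w) + q * (e * w) ^ 2 / 2)
          + (p * s + q * (e * w) * s) * g) (gaussianReal 0 1) :=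
        (integrable_const _).add (i1.const_mul _)
      rw [integral_add j1 (i2.const_mul _), integral_add (integrable_const _) (i1.const_mul _),
        integral_const, integral_const_mul, integral_const_mul, e1, e2, probReal_univ, one_smul,
        sq s, hss]
      ring
    have ig : Integrable (fun g => φ (z + e * w + s * g)) (gaussianReal 0 1) :=
      integrable_bdd h.continuous h.b0 _ _
    have hpt : ∀ g, |φ (z + e * w + s * g) - P g| ≤ 4 * C * (w * s) * (1 + |g| ^ 3) := fun g => by
      have ht := h.taylor3 z (e * w + s * g)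
      have er : φ (z + e * w + s * g) - P g = φ (z + (e * w + s * g)) - φ z
          - p * (e * w + s * g) - q * (e * w + s * g) ^ 2 / 2 := by
        simp only [P, ← add_assoc]; ring
      rw [er]
      refine ht.trans ?_
      have hr : |e * w + s * g| ^ 3 ≤ 4 * (w * s) * (1 + |g| ^ 3) := by
        have h1 : |e * w + s * g| ≤ w + s * |g| := by
          refine (abs_add_le _ _).trans (add_le_add ?_ ?_)
          · rw [abs_mul, abs_of_nonneg hw]; exact mul_le_of_le_one_left hw he
          · rw [abs_mul, abs_of_nonneg hs]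
        refine (pow_le_pow_left₀ (abs_nonneg _) h1 3).trans
          ((add_pow_le hw (mul_nonneg hs (abs_nonneg g)) 3).trans (le_of_le_of_eq ?_ rfl))
        have h3 : w ^ 3 ≤ w * s := by
          have hws : w ^ 2 ≤ s := by
            rw [← hss]
            nlinarith [pow_le_one₀ hs hs1 (n := 3)]
          calc w ^ 3 = w * w ^ 2 := by ring
            _ ≤ w * s := mul_le_mul_of_nonneg_left hws hw
        rw [mul_pow, show s ^ 3 = w * s by rw [← hss]; ring]
        norm_num
        linarith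
      calc C * |e * w + s * g| ^ 3 ≤ C * (4 * (w * s) * (1 + |g| ^ 3)) :=
            mul_le_mul_of_nonneg_left hr hC
        _ = _ := by ring
    rw [← hP, gsm, ← integral_sub ig iP]
    refine abs_integral_le_integral_abs.trans ((integral_mono_of_nonneg
      (ae_of_all _ fun g => abs_nonneg _)
      (((integrable_const (1:ℝ)).add (integrable_pow_gauss 3)).const_mul (4 * C * (w * s)))
      (ae_of_all _ hpt)).trans (le_of_eq ?_))
    simp only [Pi.add_apply]
    rw [integral_const_mul, integral_add (integrable_const _) (integrable_pow_gauss 3),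
      integral_const, probReal_univ, one_smul]
    ring
  have sp := side 1 (by simp)
  have sm := side (-1) (by simp)
  simp only [one_mul, one_pow, neg_one_sq, neg_mul, ← sub_eq_add_neg] at sp sm
  obtain ⟨a1, a2⟩ := weights_nonneg z
  have hflow : flow w φ z - φ z - w * (tanh z * p + q / 2)
      = (1 + tanh z) / 2 * (gsm (z + w) w φ - (φ z + p * w + q * (w ^ 2 + w) / 2))
        + (1 - tanh z) / 2 * (gsm (z - w) w φ - (φ z + p * -w + q * (w ^ 2 + w) / 2))
        + q * w ^ 2 / 2 := by
    rw [flow]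
    ring
  rw [hflow]
  refine (abs_add_le _ _).trans ((add_le_add (abs_add_le _ _) le_rfl).trans ?_)
  rw [abs_mul, abs_mul, abs_of_nonneg a1, abs_of_nonneg a2]
  have hq : |q * w ^ 2 / 2| ≤ C * (w * s) := by
    rw [abs_div, abs_mul, abs_two, abs_of_nonneg (sq_nonneg w)]
    have hqC : |q| ≤ C := h.b2 z
    have : w ^ 2 ≤ w * s := by
      rw [sq]
      refine mul_le_mul_of_nonneg_left ?_ hw
      rw [← hss]; exact mul_le_of_le_one_left hs hs1
    have := mul_le_mul hqC this (sq_nonneg w) hC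
    have : 0 ≤ C * (w * s) := by positivity
    linarith
  have := mul_le_mul_of_nonneg_left sp a1
  have sm' : |gsm (z - w) w φ - (φ z + p * -w + q * (w ^ 2 + w) / 2)|
      ≤ 4 * C * (1 + M) * (w * s) := sm
  have := mul_le_mul_of_nonneg_left sm' a2
  linarith

end Vale.Agent.P150.Beta1.Profile
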