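import Mathlib
import Vale.Agent.P150.Beta1.Profile.Flow

/-!
# The three functions propagated by the flow

`tanh²` has generator `v²`, and the entropy of a site `hEnt` has generator `-v/2`, where
`v = 1 - tanh²`.
-/

namespace Vale.Agent.P150.Beta1.Profile

open MeasureTheory ProbabilityTheory Real Filter
open scoped Topology

/-- The generator of the flow. -/
noncomputable def gen (φ : ℝ → ℝ) (z : ℝ) : ℝ := tanh z * deriv φ z + deriv (deriv φ) z / 2

/-- Squared magnetisation of a site. -/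
noncomputable def tsq (z : ℝ) : ℝ := tanh z ^ 2

/-- Variance of a site. -/
noncomputable def vfun (z : ℝ) : ℝ := 1 - tanh z ^ 2

/-- Squared variance of a site. -/
noncomputable def vsq (z : ℝ) : ℝ := (1 - tanh z ^ 2) ^ 2

/-- Entropy of a site with field `z`. -/
noncomputable def hEnt (z : ℝ) : ℝ := log (2 * cosh z) - z * tanh z

lemma vfun_mem (z : ℝ) : vfun z ∈ Set.Icc (0 : ℝ) 1 := by
  have h := (sq_le_one_iff_abs_le_one _).2 (abs_tanh_lt_one z).le
  rw [Set.mem_Icc, vfun]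
  constructor <;> linarith [sq_nonneg (tanh z)]

lemma vsq_mem (z : ℝ) : vsq z ∈ Set.Icc (0 : ℝ) 1 := by
  obtain ⟨h0, h1⟩ := vfun_mem z
  exact ⟨sq_nonneg _, pow_le_one₀ h0 h1⟩

lemma tsq_mem (z : ℝ) : tsq z ∈ Set.Icc (0 : ℝ) 1 :=
  ⟨sq_nonneg _, (sq_le_one_iff_abs_le_one _).2 (abs_tanh_lt_one z).le⟩

lemma hasDerivAt_vfun (z : ℝ) :
    HasDerivAt (fun z => 1 - tanh z ^ 2) (-(2 * tanh z * (1 - tanh z ^ 2))) z := by
  simpa using ((hasDerivAt_tanh' z).fun_pow 2).const_sub 1

lemma abs_mul_vfun_le (z : ℝ) : |z| * (1 - tanh z ^ 2) ≤ 1 := by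
  have hc := cosh_pos z
  have h1 : 1 - tanh z ^ 2 = 1 / cosh z ^ 2 := by
    rw [tanh_eq_sinh_div_cosh, div_pow]
    field_simp
    linarith [cosh_sq_sub_sinh_sq z]
  rw [h1, mul_one_div, div_le_one (by positivity)]
  have h2 : 1 + z ^ 2 / 4 ≤ cosh z := by
    have hq : ∀ x : ℝ, 0 ≤ x → 1 + x ^ 2 / 4 ≤ cosh x := fun x hx => by
      have h3 := quadratic_le_exp_of_nonneg hx
      have h4 := add_one_le_exp (-x)
      rw [cosh_eq]
      linarith
    rcases abs_choice z with h | h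
    · exact hq z (abs_nonneg z |>.trans_eq h)
    · have := hq (-z) (abs_nonneg z |>.trans_eq h)
      simpa using this
  calc |z| ≤ (1 + z ^ 2 / 4) ^ 2 := by nlinarith [sq_nonneg (|z| - 1), sq_abs z, sq_nonneg (z ^ 2)]
    _ ≤ cosh z ^ 2 := pow_le_pow_left₀ (by positivity) h2 2

lemma abs_tanh_mul_vfun (z : ℝ) : |tanh z * (1 - tanh z ^ 2)| ≤ 1 := by
  rw [abs_mul]
  exact mul_le_one₀ (abs_tanh_lt_one z).le (abs_nonneg _) (Rule.abs_one_sub_tanh_sq z)

lemma abs_z_mul_vfun (z : ℝ) : |z * (1 - tanh z ^ 2)| ≤ 1 := by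
  rw [abs_mul, abs_of_nonneg (show (0:ℝ) ≤ 1 - tanh z ^ 2 from (vfun_mem z).1)]
  exact abs_mul_vfun_le z

lemma smoothB_tsq : SmoothB 16 tsq := by
  refine SmoothB.of_derivs (p := fun z => 2 * (tanh z * (1 - tanh z ^ 2)))
    (q := fun z => 2 * (1 - tanh z ^ 2) ^ 2 - 4 * tanh z ^ 2 * (1 - tanh z ^ 2))
    (r := fun z => -16 * tanh z * (1 - tanh z ^ 2) ^ 2 + 8 * tanh z ^ 3 * (1 - tanh z ^ 2))
    (fun z => ?_) (fun z => ?_) (fun z => ?_) (fun z => ?_) (fun z => ?_) (fun z => ?_)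
    (fun z => ?_)
  · refine ((hasDerivAt_tanh' z).fun_pow 2).congr_deriv ?_
    simp only [Nat.cast_ofNat, Nat.add_one_sub_one, pow_one]
    ring
  · refine (((hasDerivAt_tanh' z).mul (hasDerivAt_vfun z)).const_mul 2).congr_deriv ?_
    ring
  · refine ((((hasDerivAt_vfun z).fun_pow 2).const_mul 2).sub
      ((((hasDerivAt_tanh' z).fun_pow 2).const_mul 4).mul (hasDerivAt_vfun z))).congr_deriv ?_
    simp only [Nat.cast_ofNat, Nat.add_one_sub_one, pow_one]
    ring
  all_goals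
    obtain ⟨v0, v1⟩ := vfun_mem z
    obtain ⟨t0, t1⟩ := tsq_mem z
    simp only [vfun, tsq] at v0 v1 t0 t1
  · rw [tsq, abs_of_nonneg t0]; linarith
  · rw [abs_mul, abs_two]; linarith [abs_tanh_mul_vfun z]
  · have := mul_le_one₀ t1 v0 v1
    have := mul_nonneg t0 v0
    have := sq_nonneg (1 - tanh z ^ 2)
    have := pow_le_one₀ (n := 2) v0 v1
    rw [abs_le]
    constructor <;> linarith
  · have e : -16 * tanh z * (1 - tanh z ^ 2) ^ 2 + 8 * tanh z ^ 3 * (1 - tanh z ^ 2)
        = tanh z * (1 - tanh z ^ 2) * (8 * tanh z ^ 2 - 16 * (1 - tanh z ^ 2)) := by ring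
    rw [e, abs_mul]
    refine (mul_le_of_le_one_left (abs_nonneg _) (abs_tanh_mul_vfun z)).trans ?_
    rw [abs_le]
    constructor <;> linarith

lemma smoothB_vsq : SmoothB 300 vsq := by
  refine SmoothB.of_derivs (p := fun z => -4 * (tanh z * (1 - tanh z ^ 2) ^ 2))
    (q := fun z => -4 * (1 - tanh z ^ 2) ^ 3 + 16 * tanh z ^ 2 * (1 - tanh z ^ 2) ^ 2)
    (r := fun z => 56 * tanh z * (1 - tanh z ^ 2) ^ 3 - 64 * tanh z ^ 3 * (1 - tanh z ^ 2) ^ 2)
    (fun z => ?_) (fun z => ?_) (fun z => ?_) (fun z => ?_) (fun z => ?_) (fun z => ?_)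
    (fun z => ?_)
  · refine ((hasDerivAt_vfun z).fun_pow 2).congr_deriv ?_
    simp only [Nat.cast_ofNat, Nat.add_one_sub_one, pow_one]
    ring
  · refine (((hasDerivAt_tanh' z).mul ((hasDerivAt_vfun z).fun_pow 2)).const_mul
      (-4)).congr_deriv ?_
    simp only [Nat.cast_ofNat, Nat.add_one_sub_one, pow_one]
    ring
  · refine ((((hasDerivAt_vfun z).fun_pow 3).const_mul (-4)).add
      ((((hasDerivAt_tanh' z).fun_pow 2).const_mul 16).mul
        ((hasDerivAt_vfun z).fun_pow 2))).congr_deriv ?_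
    simp only [Nat.cast_ofNat, Nat.add_one_sub_one, pow_one]
    ring
  all_goals
    obtain ⟨v0, v1⟩ := vfun_mem z
    obtain ⟨t0, t1⟩ := tsq_mem z
    simp only [vfun, tsq] at v0 v1 t0 t1
    have w1 := pow_le_one₀ (n := 2) v0 v1
    have w0 := sq_nonneg (1 - tanh z ^ 2)
  · rw [vsq, abs_of_nonneg w0]; linarith
  · rw [abs_mul, abs_neg, abs_of_pos (show (0:ℝ) < 4 by norm_num)]
    have : |tanh z * (1 - tanh z ^ 2) ^ 2| ≤ 1 := by
      rw [abs_mul]
      exact mul_le_one₀ (abs_tanh_lt_one z).le (abs_nonneg _) (by rwa [abs_of_nonneg w0])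
    linarith
  · have := mul_le_one₀ t1 w0 w1
    have := mul_nonneg t0 w0
    have := pow_le_one₀ (n := 3) v0 v1
    have := pow_nonneg v0 3
    rw [abs_le]
    constructor <;> linarith
  · have e : 56 * tanh z * (1 - tanh z ^ 2) ^ 3 - 64 * tanh z ^ 3 * (1 - tanh z ^ 2) ^ 2
        = tanh z * (1 - tanh z ^ 2) ^ 2 * (56 * (1 - tanh z ^ 2) - 64 * tanh z ^ 2) := by ring
    rw [e, abs_mul]
    have h1 : |tanh z * (1 - tanh z ^ 2) ^ 2| ≤ 1 := by
      rw [abs_mul]
      exact mul_le_one₀ (abs_tanh_lt_one z).le (abs_nonneg _) (by rwa [abs_of_nonneg w0])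
    refine (mul_le_of_le_one_left (abs_nonneg _) h1).trans ?_
    rw [abs_le]
    constructor <;> linarith

lemma hEnt_even (z : ℝ) : hEnt (-z) = hEnt z := by simp [hEnt]

lemma hEnt_le (x : ℝ) (hx : 0 ≤ x) :
    0 ≤ hEnt x ∧ hEnt x ≤ exp (-(2 * x)) * (1 + 2 * x) := by
  set E := exp (-(2 * x)) with hE
  have hE0 : 0 < E := exp_pos _
  have hc : 2 * cosh x = exp x * (1 + E) := by
    rw [cosh_eq, mul_add, hE, ← exp_add]; ring_nf
  have hlog : log (2 * cosh x) = x + log (1 + E) := by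
    rw [hc, log_mul (exp_pos x).ne' (by positivity), log_exp]
  have ht : 1 - tanh x = 2 * E / (1 + E) := by
    have hx0 := exp_pos x
    rw [tanh_eq, hE, show exp (-(2 * x)) = exp (-x) * exp (-x) by rw [← exp_add]; ring_nf,
      exp_neg]
    field_simp
    ring
  have e : hEnt x = log (1 + E) + x * (1 - tanh x) := by rw [hEnt, hlog]; ring
  have h1 : log (1 + E) ≤ E := by
    have := log_le_sub_one_of_pos (show (0:ℝ) < 1 + E by positivity)
    linarith
  have h2 : 0 ≤ log (1 + E) := log_nonneg (by linarith)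
  have h3 : 2 * E / (1 + E) ≤ 2 * E := div_le_self (by positivity) (by linarith)
  have h4 : 0 ≤ x * (1 - tanh x) := by rw [ht]; positivity
  rw [e]
  refine ⟨by linarith, ?_⟩
  have := mul_le_mul_of_nonneg_left h3 hx
  rw [ht] at *
  linarith

lemma abs_hEnt_le (z : ℝ) : |hEnt z| ≤ exp (-(2 * |z|)) * (1 + 2 * |z|) := by
  have h := hEnt_le |z| (abs_nonneg z)
  have e : hEnt |z| = hEnt z := by
    rcases abs_choice z with h | h <;> rw [h]
    exact hEnt_even z
  rw [e] at h
  rw [abs_of_nonneg h.1]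
  exact h.2

lemma abs_hEnt_le_one (z : ℝ) : |hEnt z| ≤ 1 := by
  refine (abs_hEnt_le z).trans ?_
  rw [exp_neg, inv_mul_le_iff₀ (exp_pos _), mul_one]
  linarith [add_one_le_exp (2 * |z|)]

lemma hEnt_zero : hEnt 0 = log 2 := by simp [hEnt]

lemma hasDerivAt_hEnt (z : ℝ) : HasDerivAt hEnt (-(z * (1 - tanh z ^ 2))) z := by
  have hc := cosh_pos z
  refine ((((hasDerivAt_cosh z).const_mul 2).log (by positivity)).sub
    ((hasDerivAt_id z).mul (hasDerivAt_tanh' z))).congr_deriv ?_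
  rw [tanh_eq_sinh_div_cosh]
  simp only [id]
  field_simp
  ring

lemma hasDerivAt_hEnt' (z : ℝ) : HasDerivAt (fun z => -(z * (1 - tanh z ^ 2)))
    (-(1 - tanh z ^ 2) + 2 * z * tanh z * (1 - tanh z ^ 2)) z := by
  refine (((hasDerivAt_id z).mul (hasDerivAt_vfun z)).neg).congr_deriv ?_
  simp only [id]
  ring

lemma smoothB_hEnt : SmoothB 16 hEnt := by
  refine SmoothB.of_derivs (p := fun z => -(z * (1 - tanh z ^ 2)))
    (q := fun z => -(1 - tanh z ^ 2) + 2 * z * tanh z * (1 - tanh z ^ 2))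
    (r := fun z => 4 * (tanh z * (1 - tanh z ^ 2))
      + z * (1 - tanh z ^ 2) * (2 * (1 - tanh z ^ 2) - 4 * tanh z ^ 2))
    hasDerivAt_hEnt hasDerivAt_hEnt' (fun z => ?_) (fun z => ?_) (fun z => ?_) (fun z => ?_)
    (fun z => ?_)
  · refine (((hasDerivAt_vfun z).neg).add
      ((((hasDerivAt_id z).const_mul 2).mul (hasDerivAt_tanh' z)).mul
        (hasDerivAt_vfun z))).congr_deriv ?_
    simp only [id, Pi.mul_apply]
    ring
  · exact (abs_hEnt_le_one z).trans (by norm_num)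
  all_goals
    obtain ⟨v0, v1⟩ := vfun_mem z
    obtain ⟨t0, t1⟩ := tsq_mem z
    simp only [vfun, tsq] at v0 v1 t0 t1
    have zv := abs_z_mul_vfun z
  · rw [abs_neg]; linarith
  · have h2 : |2 * z * tanh z * (1 - tanh z ^ 2)| ≤ 2 := by
      rw [show 2 * z * tanh z * (1 - tanh z ^ 2) = 2 * (z * (1 - tanh z ^ 2) * tanh z) by ring,
        abs_mul, abs_two, abs_mul]
      linarith [mul_le_one₀ zv (abs_nonneg _) (abs_tanh_lt_one z).le]
    have := abs_le.1 h2
    rw [abs_le]
    constructor <;> linarith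
  · refine (abs_add_le _ _).trans ?_
    rw [abs_mul, abs_mul (z * _), abs_of_pos (show (0:ℝ) < 4 by norm_num)]
    have h3 : |2 * (1 - tanh z ^ 2) - 4 * tanh z ^ 2| ≤ 6 := by
      rw [abs_le]
      constructor <;> linarith
    have := mul_le_mul zv h3 (abs_nonneg _) zero_le_one
    linarith [abs_tanh_mul_vfun z]

lemma gen_tsq : gen tsq = vsq := by
  funext z
  have h1 : deriv tsq = fun z => 2 * (tanh z * (1 - tanh z ^ 2)) := funext fun z =>
    (((hasDerivAt_tanh' z).fun_pow 2).congr_deriv (by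
      simp only [Nat.cast_ofNat, Nat.add_one_sub_one, pow_one]; ring)).deriv
  have h2 : HasDerivAt (fun z => 2 * (tanh z * (1 - tanh z ^ 2))) _ z :=
    ((hasDerivAt_tanh' z).mul (hasDerivAt_vfun z)).const_mul 2
  rw [gen, h1, h2.deriv, vsq]
  ring

lemma gen_hEnt : gen hEnt = fun z => -vfun z / 2 := by
  funext z
  have h1 : deriv hEnt = fun z => -(z * (1 - tanh z ^ 2)) :=
    funext fun z => (hasDerivAt_hEnt z).deriv
  rw [gen, h1, (hasDerivAt_hEnt' z).deriv, vfun]
  ring

lemma flow_vsq_mem (w z : ℝ) : flow w vsq z ∈ Set.Icc (0 : ℝ) 1 :=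
  flow_mem_Icc smoothB_vsq.continuous vsq_mem w z

lemma flow_tsq_mem (w z : ℝ) : flow w tsq z ∈ Set.Icc (0 : ℝ) 1 :=
  flow_mem_Icc smoothB_tsq.continuous tsq_mem w z

lemma tendsto_hEnt_atTop : Tendsto hEnt atTop (𝓝 0) := by
  have h1 := (tendsto_pow_mul_exp_neg_atTop_nhds_zero 1).comp
    (tendsto_id.const_mul_atTop (show (0:ℝ) < 2 by norm_num))
  have h0 := (tendsto_pow_mul_exp_neg_atTop_nhds_zero 0).comp
    (tendsto_id.const_mul_atTop (show (0:ℝ) < 2 by norm_num))
  have h := h0.add h1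
  rw [add_zero] at h
  refine squeeze_zero_norm' ?_ h
  filter_upwards [eventually_ge_atTop 0] with x hx
  have := abs_hEnt_le x
  rw [abs_of_nonneg hx] at this
  refine this.trans_eq ?_
  simp only [Function.comp_apply, id, pow_zero, pow_one]
  ring

/-- The entropy dies along the flow. -/
theorem tendsto_flow_hEnt : Tendsto (fun w => flow w hEnt 0) atTop (𝓝 0) := by
  have hlim : Tendsto (fun w => gsm w w hEnt) atTop (𝓝 0) := by
    have h := tendsto_integral_filter_of_dominated_convergence (μ := gaussianReal 0 1)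
      (l := atTop) (F := fun w g => hEnt (w + √w * g)) (f := fun _ => (0:ℝ)) (fun _ => (1:ℝ))
      (Eventually.of_forall fun w => (smoothB_hEnt.continuous.comp
        (by fun_prop : Continuous fun g : ℝ => w + √w * g)).aestronglyMeasurable)
      (Eventually.of_forall fun w => ae_of_all _ fun g => by
        rw [norm_eq_abs]; exact abs_hEnt_le_one _)
      (integrable_const _) (ae_of_all _ fun g => ?_)
    · simpa [gsm] using h
    · refine tendsto_hEnt_atTop.comp ?_
      refine tendsto_atTop_mono' atTop ?_ (tendsto_id.atTop_div_const (show (0:ℝ) < 2 by norm_num))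
      filter_upwards [eventually_ge_atTop (4 * g ^ 2), eventually_ge_atTop 0] with w hw hw0
      have h2 : 2 * |g| ≤ √w := by
        rw [le_sqrt (by positivity) hw0, mul_pow, sq_abs]
        linarith
      have h3 : -(√w * g) ≤ √w * (√w / 2) := by
        rw [← mul_neg]
        exact mul_le_mul_of_nonneg_left (by linarith [neg_le_abs g]) (sqrt_nonneg w)
      rw [show √w * (√w / 2) = w / 2 by rw [← mul_div_assoc, mul_self_sqrt hw0]] at h3
      simp only [id]
      linarith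
  have hneg : ∀ w, gsm (-w) w hEnt = gsm w w hEnt := fun w => by
    have hmap : (gaussianReal 0 1).map (fun x => -x) = gaussianReal 0 1 := by
      simp [gaussianReal_map_neg]
    simp only [gsm]
    conv_lhs => rw [← hmap]
    rw [integral_map (f := fun g => hEnt (-w + √w * g)) (by fun_prop) (smoothB_hEnt.continuous.comp
      (by fun_prop : Continuous fun g : ℝ => -w + √w * g)).aestronglyMeasurable]
    refine integral_congr_ae (ae_of_all _ fun g => ?_)
    show hEnt (-w + √w * -g) = _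
    rw [show -w + √w * -g = -(w + √w * g) by ring, hEnt_even]
  refine (hlim.congr fun w => ?_)
  simp [flow, hneg]
  ring

end Vale.Agent.P150.Beta1.Profile
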