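import Vale.Agent.P150.Beta1.Profile.TwoTime
import Vale.Agent.P150.Beta1.Profile.ZeroField
import Vale.Agent.P150.Beta1.Profile.Inst

/-!
# The drift of an iterate along the localisation

Tested with a slow scalar and a function of the earlier iterate, the increment of `ampZ k` is
`(h + β² (Q'_k - Q_k))` times the configuration, up to `O(√((D + 1) / n))`.
-/

namespace Vale.Agent.P150.Beta1.Profile

open MeasureTheory ProbabilityTheory Finset Function Real
open Local

variable {n : ℕ} {β : ℝ} {J : Fin n → Fin n → ℝ}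

/-- The error of the rule, averaged. -/
noncomputable def errN (J : Fin n → Fin n → ℝ) (F : (Fin n → Bool) → ℝ) : ℝ :=
  √((dirichlet (p0 J) (fun x => √(F x)) + 1) / n)

/-- Overlap of the configuration with a function of an iterate. -/
noncomputable def ovl (β : ℝ) (J : Fin n → Fin n → ℝ) (φ : ℝ → ℝ) (k : ℕ) : Obs (Fin n) :=
  fun x y => avg fun i => φ (ampZ β J y (spins x) k i) * spins x i

lemma qav_spins (hn : 0 < n) (x : Fin n → Bool) : qav (spins x) = 1 := by
  have e : ∀ i, spins x i ^ 2 = 1 := fun i => by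
    simp only [spins, spin]; split_ifs <;> norm_num
  simp [qav, avg, e, hn.ne']

/-- One formula for all the iterates: the Onsager coefficient of a configuration vanishes. -/
lemma ampZ_eq (hn : 0 < n) (y : Fin n → ℝ) (x : Fin n → Bool) (k : ℕ) (i : Fin n) :
    ampZ β J y (spins x) k i = y i + act J (ampA β J y (spins x) k) i
      - onsager β (ampA β J y (spins x) k) * ampA β J y (spins x) (k - 1) i := by
  match k with
  | 0 => simp [ampZ, ampA, onsager, qav_spins hn x]
  | 1 => simp only [ampZ, ampA, Nat.sub_self]; try rfl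
  | k + 2 => simp only [ampZ, ampA]; try rfl

lemma ampA_eq_sub (y : Fin n → ℝ) (x : Fin n → Bool) (k : ℕ) (i : Fin n) :
    ampA β J y (spins x) k i = spins x i - ∑ j ∈ range k, ampD β J y (spins x) j i := by
  induction k with
  | zero => simp [ampA]
  | succ k ih =>
    rw [sum_range_succ, sub_add_eq_sub_sub, ← ih, ampD]
    ring

lemma one_sub_qav_succ (hn : 0 < n) (y : Fin n → ℝ) (x : Fin n → Bool) (k : ℕ) :
    1 - qav (ampA β J y (spins x) (k + 1)) = avg fun i => vfun (ampZ β J y (spins x) k i) := by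
  have hn' : (n : ℝ) ≠ 0 := Nat.cast_ne_zero.2 hn.ne'
  simp only [qav, avg, ampA, tanhv, vfun, sum_sub_distrib, sum_const, card_univ, Fintype.card_fin,
    nsmul_eq_mul, mul_one, sub_div, div_self hn']

lemma smooth2_vfun : Smooth2 6 vfun (fun t => -(2 * tanh t * (1 - tanh t ^ 2)))
    (fun t => -(2 * (1 - tanh t ^ 2) ^ 2 - 4 * tanh t ^ 2 * (1 - tanh t ^ 2))) := by
  intro t
  obtain ⟨h0, h1⟩ := vfun_mem t
  simp only [vfun] at h0 h1
  have ht : |tanh t| ≤ 1 := (abs_tanh_lt_one t).le
  have ht2 : tanh t ^ 2 ≤ 1 := (sq_le_one_iff_abs_le_one _).2 ht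
  refine ⟨hasDerivAt_vfun t, ?_, ?_, ?_, ?_⟩
  · have hd := ((((hasDerivAt_tanh' t).mul (hasDerivAt_vfun t))).const_mul 2).neg
    refine (hd.congr_deriv ?_).congr_of_eventuallyEq (Filter.Eventually.of_forall fun s => ?_)
    · ring
    · simp only [Pi.mul_apply, Pi.neg_apply, mul_assoc]
  · rw [vfun, abs_of_nonneg h0]; linarith
  · rw [abs_neg, abs_mul, abs_mul, abs_two, abs_of_nonneg h0]
    have := mul_le_one₀ ht h0 h1
    linarith
  · rw [abs_neg, abs_le]
    have hv2 : (1 - tanh t ^ 2) ^ 2 ≤ 1 := pow_le_one₀ h0 h1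
    have := mul_le_one₀ ht2 h0 h1
    have := mul_nonneg (sq_nonneg (tanh t)) h0
    constructor <;> linarith [sq_nonneg (1 - tanh t ^ 2)]

/-- `1 - Q_k` is slow. -/
lemma slow_one_sub_qav (hn : 0 < n) {Cg : ℝ} (hCg : 0 ≤ Cg) {y : Fin n → ℝ} (k : ℕ)
    (hg : GradBound β J y (k - 1) Cg) :
    SlowScalar (2 * 6 ^ 2 * Cg + 8 * 6 ^ 2 * Cg ^ 2)
      fun x => 1 - qav (ampA β J y (spins x) k) := by
  cases k with
  | zero =>
    simp only [ampA, qav_spins hn, sub_self]
    exact slow_mono (slow_cst (by simp)) (by positivity)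
  | succ k =>
    simp only [one_sub_qav_succ hn]
    exact slow_avg hCg hg (by norm_num) smooth2_vfun fun t => by
      rw [abs_of_nonneg (vfun_mem t).1]; exact (vfun_mem t).2

lemma abs_ampD_le (y : Fin n → ℝ) (x : Fin n → Bool) (j : ℕ) (i : Fin n) :
    |ampD β J y (spins x) j i| ≤ 2 :=
  (abs_sub _ _).trans (by linarith [Rule.abs_ampA_le β J y x j i, Rule.abs_ampA_le β J y x (j + 1) i])

lemma continuous_ampA' (x : Fin n → Bool) (k : ℕ) :
    Continuous fun y : Fin n → ℝ => ampA β J y (spins x) k := by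
  cases k with
  | zero => exact continuous_const
  | succ k =>
    simp only [ampA, tanhv]
    exact continuous_pi fun i => continuous_tanh'.comp ((continuous_apply i).comp
      (continuous_ampZ_slow β J (spins x) k))

theorem drift (hT : TestsStatement β) (hGr : GradStatement β) (k : ℕ) :
    ∃ m : ℕ, ∀ C, ∃ C', 0 ≤ C' ∧ ∀ (n : ℕ), 0 < n → ∀ (J : Fin n → Fin n → ℝ),
      GoodWords β m C J → ∀ F : (Fin n → Bool) → ℝ, (∀ x, 0 < F x) → mean (p0 J) F = 1 →
      ∀ u h : ℝ, 0 ≤ u → 0 ≤ h → ∀ s : Obs (Fin n), (∀ x, Continuous (s x)) →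
      (∀ y, SlowScalar C fun x => s x y) → ∀ φ φ₁ φ₂ : ℝ → ℝ, Smooth2 C φ φ₁ φ₂ →
      Int2 u h (fun x y y' => s x y * avg fun i => φ (ampZ β J y (spins x) k i)
          * (ampZ β J y' (spins x) k i - ampZ β J y (spins x) k i)) ∧
      |pE2 J F u h (fun x y y' => s x y * avg fun i => φ (ampZ β J y (spins x) k i)
          * (ampZ β J y' (spins x) k i - ampZ β J y (spins x) k i))
        - (h * pE J F u (fun x y => s x y * ovl β J φ k x y)
          + β ^ 2 * pE2 J F u h (fun x y y' => s x y * ovl β J φ k x y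
              * (qav (ampA β J y' (spins x) k) - qav (ampA β J y (spins x) k))))|
        ≤ C' * errN J F := by
  obtain ⟨mt, ht⟩ := hT k
  obtain ⟨mg, hgr⟩ := hGr (k - 1)
  refine ⟨max mt mg, fun C => ?_⟩
  obtain ⟨Cg₀, hCg₀⟩ := hgr C
  set Cg := max Cg₀ 0
  set Cv := 2 * 6 ^ 2 * Cg + 8 * 6 ^ 2 * Cg ^ 2
  set C3 := max (max C (C ^ 2)) (2 * |C| + 2 * Cv)
  obtain ⟨Ct₀, hCt₀⟩ := ht C3
  set Ct := max Ct₀ 0
  refine ⟨(2 * k + 2 * β ^ 2 * k) * Ct, by positivity, fun n hn J hG F hF hm u h hu hh s hsc hs φ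
    φ₁ φ₂ hφ => ?_⟩
  have hC : 0 ≤ C := (abs_nonneg _).trans (hφ 0).2.2.1
  have hn' : (0 : ℝ) < n := Nat.cast_pos.2 hn
  have hCg : 0 ≤ Cg := le_max_right _ _
  have hgb : ∀ y, GradBound β J y (k - 1) Cg := fun y a x =>
    (hCg₀ n J y a x (goodWords_mono hG (le_max_right _ _) le_rfl)).trans
      (mul_le_mul_of_nonneg_right (le_max_left _ _) (sum_nonneg fun i _ => sq_nonneg _))
  have hG3 : GoodWords β mt C3 J :=
    goodWords_mono hG (le_max_left _ _) ((le_max_left _ _).trans (le_max_left _ _))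
  have hφc : Continuous φ := continuous_iff_continuousAt.2 fun t => (hφ t).1.continuousAt
  have hφ3 : ∀ t, HasDerivAt φ (φ₁ t) t ∧ HasDerivAt φ₁ (φ₂ t) t ∧ |φ₁ t| ≤ C3 ∧ |φ₂ t| ≤ C3 :=
    fun t => ⟨(hφ t).1, (hφ t).2.1, (hφ t).2.2.2.1.trans ((le_max_left _ _).trans (le_max_left _ _)),
      (hφ t).2.2.2.2.trans ((le_max_left _ _).trans (le_max_left _ _))⟩
  have hsq : ∀ y x, ∑ i, φ (ampZ β J y (spins x) k i) ^ 2 ≤ C3 * n := fun y x => by
    refine (sum_le_sum fun i _ => (?_ : _ ≤ C3)).trans (le_of_eq ?_)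
    · refine le_trans ?_ ((le_max_right _ _).trans (le_max_left _ _))
      rw [← sq_abs]
      exact pow_le_pow_left₀ (abs_nonneg _) (hφ _).2.2.1 2
    · simp [mul_comm]
  -- scalars
  have hs3 : ∀ y, SlowScalar C3 fun x => s x y := fun y =>
    slow_mono (hs y) ((le_max_left _ _).trans (le_max_left _ _))
  have hsq3 : ∀ y y', SlowScalar C3 fun x => s x y * (1 - qav (ampA β J y' (spins x) k)) :=
    fun y y' => slow_mono (slow_mul (hs y) (slow_one_sub_qav hn hCg k (hgb y')))
      ((by linarith [le_abs_self C] : 2 * C + 2 * Cv ≤ 2 * |C| + 2 * Cv).trans (le_max_right _ _))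
  have habs : ∀ x y, |s x y| ≤ 1 := fun x y => (hs y x).1
  -- the pieces
  set P : ℕ → Obs2 (Fin n) := fun j x y y' => s x y * avg fun i =>
    act J (fun l => φ (ampZ β J y (spins x) k l)) i * ampD β J y' (spins x) j i
  set P₀ : ℕ → Obs (Fin n) := fun j x y => s x y * avg fun i =>
    act J (fun l => φ (ampZ β J y (spins x) k l)) i * ampD β J y (spins x) j i
  set R : ℕ → Obs2 (Fin n) := fun j x y y' => (s x y * (1 - qav (ampA β J y' (spins x) k)))
    * avg fun i => φ (ampZ β J y (spins x) k i) * ampD β J y' (spins x) j i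
  set R₀ : ℕ → Obs (Fin n) := fun j x y => (s x y * (1 - qav (ampA β J y (spins x) k)))
    * avg fun i => φ (ampZ β J y (spins x) k i) * ampD β J y (spins x) j i
  set Q : Obs2 (Fin n) := fun x y y' => s x y * ovl β J φ k x y
    * (qav (ampA β J y' (spins x) k) - qav (ampA β J y (spins x) k))
  set G : Fin n → Obs (Fin n) := fun i x y => s x y * φ (ampZ β J y (spins x) k i) / n
  -- bounds and continuity
  have cz : ∀ x l, Continuous fun y : Fin n → ℝ => φ (ampZ β J y (spins x) k l) := fun x l =>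
    hφc.comp ((continuous_apply l).comp (continuous_ampZ_slow β J (spins x) k))
  have cd : ∀ x j i, Continuous fun y : Fin n → ℝ => ampD β J y (spins x) j i := fun x j i =>
    ((continuous_apply i).comp (continuous_ampA' x j)).sub
      ((continuous_apply i).comp (continuous_ampA' x (j + 1)))
  have cq : ∀ x, Continuous fun y : Fin n → ℝ => qav (ampA β J y (spins x) k) := fun x => by
    simp only [qav, avg]
    exact (continuous_finsetSum _ fun i _ =>
      ((continuous_apply i).comp (continuous_ampA' x k)).pow 2).div_const _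
  have cJ : ∀ x i, Continuous fun y : Fin n → ℝ =>
      act J (fun l => φ (ampZ β J y (spins x) k l)) i := fun x i =>
    continuous_finsetSum _ fun l _ => continuous_const.mul (cz x l)
  set S := C * ∑ i, ∑ l, |J i l|
  have bJ : ∀ x y i, |act J (fun l => φ (ampZ β J y (spins x) k l)) i| ≤ S := fun x y i => by
    refine (abs_sum_le_sum_abs _ _).trans (le_trans (sum_le_sum fun l _ => ?_)
      (le_trans (mul_sum _ _ _).ge (mul_le_mul_of_nonneg_left (single_le_sum
        (f := fun i => ∑ l, |J i l|) (fun i _ => sum_nonneg fun l _ => abs_nonneg _)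
        (mem_univ i)) hC)))
    rw [abs_mul, mul_comm]
    exact mul_le_mul_of_nonneg_right (hφ _).2.2.1 (abs_nonneg _)
  have hS : 0 ≤ S := mul_nonneg hC (sum_nonneg fun i _ => sum_nonneg fun l _ => abs_nonneg _)
  have bP : ∀ j x y y', |P j x y y'| ≤ S * 2 := fun j x y y' => by
    rw [abs_mul]
    exact (mul_le_of_le_one_left (abs_nonneg _) (habs x y)).trans
      (abs_avg_le_of_le (by positivity) fun i => by
        rw [abs_mul]; exact mul_le_mul (bJ x y i) (abs_ampD_le y' x j i) (abs_nonneg _) hS)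
  have bq : ∀ x y, |1 - qav (ampA β J y (spins x) k)| ≤ 1 := fun x y => by
    obtain ⟨h0, h1⟩ := Rule.qav_mem (Rule.abs_ampA_le β J y x k)
    rw [abs_le]; constructor <;> linarith
  have bR : ∀ j x y y', |R j x y y'| ≤ C * 2 := fun j x y y' => by
    rw [abs_mul]
    refine (mul_le_of_le_one_left (abs_nonneg _) ?_).trans
      (abs_avg_le_of_le (by positivity) fun i => by
        rw [abs_mul]; exact mul_le_mul (hφ _).2.2.1 (abs_ampD_le y' x j i) (abs_nonneg _) hC)
    rw [abs_mul]
    exact mul_le_one₀ (habs x y) (abs_nonneg _) (bq x y')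
  have cP₀ : ∀ j x, Continuous (P₀ j x) := fun j x => (hsc x).mul
    ((continuous_finsetSum _ fun i _ => (cJ x i).mul (cd x j i)).div_const _)
  have cR₀ : ∀ j x, Continuous (R₀ j x) := fun j x => ((hsc x).mul (continuous_const.sub (cq x))).mul
    ((continuous_finsetSum _ fun i _ => (cz x i).mul (cd x j i)).div_const _)
  have hP : ∀ j, BddCont2 (P j) := fun j => ⟨S * 2, fun x => ⟨((hsc x).comp continuous_fst).mul
    ((continuous_finsetSum _ fun i _ => ((cJ x i).comp continuous_fst).mul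
      ((cd x j i).comp continuous_snd)).div_const _), bP j x⟩⟩
  have hR : ∀ j, BddCont2 (R j) := fun j => ⟨C * 2, fun x => ⟨(((hsc x).comp continuous_fst).mul
    (continuous_const.sub ((cq x).comp continuous_snd))).mul
    ((continuous_finsetSum _ fun i _ => ((cz x i).comp continuous_fst).mul
      ((cd x j i).comp continuous_snd)).div_const _), bR j x⟩⟩
  have co : ∀ x, Continuous (ovl β J φ k x) := fun x =>
    (continuous_finsetSum _ fun i _ => (cz x i).mul continuous_const).div_const _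
  have bo : ∀ x y, |ovl β J φ k x y| ≤ C := fun x y => abs_avg_le_of_le hC fun i => by
    rw [abs_mul]
    exact (mul_le_of_le_one_right (abs_nonneg _) (Rule.abs_spins_le x i)).trans (hφ _).2.2.1
  have hQ : BddCont2 Q := ⟨C * 2, fun x => ⟨(((hsc x).comp continuous_fst).mul
    ((co x).comp continuous_fst)).mul (((cq x).comp continuous_snd).sub
      ((cq x).comp continuous_fst)), fun y y' => by
    have b1 : |qav (ampA β J y' (spins x) k) - qav (ampA β J y (spins x) k)| ≤ 2 := by
      have h1 := abs_le.1 (bq x y)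
      have h2 := abs_le.1 (bq x y')
      rw [abs_le]; constructor <;> linarith
    rw [abs_mul, abs_mul]
    exact mul_le_mul ((mul_le_of_le_one_left (abs_nonneg _) (habs x y)).trans (bo x y)) b1
      (abs_nonneg _) hC⟩⟩
  -- the rule bounds
  have key : ∀ (y' : Fin n → ℝ) (Φ : (Fin n → Bool) → ℝ),
      |tmean (gibbs J y') F Φ| ≤ Ct₀ * √n * √(tdir (gibbs J y') F + 1) →
      |tmean (gibbs J y') F (fun x => Φ x / n)| ≤ Ct / √n * √(tdir (gibbs J y') F + 1) := by
    intro y' Φ hb
    rw [show (fun x => Φ x / n) = fun x => (n : ℝ)⁻¹ * Φ x from funext fun x => div_eq_inv_mul _ _,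
      tmean_mul, abs_mul, abs_inv, Nat.abs_cast]
    refine (mul_le_mul_of_nonneg_left (hb.trans (mul_le_mul_of_nonneg_right
      (mul_le_mul_of_nonneg_right (le_max_left Ct₀ 0) (Real.sqrt_nonneg _))
      (Real.sqrt_nonneg _))) (inv_nonneg.2 hn'.le)).trans (le_of_eq ?_)
    have hsn : √(n:ℝ) ≠ 0 := (Real.sqrt_pos.2 hn').ne'
    field_simp
    rw [Real.sq_sqrt hn'.le]
    ring
  have eP : ∀ j x y y', P j x y y' = (s x y * ∑ i,
      act J (fun l => φ (ampZ β J y (spins x) k l)) i * ampD β J y' (spins x) j i) / n :=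
    fun j x y y' => by simp [P, avg, mul_div_assoc]
  have eR : ∀ j x y y', R j x y y' = ((s x y * (1 - qav (ampA β J y' (spins x) k))) * ∑ i,
      φ (ampZ β J y (spins x) k i) * ampD β J y' (spins x) j i) / n :=
    fun j x y y' => by simp [R, avg, mul_div_assoc]
  have tP : ∀ j, j < k → ∀ y y', |tmean (gibbs J y') F (fun x => P j x y y')|
      ≤ Ct / √n * √(tdir (gibbs J y') F + 1) := fun j hj y y' => by
    simp only [eP]
    exact key y' _ ((hCt₀ n J y' y F (fun x => s x y) φ φ₁ φ₂ hG3 hF (hs3 y) hφ3 (hsq y) j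
      hj.le).2 hj)
  have tR : ∀ j, j ≤ k → ∀ y y', |tmean (gibbs J y') F (fun x => R j x y y')|
      ≤ Ct / √n * √(tdir (gibbs J y') F + 1) := fun j hj y y' => by
    simp only [eR]
    exact key y' _ (hCt₀ n J y' y F _ φ φ₁ φ₂ hG3 hF (hsq3 y y') hφ3 (hsq y) j hj).1
  set E := Ct * errN J F with hE
  have hK : 0 ≤ Ct / √(n:ℝ) := div_nonneg (le_max_right _ _) (Real.sqrt_nonneg _)
  have conv : Ct / √(n:ℝ) * √(dirichlet (p0 J) (fun x => √(F x)) + 1) = E := by
    rw [hE, errN, Real.sqrt_div' _ hn'.le]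
    ring
  have e1 : ∀ j ∈ range k, |pE2 J F u h (P j)| ≤ E := fun j hj =>
    conv ▸ abs_pE2_le hF hm hu hh (hP j) hK (tP j (mem_range.1 hj))
  have e2 : ∀ j ∈ range k, |pE J F u (P₀ j)| ≤ E := fun j hj =>
    conv ▸ abs_pE_le hF hm hu (cP₀ j) (fun x y => bP j x y y) hK
      (fun y => tP j (mem_range.1 hj) y y)
  have e3 : ∀ j ∈ range (k - 1), |pE2 J F u h (R j)| ≤ E := fun j hj =>
    conv ▸ abs_pE2_le hF hm hu hh (hR j) hK (tR j (by have := mem_range.1 hj; omega))
  have e4 : ∀ j ∈ range (k - 1), |pE J F u (R₀ j)| ≤ E := fun j hj =>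
    conv ▸ abs_pE_le hF hm hu (cR₀ j) (fun x y => bR j x y y) hK
      (fun y => tR j (by have := mem_range.1 hj; omega) y y)
  -- the identity
  have point : ∀ x y y', (s x y * avg fun i => φ (ampZ β J y (spins x) k i)
      * (ampZ β J y' (spins x) k i - ampZ β J y (spins x) k i))
      = (∑ i, G i x y * (y' i - y i)) - ((∑ j ∈ range k, P j x y y') - ∑ j ∈ range k, P₀ j x y)
        + (β ^ 2 * Q x y y'
          + β ^ 2 * ((∑ j ∈ range (k - 1), R j x y y') - ∑ j ∈ range (k - 1), R₀ j x y)) := by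
    intro x y y'
    have hsymm := hG.1
    set w := fun i => φ (ampZ β J y (spins x) k i) with hw
    have hJ : ∀ v : Fin n → ℝ, ∑ i, w i * act J v i = ∑ i, act J w i * v i := fun v => by
      simp only [act, mul_sum, sum_mul]
      rw [sum_comm]
      exact sum_congr rfl fun i _ => sum_congr rfl fun l _ => by rw [hsymm l i]; ring
    have hA : ∀ z, ∑ i, act J w i * ampA β J z (spins x) k i = (∑ i, act J w i * spins x i)
        - ∑ j ∈ range k, ∑ i, act J w i * ampD β J z (spins x) j i := fun z => by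
      simp only [ampA_eq_sub z x k, mul_sub, sum_sub_distrib, mul_sum]
      rw [sum_comm]
    have hB : ∀ z, ∑ i, w i * ampA β J z (spins x) (k - 1) i = (∑ i, w i * spins x i)
        - ∑ j ∈ range (k - 1), ∑ i, w i * ampD β J z (spins x) j i := fun z => by
      simp only [ampA_eq_sub z x (k - 1), mul_sub, sum_sub_distrib, mul_sum]
      rw [sum_comm]
    have hz : ∀ z, ∑ i, w i * ampZ β J z (spins x) k i = (∑ i, w i * z i)
        + ∑ i, act J w i * ampA β J z (spins x) k i
        - onsager β (ampA β J z (spins x) k) * ∑ i, w i * ampA β J z (spins x) (k - 1) i := fun z => by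
      rw [← hJ, mul_sum, ← sum_add_distrib, ← sum_sub_distrib]
      exact sum_congr rfl fun i _ => by rw [ampZ_eq hn]; ring
    have eL : ∑ i, w i * (ampZ β J y' (spins x) k i - ampZ β J y (spins x) k i)
        = (∑ i, w i * ampZ β J y' (spins x) k i) - ∑ i, w i * ampZ β J y (spins x) k i := by
      simp only [mul_sub, sum_sub_distrib]
    have eG : ∑ i, G i x y * (y' i - y i) = s x y / n * ((∑ i, w i * y' i) - ∑ i, w i * y i) := by
      simp only [← sum_sub_distrib, mul_sum]
      exact sum_congr rfl fun i _ => by simp only [G, hw]; ring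
    simp only [eG, P, P₀, R, R₀, Q, ovl, avg, Fintype.card_fin, mul_div_assoc', ← sum_div, ← mul_sum]
    change s x y * (∑ i, w i * _) / n = _
    rw [eL, hz y', hz y, hA y', hA y, hB y', hB y]
    simp only [onsager]
    ring
  obtain ⟨iG, eGv⟩ := eta_spec (J := J) (F := F) (u := u) (h := h) (G := G) (B := C / n)
    (fun i x => ((hsc x).mul (cz x i)).div_const _) (fun i x y => by
      simp only [G]
      rw [abs_div, Nat.abs_cast, abs_mul]
      exact div_le_div_of_nonneg_right ((mul_le_of_le_one_left (abs_nonneg _) (habs x y)).trans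
        (hφ _).2.2.1) hn'.le) hh
  have i0 : ∀ j, Int2 u h (fun x y _ => P₀ j x y) := fun j => BddCont2.int2 ⟨S * 2, fun x =>
    ⟨(cP₀ j x).comp continuous_fst, fun y _ => bP j x y y⟩⟩ u h
  have i0' : ∀ j, Int2 u h (fun x y _ => R₀ j x y) := fun j => BddCont2.int2 ⟨C * 2, fun x =>
    ⟨(cR₀ j x).comp continuous_fst, fun y _ => bR j x y y⟩⟩ u h
  have iP := Int2.sum (range k) fun j _ => (hP j).int2 u h
  have iP0 := Int2.sum (range k) fun j _ => i0 j
  have iR := Int2.sum (range (k - 1)) fun j _ => (hR j).int2 u h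
  have iR0 := Int2.sum (range (k - 1)) fun j _ => i0' j
  have iQ := hQ.int2 u h
  simp only [point]
  refine ⟨(iG.sub (iP.sub iP0)).add ((iQ.smul _).add ((iR.sub iR0).smul _)), ?_⟩
  rw [pE2_add (iG.sub (iP.sub iP0)) ((iQ.smul _).add ((iR.sub iR0).smul _)),
    pE2_add (iQ.smul _) ((iR.sub iR0).smul _), pE2_smul, pE2_smul, pE2_sub iG (iP.sub iP0),
    pE2_sub iP iP0, pE2_sub iR iR0, pE2_sum _ (fun j _ => (hP j).int2 u h),
    pE2_sum _ (fun j _ => i0 j), pE2_sum _ (fun j _ => (hR j).int2 u h),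
    pE2_sum _ (fun j _ => i0' j), eGv]
  simp only [pE2_fst]
  have eo : (fun x y => ∑ i, G i x y * spins x i) = fun x y => s x y * ovl β J φ k x y := by
    funext x y
    simp only [G, ovl, avg, Fintype.card_fin, mul_div_assoc', mul_sum, sum_div]
    exact sum_congr rfl fun i _ => by ring
  rw [eo]
  have bound : ∀ (m : ℕ) (a : ℕ → ℝ), (∀ j ∈ range m, |a j| ≤ E) → |∑ j ∈ range m, a j| ≤ m * E :=
    fun m a ha => (abs_sum_le_sum_abs _ _).trans ((sum_le_sum ha).trans (le_of_eq (by simp)))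
  have b1 := bound k _ e1
  have b2 := bound k _ e2
  have b3 := bound (k - 1) _ e3
  have b4 := bound (k - 1) _ e4
  have hk1 : ((k - 1 : ℕ) : ℝ) * E ≤ k * E := mul_le_mul_of_nonneg_right
    (Nat.cast_le.2 (Nat.sub_le k 1)) (mul_nonneg (le_max_right _ _) (Real.sqrt_nonneg _))
  set a1 := ∑ j ∈ range k, pE2 J F u h (P j)
  set a2 := ∑ j ∈ range k, pE J F u (P₀ j)
  set a3 := ∑ j ∈ range (k - 1), pE2 J F u h (R j)
  set a4 := ∑ j ∈ range (k - 1), pE J F u (R₀ j)
  rw [show ∀ g q : ℝ, g - (a1 - a2) + (β ^ 2 * q + β ^ 2 * (a3 - a4)) - (g + β ^ 2 * q)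
    = -(a1 - a2) + β ^ 2 * (a3 - a4) from fun g q => by ring]
  refine (abs_add_le _ _).trans ?_
  rw [abs_neg, abs_mul, abs_of_nonneg (sq_nonneg β)]
  have hb2 := sq_nonneg β
  have h34 := mul_le_mul_of_nonneg_left
    ((abs_sub a3 a4).trans (add_le_add (b3.trans hk1) (b4.trans hk1))) hb2
  rw [show (2 * (k:ℝ) + 2 * β ^ 2 * k) * Ct * errN J F
    = (k * E + k * E) + β ^ 2 * (k * E + k * E) by rw [hE]; ring]
  exact add_le_add ((abs_sub a1 a2).trans (add_le_add b1 b2)) h34

end Vale.Agent.P150.Beta1.Profile
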