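import Mathlib
import Vale.Agent.P150.Beta1.Algebra.Amp
import Vale.Agent.P150.Beta1.Rule.Grad

/-!
# The gradient of the AMP fields in the external field, and its free squared rows

`gamE k` is the linear response of `ampZ k` to the field `y`. The free diagonal of
`gamE k` times its transpose is the scalar `sig k`.
-/

namespace Vale.Agent.P150.Beta1.Profile

open Finset Real
open Vale.Agent.P150.Beta1.Algebra

variable {ι : Type*} [Fintype ι]

/-- Response in the external field for slopes `U`. -/
noncomputable def gam (β : ℝ) (U : ℕ → ι → ℝ) : ℕ → Expr ι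
  | 0 => .const 1
  | 1 => .add (.const 1) (.mul .coup (.diag (U 1)))
  | k + 2 => .add (.add (.const 1) (.mul (.mul .coup (.diag (U (k + 2)))) (gam β U (k + 1))))
      (.mul (.const (-(β ^ 2 * avg (U (k + 2))))) (.mul (.diag (U (k + 1))) (gam β U k)))

/-- The free squared row of the response. -/
noncomputable def sigU (β : ℝ) (U : ℕ → ι → ℝ) : ℕ → ℝ
  | 0 => 1
  | k + 1 => 1 + β ^ 2 * avg (fun i => U (k + 1) i ^ 2) * sigU β U k

/-- Multiplication by one on the sites. -/
noncomputable abbrev one : State ι →ₗ[ℝ] State ι := topMul fun _ => (1 : ℝ)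

/-- The annihilating part. -/
noncomputable def low (β : ℝ) (U : ℕ → ι → ℝ) : ℕ → (State ι →ₗ[ℝ] State ι)
  | 0 => 0
  | k + 1 => ann β ∘ₗ topMul (U (k + 1)) ∘ₗ (one + low β U k)

/-- The part of the normal form that does not create. -/
noncomputable def red (β : ℝ) (U : ℕ → ι → ℝ) (k : ℕ) : State ι →ₗ[ℝ] State ι :=
  one + low β U k

@[simp] lemma red_apply (β : ℝ) (U : ℕ → ι → ℝ) (k : ℕ) (v : State ι) :
    red β U k v = one v + low β U k v := rfl

/-- The normal form of the response. -/
noncomputable def gamF (β : ℝ) (U : ℕ → ι → ℝ) : ℕ → (State ι →ₗ[ℝ] State ι)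
  | 0 => one
  | k + 1 => one + push ∘ₗ topMul (U (k + 1)) ∘ₗ gamF β U k + low β U (k + 1)

/-- The creating part of the transposed response. -/
noncomputable def crea (U : ℕ → ι → ℝ) : ℕ → (State ι →ₗ[ℝ] State ι)
  | 0 => one
  | k + 1 => one + crea U k ∘ₗ topMul (U (k + 1)) ∘ₗ push

variable {β : ℝ} {U : ℕ → ι → ℝ}

lemma ann_one (v : State ι) : ann β (one v) = ann β v := by
  funext s
  cases s <;> simp

lemma one_ann (v : State ι) : one (ann β v) = ann β v := by
  funext s
  cases s <;> simp

omit [Fintype ι] in
lemma one_one (v : State ι) : one (one v) = one v := by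
  funext s
  cases s <;> simp

omit [Fintype ι] in
lemma topMul_one (e : ι → ℝ) (v : State ι) : topMul e (one v) = topMul e v := by
  funext s
  cases s <;> simp

omit [Fintype ι] in
lemma one_topMul (e : ι → ℝ) (v : State ι) : one (topMul e v) = topMul e v := by
  funext s
  cases s <;> simp

omit [Fintype ι] in
lemma one_push (v : State ι) : one (push v) = push v := by
  funext s
  rcases s with _ | ⟨i, _ | ⟨j, t⟩⟩ <;> simp

omit [Fintype ι] in
lemma topMul_neg_avg (a : ℝ) (v : State ι) :
    topMul (fun _ => -a) v = -(a • one v) := by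
  rw [topMul_const, neg_smul]

lemma one_gamF : ∀ k (v : State ι), one (gamF β U k v) = gamF β U k v
  | 0, v => one_one v
  | k + 1, v => by
    simp only [gamF, low, LinearMap.add_apply, LinearMap.comp_apply, map_add, one_one, one_push,
      one_ann]

/-- The response is its normal form. -/
theorem gam_op : ∀ k, (gam β U k).op β = gamF β U k
  | 0 => rfl
  | 1 => LinearMap.ext fun v => by
    simp only [gam, gamF, low, Expr.op, Expr.const, LinearMap.add_apply, LinearMap.comp_apply,
      opJ_apply, add_zero, topMul_one]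
    abel
  | k + 2 => LinearMap.ext fun v => by
    simp only [gam, gam_op (k + 1), gam_op k, Expr.op, Expr.const, LinearMap.add_apply,
      LinearMap.comp_apply, opJ_apply, topMul_neg_avg, one_topMul]
    have h : ann β (topMul (U (k + 2)) (gamF β U (k + 1) v))
        = low β U (k + 2) v
          + (β ^ 2 * avg (U (k + 2))) • topMul (U (k + 1)) (gamF β U k v) := by
      simp only [gamF, low, LinearMap.add_apply, LinearMap.comp_apply, map_add, topMul_one,
        ann_topMul_push]
      abel
    rw [h, show gamF β U (k + 2) v = one v + push (topMul (U (k + 2)) (gamF β U (k + 1) v))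
      + low β U (k + 2) v from rfl]
    abel

variable [DecidableEq ι]

omit [DecidableEq ι] in
/-- The transposed response is creation plus a part that starts by annihilating. -/
theorem gam_transp_op : ∀ k, (Rule.transp (gam β U (k + 1))).op β
    = crea U (k + 1) + (Rule.transp (gam β U k)).op β ∘ₗ topMul (U (k + 1)) ∘ₗ ann β
  | 0 => LinearMap.ext fun v => by
    simp only [gam, Rule.transp, crea, Expr.op, Expr.const, LinearMap.add_apply,
      LinearMap.comp_apply, opJ_apply, map_add, one_topMul]
    abel
  | k + 1 => LinearMap.ext fun v => by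
    have ih := gam_transp_op k
    simp only [gam, Rule.transp, Expr.op, Expr.const, LinearMap.add_apply, LinearMap.comp_apply,
      opJ_apply, map_add, topMul_neg_avg, crea]
    set T := (Rule.transp (gam β U k)).op β
    have h : (Rule.transp (gam β U (k + 1))).op β (topMul (U (k + 2)) (push v))
        = crea U (k + 1) (topMul (U (k + 2)) (push v))
          + (β ^ 2 * avg (U (k + 2))) • T (topMul (U (k + 1)) (one v)) := by
      have e : ann β (topMul (U (k + 2)) (push v)) = (β ^ 2 * avg (U (k + 2))) • one v := by
        rw [← push_topMul_one v, ann_topMul_push]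
      rw [ih]
      simp only [LinearMap.add_apply, LinearMap.comp_apply, e, map_smul, T]
    rw [h]
    simp only [crea, LinearMap.add_apply, LinearMap.comp_apply, map_neg, map_smul]
    abel

omit [DecidableEq ι] in
lemma gam_transp_vac : ∀ k, (Rule.transp (gam β U k)).op β vac = crea U k vac
  | 0 => rfl
  | k + 1 => by
    simp [gam_transp_op k, ann_eq_zero (low_vac (ι := ι))]

/-- States without levels below `p`. -/
def High (p : ℕ) (v : State ι) : Prop := ∀ s : List ι, s.length ≤ p → v s = 0

omit [Fintype ι] [DecidableEq ι] in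
lemma High.topMul {p : ℕ} {v : State ι} (h : High p v) (e : ι → ℝ) :
    High p (Algebra.topMul e v) := fun s hs => by
  cases s with
  | nil => rfl
  | cons i t => simp [h _ hs]

omit [Fintype ι] [DecidableEq ι] in
lemma High.push {p : ℕ} {v : State ι} (h : High p v) : High (p + 1) (Algebra.push v) := by
  intro s hs
  rcases s with _ | ⟨i, _ | ⟨j, t⟩⟩
  · rfl
  · rfl
  · simp only [push_cons_cons]
    refine h _ ?_
    simp only [List.length_cons] at hs ⊢
    omega

omit [Fintype ι] [DecidableEq ι] in
lemma High.crea : ∀ k {p : ℕ} {v : State ι}, High p v → High p (Profile.crea U k v)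
  | 0, _, _, h => h.topMul _
  | k + 1, p, v, h => fun s hs => by
    have h2 := High.crea k ((h.push).topMul (U (k + 1))) s (hs.trans (Nat.le_succ p))
    simp [Profile.crea, h.topMul (fun _ => (1 : ℝ)) s hs, h2]

omit [DecidableEq ι] in
lemma low_low : ∀ k {p : ℕ} {v : State ι}, Low p v → Low p (Profile.low β U k v)
  | 0, _, _, _ => fun _ _ => rfl
  | k + 1, p, v, h => by
    have h1 : Low p ((Profile.red β U k) v) := fun s hs => by
      simp [h.topMul (fun _ => (1 : ℝ)) s hs, low_low k h s hs]
    exact ((h1.topMul (U (k + 1))).mono (Nat.le_succ p)).ann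

omit [Fintype ι] [DecidableEq ι] in
lemma low_one_add {p : ℕ} {v : State ι} (h : Low p v) (s : List ι) (hs : p + 1 < s.length) :
    one v s = 0 := h.topMul _ s hs

omit [DecidableEq ι] in
/-- Complete contraction of creation with annihilation. -/
theorem low_crea : ∀ (k p : ℕ) (w : State ι), High p w → Low p w →
    ∀ s : List ι, s.length = p + 1 →
      red β U k (Profile.crea U k w) s = sigU β U k * w s
  | 0, p, w, _, _, s, hs => by
    rcases s with _ | ⟨i, t⟩
    · simp at hs
    · simp [Profile.crea, Profile.low, sigU]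
  | k + 1, p, w, hh, hl, s, hs => by
    rcases s with _ | ⟨i, t⟩
    · simp at hs
    set x := topMul (U (k + 1)) (push w) with hx
    have xh : High (p + 1) x := hh.push.topMul _
    have xl : Low (p + 1) x := hl.push.topMul _
    have key : ∀ l : ι, (Profile.red β U k) (one w + Profile.crea U k x) (l :: i :: t)
        = sigU β U k * x (l :: i :: t) := fun l => by
      have hlen : (l :: i :: t).length = p + 1 + 1 := by simp only [List.length_cons] at hs ⊢; omega
      have hz : (Profile.red β U k) (one w) (l :: i :: t) = 0 := by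
        have h1 := hl.topMul (fun _ => (1 : ℝ))
        simp [h1.topMul (fun _ => (1 : ℝ)) (l :: i :: t) (by omega),
          low_low k h1 (l :: i :: t) (by omega)]
      rw [map_add, Pi.add_apply, hz, zero_add]
      exact low_crea k (p + 1) x xh xl _ hlen
    have hc : Profile.crea U k x (i :: t) = 0 :=
      xh.crea k _ (by simp only [List.length_cons] at hs ⊢; omega)
    have hcrea : Profile.crea U (k + 1) w = one w + Profile.crea U k x := rfl
    have hA : one (one w + Profile.crea U k x) (i :: t) = w (i :: t) := by simp [hc]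
    have hB : Profile.low β U (k + 1) (one w + Profile.crea U k x) (i :: t)
        = β ^ 2 * (sigU β U k * (avg (fun l => U (k + 1) l ^ 2) * w (i :: t))) := by
      have e : Profile.low β U (k + 1) = ann β ∘ₗ topMul (U (k + 1)) ∘ₗ Profile.red β U k := rfl
      simp only [e, LinearMap.comp_apply, ann_cons, topMul_cons, key]
      simp only [hx, topMul_cons, push_cons_cons, avg, sum_div, mul_sum, sum_mul]
      exact sum_congr rfl fun l _ => by ring
    rw [red_apply, Pi.add_apply, hcrea, hA, hB, sigU]
    ring

omit [DecidableEq ι] in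
/-- The free diagonal of the response times its transpose. -/
theorem free_gam_transp (k : ℕ) (i : ι) :
    (Expr.mul (gam β U k) (Rule.transp (gam β U k))).free β i = sigU β U k := by
  have hhigh : High (ι := ι) 0 vac := fun s hs => by
    rw [Nat.le_zero, List.length_eq_zero_iff] at hs
    simp [hs, vac]
  have h := low_crea (β := β) (U := U) k 0 vac hhigh low_vac [i] rfl
  rw [vac_single, mul_one] at h
  rw [← h]
  simp only [Expr.free, Expr.op, LinearMap.comp_apply, gam_transp_vac, gam_op]
  cases k with
  | zero => simp [gamF, low]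
  | succ k => simp [gamF]

omit [DecidableEq ι] in
lemma deg_gam : ∀ k, (gam β U k).deg ≤ k
  | 0 => by simp [gam, Expr.deg, Expr.const]
  | 1 => by simp [gam, Expr.deg, Expr.const]
  | k + 2 => by
    have h1 := deg_gam (k + 1)
    have h2 := deg_gam k
    simp only [gam, Expr.deg, Expr.const] at h1 h2 ⊢
    omega

omit [DecidableEq ι] in
lemma size_gam (hU : ∀ a, ‖U a‖ ≤ 1) : ∀ k, (gam β U k).size ≤ (2 + β ^ 2) ^ k
  | 0 => by simpa [gam] using Expr.size_const_le (ι := ι) 1
  | 1 => by
    have h := Expr.size_const_le (ι := ι) 1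
    simp only [gam, Expr.size, one_mul, pow_one, abs_one] at h ⊢
    have := hU 1
    have := sq_nonneg β
    linarith
  | k + 2 => by
    have h := Expr.size_const_le (ι := ι) 1
    rw [abs_one] at h
    have hb : (Expr.const (-(β ^ 2 * avg (U (k + 2)))) : Expr ι).size ≤ β ^ 2 := by
      refine (Expr.size_const_le _).trans ?_
      rw [abs_neg, abs_mul, abs_of_nonneg (sq_nonneg β)]
      exact mul_le_of_le_one_right (sq_nonneg β) (abs_avg_le zero_le_one (hU _))
    have h1 := size_gam hU (k + 1)
    have h2 := size_gam hU k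
    set B := 2 + β ^ 2
    have hB : 1 ≤ B := by have := sq_nonneg β; simp only [B]; linarith
    have hp : 1 ≤ B ^ (k + 1) := one_le_pow₀ hB
    simp only [gam, Expr.size, one_mul]
    calc _ ≤ B ^ (k + 1) + 1 * B ^ (k + 1) + β ^ 2 * (1 * B ^ (k + 1)) := by
          refine add_le_add (add_le_add (h.trans hp) ?_) ?_
          · exact mul_le_mul (hU _) h1 (Expr.size_nonneg _) zero_le_one
          · exact mul_le_mul hb (mul_le_mul (hU _) (h2.trans (pow_le_pow_right₀ hB (Nat.le_succ k)))
              (Expr.size_nonneg _) zero_le_one)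
              (mul_nonneg (norm_nonneg _) (Expr.size_nonneg _)) (sq_nonneg β)
      _ = B ^ (k + 2) := by rw [pow_succ _ (k + 1)]; simp only [B]; ring

omit [DecidableEq ι] in
lemma sigU_nonneg : ∀ k, 0 ≤ sigU β U k
  | 0 => zero_le_one
  | k + 1 => by
    have := sigU_nonneg k
    have : 0 ≤ avg (fun i => U (k + 1) i ^ 2) :=
      div_nonneg (sum_nonneg fun _ _ => sq_nonneg _) (Nat.cast_nonneg _)
    simp only [sigU]
    positivity

/-! ### For AMP -/

/-- The response of `ampZ k` to the field. -/
noncomputable def gamE (β : ℝ) (J : ι → ι → ℝ) (y x : ι → ℝ) (k : ℕ) : Expr ι :=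
  gam β (ampU β J y x) k

/-- The variance rate of `ampZ k`. -/
noncomputable def sigA (β : ℝ) (J : ι → ι → ℝ) (y x : ι → ℝ) (k : ℕ) : ℝ :=
  sigU β (ampU β J y x) k

omit [DecidableEq ι] in
lemma sigA_succ (β : ℝ) (J : ι → ι → ℝ) (y x : ι → ℝ) (k : ℕ) :
    sigA β J y x (k + 1)
      = 1 + β ^ 2 * avg (fun i => (1 - ampA β J y x (k + 1) i ^ 2) ^ 2) * sigA β J y x k := rfl

omit [DecidableEq ι] in
lemma free_gamE (β : ℝ) (J : ι → ι → ℝ) (y x : ι → ℝ) (k : ℕ) (i : ι) :
    (Expr.mul (gamE β J y x k) (Rule.transp (gamE β J y x k))).free β i = sigA β J y x k :=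
  free_gam_transp k i

/-- The squared rows of the response are the variance rate, up to `O(√n)` in `l²`. -/
theorem row_sq_gamE {β C : ℝ} {m : ℕ} {J : ι → ι → ℝ} {y x : ι → ℝ} (hG : GoodWords β m C J)
    (hx : ∀ i, |x i| ≤ 1) {k : ℕ} (hk : 2 * k ≤ m) :
    ∑ i, ((∑ j, (gamE β J y x k).mat J i j ^ 2) - sigA β J y x k) ^ 2
      ≤ C * (((2 + β ^ 2) ^ k) ^ 2) ^ 2 := by
  set X := gamE β J y x k
  have hdeg : (Expr.mul X (Rule.transp X)).deg ≤ m := by
    have := deg_gam (β := β) (U := ampU β J y x) k
    simp only [Expr.deg, Rule.transp_deg, X, gamE]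
    omega
  have hsize : (Expr.mul X (Rule.transp X)).size ≤ ((2 + β ^ 2) ^ k) ^ 2 := by
    have := size_gam (β := β) (U := ampU β J y x) (norm_ampU_le β J y x hx) k
    simp only [Expr.size, Rule.transp_size, X, gamE]
    rw [sq ((2 + β ^ 2) ^ k)]
    exact mul_le_mul this this (Expr.size_nonneg _) (by positivity)
  have h := Expr.diag_le hG _ hdeg
  refine le_trans (le_of_eq (sum_congr rfl fun i _ => ?_)) (h.trans
    (mul_le_mul_of_nonneg_left (pow_le_pow_left₀ (Expr.size_nonneg _) hsize 2)
      (goodWords_nonneg hG)))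
  congr 1
  rw [free_gamE]
  simp [Expr.mat, Rule.transp_mat hG.1, Matrix.mul_apply, sq, X]

end Vale.Agent.P150.Beta1.Profile
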