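import Mathlib
import Vale.Agent.P150.Beta1.Profile.Sigma
import Vale.Agent.P150.Beta1.Rule.Fields

/-!
# The response of the AMP fields to a shift of the external field

Pointwise: the shift of `ampZ k` is linear up to a remainder controlled by fourth powers and one
scalar product of the linear part.
-/

namespace Vale.Agent.P150.Beta1.Profile

open Finset Real
open Vale.Agent.P150.Beta1.Algebra

variable {ι : Type*} [Fintype ι] [DecidableEq ι]

/-- The shift of `ampZ k` when the field moves by `h x + √h ξ`. -/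
noncomputable def ampShift (β : ℝ) (J : ι → ι → ℝ) (y x : ι → ℝ) (h : ℝ) (k : ℕ) (ξ : ι → ℝ) :
    ι → ℝ :=
  fun i => ampZ β J (fun l => y l + (h * x l + √h * ξ l)) x k i - ampZ β J y x k i

/-- The linear response to the noise. -/
noncomputable def resp (β : ℝ) (J : ι → ι → ℝ) (y x : ι → ℝ) (k : ℕ) (ξ : ι → ℝ) : ι → ℝ :=
  ((gamE β J y x k).mat J).mulVec ξ

/-- Squared norm of what the linear response misses. -/
noncomputable def respErr (β : ℝ) (J : ι → ι → ℝ) (y x : ι → ℝ) (h : ℝ) (k : ℕ) (ξ : ι → ℝ) : ℝ :=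
  ∑ i, (ampShift β J y x h k ξ i - √h * resp β J y x k ξ i) ^ 2

/-- Fourth powers of the response. -/
noncomputable def respQuart (β : ℝ) (J : ι → ι → ℝ) (y x : ι → ℝ) (k : ℕ) (ξ : ι → ℝ) : ℝ :=
  ∑ i, resp β J y x k ξ i ^ 4

/-- The scalar product that moves the Onsager coefficient, squared, per site. -/
noncomputable def respDot (β : ℝ) (J : ι → ι → ℝ) (y x : ι → ℝ) (k : ℕ) (ξ : ι → ℝ) : ℝ :=
  (∑ i, ampA β J y x (k + 1) i * ampU β J y x (k + 1) i * resp β J y x k ξ i) ^ 2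
    / Fintype.card ι

/-- The majorant of the missed part. -/
noncomputable def respMaj (β : ℝ) (J : ι → ι → ℝ) (y x : ι → ℝ) (h : ℝ) (k : ℕ) (ξ : ι → ℝ) : ℝ :=
  h ^ 2 * Fintype.card ι
    + ∑ j ∈ range k, (h ^ 2 * respQuart β J y x j ξ + h * respDot β J y x j ξ)

lemma four_or_two (a b : ℝ) :
    (|b| ≤ |a| ∧ (a + b) ^ 4 ≤ 16 * a ^ 4) ∨ (a + b) ^ 2 ≤ 4 * b ^ 2 := by
  rcases le_total |b| |a| with h | h
  · refine Or.inl ⟨h, ?_⟩
    have h1 : |a + b| ≤ 2 * |a| := (abs_add_le a b).trans (by linarith)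
    have := pow_le_pow_left₀ (abs_nonneg _) h1 4
    rw [Even.pow_abs (by norm_num : Even 4), mul_pow, Even.pow_abs (by norm_num : Even 4)] at this
    linarith
  · right
    have h1 : |a + b| ≤ 2 * |b| := (abs_add_le a b).trans (by linarith)
    have := pow_le_pow_left₀ (abs_nonneg _) h1 2
    rw [sq_abs, mul_pow, sq_abs] at this
    linarith

lemma min_four_two (a b : ℝ) {q : ℝ} (h4 : q ≤ (a + b) ^ 4) (h2 : q ≤ (a + b) ^ 2) :
    q ≤ 16 * a ^ 4 + 4 * b ^ 2 := by
  have : 0 ≤ a ^ 4 := by positivity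
  have := sq_nonneg b
  rcases four_or_two a b with ⟨-, h⟩ | h <;> linarith

lemma abs_tanh_sub_le (s t : ℝ) : |tanh s - tanh t| ≤ |s - t| := by
  have h3 := (convex_univ (𝕜 := ℝ) (E := ℝ)).norm_image_sub_le_of_norm_hasDerivWithin_le
    (f := tanh) (f' := fun u => 1 - tanh u ^ 2) (C := 1)
    (fun u _ => (hasDerivAt_tanh' u).hasDerivWithinAt)
    (fun u _ => by rw [norm_eq_abs]; exact Rule.abs_one_sub_tanh_sq u)
    (Set.mem_univ t) (Set.mem_univ s)
  simpa using h3

/-- The increment of `tanh` against the linear part `a` of its argument's increment `a + b`. -/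
lemma tanh_incr (z a b : ℝ) :
    (tanh (z + (a + b)) - tanh z - (1 - tanh z ^ 2) * a) ^ 2 ≤ 34 * b ^ 2 + 128 * a ^ 4 ∧
      (tanh (z + (a + b)) - tanh z) ^ 4 ≤ 16 * b ^ 2 + 64 * a ^ 4 := by
  set D := a + b
  set d := tanh (z + D) - tanh z
  set v := 1 - tanh z ^ 2
  have hd : |d| ≤ |D| := by simpa [d] using abs_tanh_sub_le (z + D) z
  have hd2 : |d| ≤ 2 := by
    have := abs_sub (tanh (z + D)) (tanh z)
    linarith [abs_tanh_lt_one (z + D), abs_tanh_lt_one z]
  have hv : |v| ≤ 1 := Rule.abs_one_sub_tanh_sq z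
  have hr1 : |d - v * D| ≤ 2 * D ^ 2 := by
    simpa [d, v] using Rule.taylor_one hasDerivAt_tanh' Rule.tanh_deriv_lip zero_le_two z (z + D)
  have hr2 : |d - v * D| ≤ 2 * |D| := by
    refine (abs_sub _ _).trans ?_
    rw [abs_mul]
    have := mul_le_of_le_one_left (abs_nonneg D) hv
    linarith
  have q4 : (d - v * D) ^ 2 / 4 ≤ D ^ 4 := by
    have := pow_le_pow_left₀ (abs_nonneg _) hr1 2
    rw [sq_abs, mul_pow, ← pow_mul] at this
    norm_num at this
    linarith
  have q2 : (d - v * D) ^ 2 / 4 ≤ D ^ 2 := by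
    have := pow_le_pow_left₀ (abs_nonneg _) hr2 2
    rw [sq_abs, mul_pow, sq_abs] at this
    linarith
  have hr := min_four_two a b q4 q2
  refine ⟨?_, ?_⟩
  · have e : d - v * a = v * b + (d - v * D) := by simp only [D]; ring
    rw [e]
    have := add_sq_le (a := v * b) (b := d - v * D)
    have h5 : (v * b) ^ 2 ≤ b ^ 2 := by
      rw [mul_pow]
      exact mul_le_of_le_one_left (sq_nonneg b) ((sq_le_one_iff_abs_le_one v).2 hv)
    linarith
  · have p4 : d ^ 4 / 4 ≤ D ^ 4 := by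
      have := pow_le_pow_left₀ (abs_nonneg _) hd 4
      rw [Even.pow_abs (by norm_num : Even 4), Even.pow_abs (by norm_num : Even 4)] at this
      have : 0 ≤ d ^ 4 := by positivity
      linarith
    have p2 : d ^ 4 / 4 ≤ D ^ 2 := by
      have h1 : d ^ 2 ≤ D ^ 2 := sq_le_sq.2 hd
      have h2 : d ^ 2 ≤ 4 := by
        have := pow_le_pow_left₀ (abs_nonneg _) hd2 2
        rw [sq_abs] at this
        linarith
      have := mul_le_mul h1 h2 (sq_nonneg d) (sq_nonneg D)
      have e : d ^ 2 * d ^ 2 = d ^ 4 := by ring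
      linarith
    have := min_four_two a b p4 p2
    linarith

variable {β : ℝ} {J : ι → ι → ℝ} {y x : ι → ℝ}

lemma resp_zero (ξ : ι → ℝ) : resp β J y x 0 ξ = ξ := by
  simp [resp, gamE, gam, Expr.mat_const]

lemma resp_one (ξ : ι → ℝ) (i : ι) : resp β J y x 1 ξ i
    = ξ i + act J (fun l => ampU β J y x 1 l * resp β J y x 0 ξ l) i := by
  rw [resp_zero]
  simp only [resp, gamE, gam, Expr.mat, Expr.mat_const, one_smul, Matrix.add_mulVec,
    ← Matrix.mulVec_mulVec, Matrix.one_mulVec, Pi.add_apply]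
  simp [Matrix.mulVec, dotProduct, act, Matrix.diagonal_apply]

lemma resp_succ [Nonempty ι] (k : ℕ) (ξ : ι → ℝ) (i : ι) : resp β J y x (k + 2) ξ i
    = ξ i + act J (fun l => ampU β J y x (k + 2) l * resp β J y x (k + 1) ξ l) i
      - onsager β (ampA β J y x (k + 2)) * (ampU β J y x (k + 1) i * resp β J y x k ξ i) := by
  rw [show onsager β (ampA β J y x (k + 2)) = β ^ 2 * avg (ampU β J y x (k + 2)) from
    onsager_eq β _]
  simp only [resp, gamE, gam, Expr.mat, Expr.mat_const, Matrix.add_mulVec, ← Matrix.mulVec_mulVec,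
    Matrix.smul_mulVec, Matrix.one_mulVec, Pi.add_apply, Pi.smul_apply, smul_eq_mul,
    Matrix.mulVec_diagonal, one_mul]
  simp [Matrix.mulVec, dotProduct, act, Matrix.diagonal_apply, sub_eq_add_neg]

omit [DecidableEq ι] in
lemma ampA_abs_le (hx : ∀ i, |x i| ≤ 1) : ∀ (k : ℕ) (i : ι), |ampA β J y x k i| ≤ 1
  | 0, i => hx i
  | _ + 1, _ => (abs_tanh_lt_one _).le

omit [DecidableEq ι] in
lemma act_add (a b : ι → ℝ) (i : ι) :
    act J (fun l => a l + b l) i = act J a i + act J b i := by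
  simp only [act, mul_add, sum_add_distrib]

omit [DecidableEq ι] in
lemma act_smul (c : ℝ) (a : ι → ℝ) (i : ι) : act J (fun l => c * a l) i = c * act J a i := by
  simp only [act, mul_sum]
  exact sum_congr rfl fun l _ => by ring

omit [DecidableEq ι] in
lemma act_sub (a b : ι → ℝ) (i : ι) :
    act J (fun l => a l - b l) i = act J a i - act J b i := by
  simp only [act, mul_sub, sum_sub_distrib]

omit [DecidableEq ι] in
lemma onsager_sub (β : ℝ) (a b : ι → ℝ) :
    onsager β a - onsager β b = -(β ^ 2) * avg (fun i => 2 * b i * (a i - b i) + (a i - b i) ^ 2) := by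
  have e : (fun i => 2 * b i * (a i - b i) + (a i - b i) ^ 2) = fun i => a i ^ 2 - b i ^ 2 :=
    funext fun i => by ring
  rw [e]
  simp only [onsager, qav, avg, sum_sub_distrib, sub_div]
  ring

/-- The increment of `ampA (k+1)` against its linear part. -/
lemma incrA {h : ℝ} (hh : 0 ≤ h) (k : ℕ) (ξ : ι → ℝ) :
    (∑ i, (ampA β J (fun l => y l + (h * x l + √h * ξ l)) x (k + 1) i - ampA β J y x (k + 1) i
        - √h * (ampU β J y x (k + 1) i * resp β J y x k ξ i)) ^ 2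
      ≤ 34 * respErr β J y x h k ξ + 128 * (h ^ 2 * respQuart β J y x k ξ)) ∧
    ∑ i, (ampA β J (fun l => y l + (h * x l + √h * ξ l)) x (k + 1) i
        - ampA β J y x (k + 1) i) ^ 4
      ≤ 16 * respErr β J y x h k ξ + 64 * (h ^ 2 * respQuart β J y x k ξ) := by
  have key : ∀ i, _ := fun i => tanh_incr (ampZ β J y x k i) (√h * resp β J y x k ξ i)
    (ampShift β J y x h k ξ i - √h * resp β J y x k ξ i)
  have e4 : ∀ t : ℝ, (√h * t) ^ 4 = h ^ 2 * t ^ 4 := fun t => by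
    rw [mul_pow, show √h ^ 4 = (√h ^ 2) ^ 2 by ring, sq_sqrt hh]
  simp only [add_sub_cancel, ampShift, e4] at key
  simp only [ampA, tanhv, ampU, respErr, respQuart, mul_sum, ← sum_add_distrib, ampShift]
  refine ⟨sum_le_sum fun i _ => le_trans (le_of_eq ?_) (key i).1,
    sum_le_sum fun i _ => (key i).2⟩
  ring

/-- The shift of the Onsager coefficient. -/
lemma incrB {h : ℝ} (hh : 0 ≤ h) (hx : ∀ i, |x i| ≤ 1) (k : ℕ) (ξ : ι → ℝ) :
    Fintype.card ι * (onsager β (ampA β J (fun l => y l + (h * x l + √h * ξ l)) x (k + 1))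
        - onsager β (ampA β J y x (k + 1))) ^ 2
      ≤ β ^ 4 * (12 * (h * respDot β J y x k ξ)
          + 456 * respErr β J y x h k ξ + 1728 * (h ^ 2 * respQuart β J y x k ξ)) := by
  rcases isEmpty_or_nonempty ι with hι | hι
  · simp [respDot, respErr, respQuart]
  obtain ⟨hA1, hA2⟩ := incrA (β := β) (J := J) (y := y) (x := x) hh k ξ
  set A := ampA β J y x (k + 1)
  set A' := ampA β J (fun l => y l + (h * x l + √h * ξ l)) x (k + 1)
  set g := resp β J y x k ξ
  set U := ampU β J y x (k + 1)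
  have hn : (0 : ℝ) < Fintype.card ι := Nat.cast_pos.2 Fintype.card_pos
  set S := ∑ i, A i * U i * g i
  set f := fun i => 2 * A i * (A' i - A i - √h * (U i * g i))
  set e := fun i => (A' i - A i) ^ 2
  have hsum : ∑ i, (2 * A i * (A' i - A i) + (A' i - A i) ^ 2)
      = 2 * √h * S + ∑ i, f i + ∑ i, e i := by
    simp only [S, f, e, mul_sum, ← sum_add_distrib]
    exact sum_congr rfl fun i _ => by ring
  have hf : (∑ i, f i) ^ 2 ≤ Fintype.card ι * (4 * (34 * respErr β J y x h k ξ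
      + 128 * (h ^ 2 * respQuart β J y x k ξ))) := by
    refine sq_sum_le_card_mul_sum_sq.trans ?_
    rw [card_univ]
    refine mul_le_mul_of_nonneg_left (le_trans ?_ (mul_le_mul_of_nonneg_left hA1 (by norm_num)))
      hn.le
    rw [mul_sum]
    refine sum_le_sum fun i _ => ?_
    simp only [f]
    rw [mul_pow, mul_pow]
    have h1 : A i ^ 2 ≤ 1 := (sq_le_one_iff_abs_le_one _).2 (ampA_abs_le hx _ i)
    have := mul_le_mul_of_nonneg_right h1 (sq_nonneg (A' i - A i - √h * (U i * g i)))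
    linarith
  have he : (∑ i, e i) ^ 2 ≤ Fintype.card ι * (16 * respErr β J y x h k ξ
      + 64 * (h ^ 2 * respQuart β J y x k ξ)) := by
    refine sq_sum_le_card_mul_sum_sq.trans ?_
    rw [card_univ]
    refine mul_le_mul_of_nonneg_left (le_trans (le_of_eq ?_) hA2) hn.le
    exact sum_congr rfl fun i _ => by simp only [e]; ring
  have hdot : S ^ 2 = respDot β J y x k ξ * Fintype.card ι := by
    rw [respDot, div_mul_cancel₀ _ hn.ne']
  have htot : (2 * √h * S + ∑ i, f i + ∑ i, e i) ^ 2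
      ≤ 3 * (4 * h * S ^ 2 + (∑ i, f i) ^ 2 + (∑ i, e i) ^ 2) := by
    have e2 : (2 * √h * S) ^ 2 = 4 * h * S ^ 2 := by rw [mul_pow, mul_pow, sq_sqrt hh]; ring
    nlinarith [sq_nonneg (2 * √h * S - ∑ i, f i), sq_nonneg (2 * √h * S - ∑ i, e i),
      sq_nonneg ((∑ i, f i) - ∑ i, e i)]
  rw [onsager_sub]
  simp only [avg, hsum]
  rw [mul_pow, neg_sq, ← pow_mul, show (2 * 2 : ℕ) = 4 from rfl, div_pow, mul_left_comm]
  refine mul_le_mul_of_nonneg_left ?_ (by positivity)
  rw [← mul_div_assoc, sq (Fintype.card ι : ℝ), mul_div_mul_left _ _ hn.ne', div_le_iff₀ hn]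
  refine htot.trans ?_
  rw [hdot]
  linarith

omit [DecidableEq ι] in
lemma sum_act_sq {C : ℝ} (hJ : ∀ a : ι → ℝ, ∑ i, act J a i ^ 2 ≤ C * ∑ i, a i ^ 2) (a : ι → ℝ) :
    ∑ i, act J a i ^ 2 ≤ max C 0 * ∑ i, a i ^ 2 :=
  (hJ a).trans (mul_le_mul_of_nonneg_right (le_max_left _ _) (sum_nonneg fun _ _ => sq_nonneg _))

lemma respQuart_nonneg (k : ℕ) (ξ : ι → ℝ) : 0 ≤ respQuart β J y x k ξ :=
  sum_nonneg fun _ _ => by positivity

lemma respDot_nonneg (k : ℕ) (ξ : ι → ℝ) : 0 ≤ respDot β J y x k ξ := by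
  rw [respDot]; positivity

lemma respErr_nonneg {h : ℝ} (k : ℕ) (ξ : ι → ℝ) : 0 ≤ respErr β J y x h k ξ :=
  sum_nonneg fun _ _ => sq_nonneg _

lemma respMaj_succ {h : ℝ} (k : ℕ) (ξ : ι → ℝ) : respMaj β J y x h (k + 1) ξ
    = respMaj β J y x h k ξ + (h ^ 2 * respQuart β J y x k ξ + h * respDot β J y x k ξ) := by
  rw [respMaj, respMaj, sum_range_succ, add_assoc]

lemma respMaj_facts {h : ℝ} (hh : 0 ≤ h) (k : ℕ) (ξ : ι → ℝ) :
    respMaj β J y x h k ξ ≤ respMaj β J y x h (k + 1) ξ ∧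
      h ^ 2 * respQuart β J y x k ξ ≤ respMaj β J y x h (k + 1) ξ ∧
      h * respDot β J y x k ξ ≤ respMaj β J y x h (k + 1) ξ ∧
      h ^ 2 * Fintype.card ι ≤ respMaj β J y x h k ξ ∧ 0 ≤ respMaj β J y x h k ξ := by
  have h1 : 0 ≤ h ^ 2 * respQuart β J y x k ξ := mul_nonneg (sq_nonneg h) (respQuart_nonneg k ξ)
  have h2 : 0 ≤ h * respDot β J y x k ξ := mul_nonneg hh (respDot_nonneg k ξ)
  have h3 : 0 ≤ h ^ 2 * (Fintype.card ι : ℝ) := by positivity
  have h4 : 0 ≤ ∑ j ∈ range k, (h ^ 2 * respQuart β J y x j ξ + h * respDot β J y x j ξ) :=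
    sum_nonneg fun j _ => add_nonneg (mul_nonneg (sq_nonneg h) (respQuart_nonneg j ξ))
      (mul_nonneg hh (respDot_nonneg j ξ))
  rw [respMaj_succ]
  have h5 : h ^ 2 * Fintype.card ι ≤ respMaj β J y x h k ξ := le_add_of_nonneg_right h4
  refine ⟨?_, ?_, ?_, h5, ?_⟩ <;> linarith

omit [DecidableEq ι] in
lemma sum_four_sq (a b c d : ι → ℝ) :
    ∑ i, (a i + b i + c i + d i) ^ 2
      ≤ 4 * (∑ i, a i ^ 2 + ∑ i, b i ^ 2 + ∑ i, c i ^ 2 + ∑ i, d i ^ 2) := by
  simp only [← sum_add_distrib, mul_sum]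
  refine sum_le_sum fun i _ => ?_
  nlinarith [sq_nonneg (a i - b i), sq_nonneg (a i - c i), sq_nonneg (a i - d i),
    sq_nonneg (b i - c i), sq_nonneg (b i - d i), sq_nonneg (c i - d i)]

omit [DecidableEq ι] in
lemma sum_drift_sq (hx : ∀ i, |x i| ≤ 1) (h : ℝ) :
    ∑ i, (h * x i) ^ 2 ≤ h ^ 2 * Fintype.card ι := by
  refine (sum_le_sum (g := fun _ => h ^ 2) fun i _ => ?_).trans_eq (by simp [mul_comm])
  rw [mul_pow]
  exact mul_le_of_le_one_right (sq_nonneg h) ((sq_le_one_iff_abs_le_one _).2 (hx i))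

end Vale.Agent.P150.Beta1.Profile
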