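import Mathlib
import Vale.Agent.P150.Beta1.Profile.Response

/-!
# The missed part of the response is small, pointwise in the noise
-/

namespace Vale.Agent.P150.Beta1.Profile

open Finset Real
open Vale.Agent.P150.Beta1.Algebra

variable {ι : Type*} [Fintype ι] [DecidableEq ι] {β : ℝ} {J : ι → ι → ℝ} {y x : ι → ℝ}

omit [DecidableEq ι] in
lemma abs_onsager_amp (hx : ∀ i, |x i| ≤ 1) (k : ℕ) :
    onsager β (ampA β J y x k) ^ 2 ≤ β ^ 4 := by
  have h := pow_le_pow_left₀ (abs_nonneg _)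
    (Rule.abs_onsager_le β (ampA_abs_le (J := J) (y := y) (β := β) hx k)) 2
  rw [sq_abs, ← pow_mul] at h
  exact h

omit [DecidableEq ι] in
lemma sum_scalar_sq_le {a : ι → ℝ} (ha : ∀ i, |a i| ≤ 1) (c : ℝ) :
    ∑ i, (-(c * a i)) ^ 2 ≤ Fintype.card ι * c ^ 2 := by
  refine (sum_le_sum (g := fun _ => c ^ 2) fun i _ => ?_).trans_eq (by simp)
  rw [neg_sq, mul_pow]
  exact mul_le_of_le_one_right (sq_nonneg c) ((sq_le_one_iff_abs_le_one _).2 (ha i))

/-- Step one. -/
lemma respErr_one {h C : ℝ} (hh : 0 ≤ h) (hx : ∀ i, |x i| ≤ 1)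
    (hJ : ∀ a : ι → ℝ, ∑ i, act J a i ^ 2 ≤ C * ∑ i, a i ^ 2) (ξ : ι → ℝ) :
    respErr β J y x h 1 ξ ≤ 4 * (h ^ 2 * Fintype.card ι
      + max C 0 * (34 * respErr β J y x h 0 ξ + 128 * (h ^ 2 * respQuart β J y x 0 ξ))
      + β ^ 4 * (12 * (h * respDot β J y x 0 ξ) + 456 * respErr β J y x h 0 ξ
          + 1728 * (h ^ 2 * respQuart β J y x 0 ξ))) := by
  obtain ⟨hA, -⟩ := incrA (β := β) (J := J) (y := y) (x := x) hh 0 ξ
  have hB := incrB (β := β) (J := J) (y := y) hh hx 0 ξ
  set y' := fun l => y l + (h * x l + √h * ξ l) with hy'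
  set w := fun l => ampA β J y' x 1 l - ampA β J y x 1 l
    - √h * (ampU β J y x 1 l * resp β J y x 0 ξ l) with hw
  set dB := onsager β (ampA β J y' x 1) - onsager β (ampA β J y x 1) with hdB
  have e : ∀ i, ampShift β J y x h 1 ξ i - √h * resp β J y x 1 ξ i
      = h * x i + act J w i + -(dB * x i) + 0 := fun i => by
    have h1 : act J w i = act J (ampA β J y' x 1) i - act J (ampA β J y x 1) i
        - √h * act J (fun l => ampU β J y x 1 l * resp β J y x 0 ξ l) i := by
      rw [hw, act_sub, act_sub, act_smul]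
    rw [h1, resp_one, hdB]
    simp only [ampShift, ampZ, ampA, hy']
    ring
  rw [respErr]
  simp only [e]
  refine (sum_four_sq _ _ _ _).trans (mul_le_mul_of_nonneg_left ?_ (by norm_num))
  have p1 := sum_drift_sq hx h
  have p2 := (sum_act_sq hJ w).trans (mul_le_mul_of_nonneg_left hA (le_max_right C 0))
  have p3 := (sum_scalar_sq_le hx dB).trans hB
  simp only [sum_const_zero, zero_pow two_ne_zero]
  linarith

/-- Later steps. -/
lemma respErr_succ [Nonempty ι] {h C : ℝ} (hh : 0 ≤ h) (hx : ∀ i, |x i| ≤ 1)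
    (hJ : ∀ a : ι → ℝ, ∑ i, act J a i ^ 2 ≤ C * ∑ i, a i ^ 2) (k : ℕ) (ξ : ι → ℝ) :
    respErr β J y x h (k + 2) ξ ≤ 4 * (h ^ 2 * Fintype.card ι
      + max C 0 * (34 * respErr β J y x h (k + 1) ξ
          + 128 * (h ^ 2 * respQuart β J y x (k + 1) ξ))
      + β ^ 4 * (34 * respErr β J y x h k ξ + 128 * (h ^ 2 * respQuart β J y x k ξ))
      + β ^ 4 * (12 * (h * respDot β J y x (k + 1) ξ) + 456 * respErr β J y x h (k + 1) ξ
          + 1728 * (h ^ 2 * respQuart β J y x (k + 1) ξ))) := by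
  obtain ⟨hA, -⟩ := incrA (β := β) (J := J) (y := y) (x := x) hh (k + 1) ξ
  obtain ⟨hA0, -⟩ := incrA (β := β) (J := J) (y := y) (x := x) hh k ξ
  have hB := incrB (β := β) (J := J) (y := y) hh hx (k + 1) ξ
  set y' := fun l => y l + (h * x l + √h * ξ l) with hy'
  set w := fun l => ampA β J y' x (k + 2) l - ampA β J y x (k + 2) l
    - √h * (ampU β J y x (k + 2) l * resp β J y x (k + 1) ξ l) with hw
  set w0 := fun l => ampA β J y' x (k + 1) l - ampA β J y x (k + 1) l
    - √h * (ampU β J y x (k + 1) l * resp β J y x k ξ l) with hw0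
  set B := onsager β (ampA β J y x (k + 2)) with hBd
  set dB := onsager β (ampA β J y' x (k + 2)) - B with hdB
  have e : ∀ i, ampShift β J y x h (k + 2) ξ i - √h * resp β J y x (k + 2) ξ i
      = h * x i + act J w i + -(B * w0 i) + -(dB * ampA β J y' x (k + 1) i) := fun i => by
    have h1 : act J w i = act J (ampA β J y' x (k + 2)) i - act J (ampA β J y x (k + 2)) i
        - √h * act J (fun l => ampU β J y x (k + 2) l * resp β J y x (k + 1) ξ l) i := by
      rw [hw, act_sub, act_sub, act_smul]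
    rw [h1, resp_succ, hdB, hBd, hw0]
    simp only [ampShift, ampZ, ampA, hy']
    ring
  rw [respErr]
  simp only [e]
  refine (sum_four_sq _ _ _ _).trans (mul_le_mul_of_nonneg_left ?_ (by norm_num))
  have p1 := sum_drift_sq hx h
  have p2 := (sum_act_sq hJ w).trans (mul_le_mul_of_nonneg_left hA (le_max_right C 0))
  have p3 : ∑ i, (-(B * w0 i)) ^ 2
      ≤ β ^ 4 * (34 * respErr β J y x h k ξ + 128 * (h ^ 2 * respQuart β J y x k ξ)) := by
    simp only [neg_sq, mul_pow, ← mul_sum]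
    exact mul_le_mul (abs_onsager_amp hx _) hA0 (sum_nonneg fun _ _ => sq_nonneg _) (by positivity)
  have p4 := (sum_scalar_sq_le (ampA_abs_le (β := β) (J := J) (y := y') hx (k + 1)) dB).trans hB
  linarith

/-- The missed part is dominated by the majorant. -/
theorem respErr_le (β C : ℝ) : ∀ k : ℕ, ∃ K, 0 ≤ K ∧ ∀ (n : ℕ) (J : Fin n → Fin n → ℝ)
    (y x : Fin n → ℝ) (h : ℝ) (ξ : Fin n → ℝ), 0 ≤ h → (∀ i, |x i| ≤ 1) →
      (∀ a : Fin n → ℝ, ∑ i, act J a i ^ 2 ≤ C * ∑ i, a i ^ 2) →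
      respErr β J y x h k ξ ≤ K * respMaj β J y x h k ξ
  | 0 => by
    refine ⟨1, zero_le_one, fun n J y x h ξ _ hx _ => ?_⟩
    rw [one_mul]
    refine le_trans (le_of_eq ?_) ((sum_drift_sq hx h).trans (le_add_of_nonneg_right (by simp)))
    refine sum_congr rfl fun i _ => ?_
    simp [ampShift, ampZ, resp_zero]
  | 1 => by
    set m := max C 0
    set b := β ^ 4
    have hm : 0 ≤ m := le_max_right _ _
    have hb : 0 ≤ b := by positivity
    refine ⟨4 * (1 + m * (34 + 128) + b * (12 + 456 + 1728)), by positivity,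
      fun n J y x h ξ hh hx hJ => ?_⟩
    refine (respErr_one hh hx hJ ξ).trans ?_
    obtain ⟨h01, hQ, hP, hd, h0⟩ := respMaj_facts (β := β) (J := J) (y := y) (x := x) hh 0 ξ
    have hE : respErr β J y x h 0 ξ ≤ respMaj β J y x h (0 + 1) ξ := by
      refine le_trans ?_ h01
      refine le_trans (le_of_eq ?_) ((sum_drift_sq hx h).trans (le_add_of_nonneg_right (by simp)))
      refine sum_congr rfl fun i _ => ?_
      simp [ampShift, ampZ, resp_zero]
    set M := respMaj β J y x h (0 + 1) ξ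
    have := mul_le_mul_of_nonneg_left hE hm
    have := mul_le_mul_of_nonneg_left hQ hm
    have := mul_le_mul_of_nonneg_left hE hb
    have := mul_le_mul_of_nonneg_left hQ hb
    have := mul_le_mul_of_nonneg_left hP hb
    show _ ≤ _ * M
    linarith
  | k + 2 => by
    obtain ⟨K1, hK1, h1⟩ := respErr_le β C (k + 1)
    obtain ⟨K0, hK0, h0⟩ := respErr_le β C k
    set m := max C 0
    set b := β ^ 4
    have hm : 0 ≤ m := le_max_right _ _
    have hb : 0 ≤ b := by positivity
    refine ⟨4 * (1 + m * (34 * K1 + 128) + b * (34 * K0 + 128)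
      + b * (12 + 456 * K1 + 1728)), by positivity, fun n J y x h ξ hh hx hJ => ?_⟩
    rcases isEmpty_or_nonempty (Fin n) with hι | hι
    · simp [respErr, respMaj, respQuart, respDot]
    refine (respErr_succ hh hx hJ k ξ).trans ?_
    obtain ⟨a1, aQ, aP, ad, -⟩ := respMaj_facts (β := β) (J := J) (y := y) (x := x) hh (k + 1) ξ
    obtain ⟨c1, cQ, -, -, -⟩ := respMaj_facts (β := β) (J := J) (y := y) (x := x) hh k ξ
    set M := respMaj β J y x h (k + 1 + 1) ξ
    have e1 := (h1 n J y x h ξ hh hx hJ).trans (mul_le_mul_of_nonneg_left a1 hK1)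
    have e0 := (h0 n J y x h ξ hh hx hJ).trans (mul_le_mul_of_nonneg_left (c1.trans a1) hK0)
    have := mul_le_mul_of_nonneg_left e1 hm
    have := mul_le_mul_of_nonneg_left aQ hm
    have := mul_le_mul_of_nonneg_left e0 hb
    have := mul_le_mul_of_nonneg_left (cQ.trans a1) hb
    have := mul_le_mul_of_nonneg_left e1 hb
    have := mul_le_mul_of_nonneg_left aQ hb
    have := mul_le_mul_of_nonneg_left aP hb
    have := ad.trans a1
    show _ ≤ _ * M
    linarith

end Vale.Agent.P150.Beta1.Profile
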