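import Mathlib
import Vale.Agent.P150.Beta1.GaussCompare
import Vale.Agent.P150.Beta1.Words.Moments
import Vale.Agent.P150.Beta1.Profile.Flow
import Vale.Agent.P150.Beta1.Profile.Remainder

/-!
# One step of the external field: averages over the noise

(a) the shift of `ampZ k` is `√h` times the linear response up to `h² n + h` in squared norm;
(b) second-order expansion of a site average; (c) its second moment.
-/

namespace Vale.Agent.P150.Beta1.Profile

open MeasureTheory ProbabilityTheory Finset Real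
open Vale.Agent.P150.Beta1.Algebra

variable {ι : Type*} [Fintype ι] [DecidableEq ι]

/-- Moments of a linear form of a standard Gaussian vector. -/
lemma linear_moments (c : ι → ℝ) {L : ℝ} (hL : 0 < L) (hc : ∑ j, c j ^ 2 ≤ L ^ 2) :
    Integrable (fun g => (∑ j, c j * g j) ^ 2) (gauss ι) ∧
      ∫ g, (∑ j, c j * g j) ^ 2 ∂gauss ι = ∑ j, c j ^ 2 ∧
      Integrable (fun g => (∑ j, c j * g j) ^ 4) (gauss ι) ∧
      ∫ g, (∑ j, c j * g j) ^ 4 ∂gauss ι ≤ 144 * L ^ 4 := by
  set f := fun g : ι → ℝ => ∑ j, c j * g j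
  have hcont : Continuous f := by fun_prop
  have hcoord : ∀ (g : ι → ℝ) j, |g j| ≤ 1 + ∑ q, |g q| := fun g j => by
    have := single_le_sum (f := fun q => |g q|) (fun q _ => abs_nonneg _) (mem_univ j)
    linarith
  have hgrow : ∀ g, |f g| ≤ (∑ j, |c j|) * (1 + ∑ q, |g q|) := fun g => by
    refine (abs_sum_le_sum_abs _ _).trans ?_
    rw [sum_mul]
    refine sum_le_sum fun j _ => ?_
    rw [abs_mul]
    exact mul_le_mul_of_nonneg_left (hcoord g j) (abs_nonneg _)
  have hpf : PolyGrowth f := ⟨_, 1, fun g => by rw [pow_one]; exact hgrow g⟩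
  have hmean : ∫ g, f g ∂gauss ι = 0 := by
    simp only [f]
    rw [integral_finsetSum]
    · refine sum_eq_zero fun j _ => ?_
      have h1 := gauss_ibp j (F := fun _ : ι → ℝ => (1:ℝ)) (G := fun _ => 0) continuous_const
        continuous_const (fun g => hasDerivAt_const _ _) ⟨1, 0, fun g => by simp⟩
        ⟨1, 0, fun g => by simp⟩
      simp only [mul_one, integral_zero] at h1
      rw [integral_const_mul, h1, mul_zero]
    · intro j _
      exact (PolyGrowth.integrable ⟨1, 1, fun g => by rw [pow_one, one_mul]; exact hcoord g j⟩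
        (continuous_apply j)).const_mul _
  have hfp : ∀ j, ∫ g, g j * f g ∂gauss ι = c j := fun j => by
    have h1 := gauss_ibp j (G := fun _ => c j) hcont continuous_const (fun g => ?_) hpf
      ⟨|c j|, 0, fun g => by simp⟩
    · simpa using h1
    · have e : (fun s => f (Function.update g j s)) = fun s => f g + c j * (s - g j) :=
        funext fun s => lin_update c g j s
      rw [e]
      simpa using (((hasDerivAt_id (g j)).sub_const (g j)).const_mul (c j)).const_add (f g)
  have hi2 : ∀ j, Integrable (fun g => c j * (g j * f g)) (gauss ι) := fun j => by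
    refine (PolyGrowth.integrable ⟨∑ q, |c q|, 2, fun g => ?_⟩
      ((continuous_apply j).mul hcont)).const_mul _
    rw [Pi.mul_apply, abs_mul]
    refine (mul_le_mul (hcoord g j) (hgrow g) (abs_nonneg _) ?_).trans_eq (by ring)
    have : 0 ≤ ∑ q, |g q| := sum_nonneg fun q _ => abs_nonneg _
    linarith
  have esq : ∀ g, f g ^ 2 = ∑ j, c j * (g j * f g) := fun g => by
    rw [sq]
    simp only [f, sum_mul]
    exact sum_congr rfl fun j _ => by ring
  have hlip : ∀ a b : ι → ℝ, |f a - f b| ≤ L * Words.dist2 a b := fun a b => by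
    simp only [f, ← sum_sub_distrib, ← mul_sub]
    refine (abs_le_of_sq_le_sq ?_ (mul_nonneg hL.le (Words.dist2_nonneg a b)))
    rw [mul_pow, Words.dist2, sq_sqrt (sum_nonneg fun _ _ => sq_nonneg _)]
    exact (sum_mul_sq_le_sq_mul_sq _ _ _).trans
      (mul_le_mul_of_nonneg_right hc (sum_nonneg fun _ _ => sq_nonneg _))
  obtain ⟨i4, b4⟩ := Words.lipschitz_fourth hcont hL hlip
  simp only [hmean, sub_zero] at i4 b4
  refine ⟨?_, ?_, i4, b4⟩
  · show Integrable (fun g => f g ^ 2) _
    simp only [esq]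
    exact integrable_finsetSum _ fun j _ => hi2 j
  · show ∫ g, f g ^ 2 ∂gauss ι = _
    simp only [esq]
    rw [integral_finsetSum _ fun j _ => hi2 j]
    exact sum_congr rfl fun j _ => by rw [integral_const_mul, hfp, sq]

omit [DecidableEq ι] in
/-- The second-order remainder at a shift split as `a + b`. -/
lemma taylor_split {C : ℝ} {φ : ℝ → ℝ} (hφ : SmoothB C φ) (z a b : ℝ) {t : ℝ} (ht : 0 < t) :
    |φ (z + (a + b)) - φ z - deriv φ z * (a + b) - deriv (deriv φ) z * a ^ 2 / 2|
      ≤ C * (8 * |a| ^ 3 + 8 * b ^ 2 + t * a ^ 2 + b ^ 2 / t) := by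
  have hC := hφ.nonneg
  set p := deriv φ z
  set q := deriv (deriv φ) z
  have hq : |q| ≤ C := hφ.b2 z
  set R := φ (z + (a + b)) - φ z - p * (a + b) - q * (a + b) ^ 2 / 2
  have hR : |R| ≤ C * (8 * |a| ^ 3 + 6 * b ^ 2) := by
    have ha3 : 0 ≤ |a| ^ 3 := by positivity
    rcases le_total |b| |a| with h | h
    · refine (hφ.taylor3 z (a + b)).trans (mul_le_mul_of_nonneg_left ?_ hC)
      have h1 : |a + b| ≤ 2 * |a| := (abs_add_le a b).trans (by linarith)
      have := pow_le_pow_left₀ (abs_nonneg _) h1 3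
      rw [mul_pow] at this
      linarith [sq_nonneg b]
    · have h1 : |a + b| ≤ 2 * |b| := (abs_add_le a b).trans (by linarith)
      have h2 := pow_le_pow_left₀ (abs_nonneg _) h1 2
      rw [sq_abs, mul_pow, sq_abs] at h2
      refine (abs_sub _ _).trans ((add_le_add (d := |q| * (a + b) ^ 2 / 2) (hφ.taylor2 z (a + b))
        (le_of_eq ?_)).trans ?_)
      · rw [abs_div, abs_mul, abs_of_nonneg (sq_nonneg (a + b)), abs_two]
      · have := mul_le_mul hq h2 (sq_nonneg _) hC
        have := mul_le_mul_of_nonneg_left h2 hC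
        have := mul_nonneg hC ha3
        linarith
  have hM : |q * ((a + b) ^ 2 - a ^ 2) / 2| ≤ C * (t * a ^ 2 + b ^ 2 / t + b ^ 2) := by
    rw [abs_div, abs_mul, abs_two]
    have hd : |(a + b) ^ 2 - a ^ 2| ≤ t * a ^ 2 + b ^ 2 / t + b ^ 2 := by
      have e1 : 0 ≤ t * a ^ 2 + b ^ 2 / t - 2 * (a * b) := by
        have : t * a ^ 2 + b ^ 2 / t - 2 * (a * b) = (t * a - b) ^ 2 / t := by field_simp; ring
        rw [this]; positivity
      have e2 : 0 ≤ t * a ^ 2 + b ^ 2 / t + 2 * (a * b) := by
        have : t * a ^ 2 + b ^ 2 / t + 2 * (a * b) = (t * a + b) ^ 2 / t := by field_simp; ring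
        rw [this]; positivity
      have := sq_nonneg b
      rw [abs_le]
      constructor <;> nlinarith
    have := mul_le_mul hq hd (abs_nonneg _) hC
    have : 0 ≤ |q| * |(a + b) ^ 2 - a ^ 2| := by positivity
    linarith
  have e : φ (z + (a + b)) - φ z - p * (a + b) - q * a ^ 2 / 2
      = R + q * ((a + b) ^ 2 - a ^ 2) / 2 := by simp only [R]; ring
  rw [e]
  refine (abs_add_le _ _).trans ((add_le_add hR hM).trans ?_)
  have : 0 ≤ C * b ^ 2 := mul_nonneg hC (sq_nonneg b)
  linarith

omit [DecidableEq ι] in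
/-- The first-order remainder at a shift split as `a + b`, squared. -/
lemma incr_split {C : ℝ} {φ : ℝ → ℝ} (hφ : SmoothB C φ) (z a b : ℝ) :
    (φ (z + (a + b)) - φ z - deriv φ z * a) ^ 2 ≤ C ^ 2 * (34 * b ^ 2 + 128 * a ^ 4) := by
  have hC := hφ.nonneg
  set D := a + b
  set R := φ (z + D) - φ z - deriv φ z * D
  have h1 : |R| ≤ C * D ^ 2 := hφ.taylor2 z D
  have h2 : |R| ≤ C * (2 * |D|) := by
    have hl := (convex_univ (𝕜 := ℝ) (E := ℝ)).norm_image_sub_le_of_norm_hasDerivWithin_le
      (f := φ) (f' := deriv φ) (C := C) (fun u _ => (hφ.d1 u).hasDerivWithinAt)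
      (fun u _ => by rw [norm_eq_abs]; exact hφ.b1 u) (Set.mem_univ z) (Set.mem_univ (z + D))
    simp only [norm_eq_abs, add_sub_cancel_left] at hl
    refine (abs_sub _ _).trans ?_
    rw [abs_mul]
    have := mul_le_mul_of_nonneg_right (hφ.b1 z) (abs_nonneg D)
    linarith
  have hR : R ^ 2 ≤ C ^ 2 * (64 * a ^ 4 + 16 * b ^ 2) := by
    rcases four_or_two a b with ⟨-, h⟩ | h
    · have := pow_le_pow_left₀ (abs_nonneg _) h1 2
      rw [sq_abs, mul_pow, ← pow_mul] at this
      norm_num at this
      refine this.trans (mul_le_mul_of_nonneg_left ?_ (sq_nonneg C))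
      have : 0 ≤ a ^ 4 := by positivity
      linarith [sq_nonneg b]
    · have := pow_le_pow_left₀ (abs_nonneg _) h2 2
      rw [sq_abs, mul_pow, mul_pow, sq_abs] at this
      refine this.trans (mul_le_mul_of_nonneg_left ?_ (sq_nonneg C))
      have : 0 ≤ a ^ 4 := by positivity
      linarith [sq_nonneg b]
  have e : φ (z + D) - φ z - deriv φ z * a = deriv φ z * b + R := by simp only [R, D]; ring
  rw [e]
  refine add_sq_le.trans ?_
  have : (deriv φ z * b) ^ 2 ≤ C ^ 2 * b ^ 2 := by
    rw [mul_pow]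
    exact mul_le_mul_of_nonneg_right (sq_le_sq' (abs_le.1 (hφ.b1 z)).1 (abs_le.1 (hφ.b1 z)).2)
      (sq_nonneg b)
  linarith

/-- The squared size of the response matrix. -/
noncomputable def gamAct (β C : ℝ) (k : ℕ) : ℝ := max C 1 ^ k * ((2 + β ^ 2) ^ k) ^ 2

lemma gamAct_pos (β C : ℝ) (k : ℕ) : 0 < gamAct β C k := by unfold gamAct; positivity

lemma gamE_act {β C : ℝ} {m : ℕ} {J : ι → ι → ℝ} {y x : ι → ℝ} (hG : GoodWords β m C J)
    (hx : ∀ i, |x i| ≤ 1) (k : ℕ) : Rule.Act (gamAct β C k) ((gamE β J y x k).mat J) :=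
  Rule.expr_act hG _ (deg_gam k) (size_gam (norm_ampU_le β J y x hx) k)

omit [DecidableEq ι] in
lemma continuous_act (J : ι → ι → ℝ) {f : (ι → ℝ) → ι → ℝ} (hf : Continuous f) :
    Continuous fun g => act J (f g) :=
  continuous_pi fun _ => continuous_finsetSum _ fun j _ =>
    continuous_const.mul ((continuous_apply j).comp hf)

omit [Fintype ι] [DecidableEq ι] in
lemma continuous_tanhv {f : (ι → ℝ) → ι → ℝ} (hf : Continuous f) :
    Continuous fun g => tanhv (f g) :=
  continuous_pi fun i => (continuous_iff_continuousAt.2 fun u =>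
    (hasDerivAt_tanh' u).continuousAt).comp ((continuous_apply i).comp hf)

omit [DecidableEq ι] in
lemma continuous_onsager (β : ℝ) {f : (ι → ℝ) → ι → ℝ} (hf : Continuous f) :
    Continuous fun g => onsager β (f g) :=
  continuous_const.mul (continuous_const.sub ((continuous_finsetSum _ fun i _ =>
    ((continuous_apply i).comp hf).pow 2).div_const _))

omit [DecidableEq ι] in
lemma continuous_ampZ (β : ℝ) (J : ι → ι → ℝ) (x : ι → ℝ) :
    ∀ k, Continuous fun y => ampZ β J y x k
  | 0 => continuous_pi fun i => (continuous_apply i).add continuous_const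
  | 1 => by
    have h0 := continuous_tanhv (continuous_ampZ β J x 0)
    refine continuous_pi fun i => ?_
    exact ((continuous_apply i).add ((continuous_apply i).comp (continuous_act J h0))).sub
      ((continuous_onsager β h0).mul continuous_const)
  | k + 2 => by
    have h1 := continuous_tanhv (continuous_ampZ β J x (k + 1))
    have h0 := continuous_tanhv (continuous_ampZ β J x k)
    refine continuous_pi fun i => ?_
    exact ((continuous_apply i).add ((continuous_apply i).comp (continuous_act J h1))).sub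
      ((continuous_onsager β h1).mul ((continuous_apply i).comp h0))

variable {β : ℝ} {J : ι → ι → ℝ} {y x : ι → ℝ}

omit [DecidableEq ι] in
lemma continuous_ampShift (h : ℝ) (k : ℕ) (i : ι) :
    Continuous fun ξ => ampShift β J y x h k ξ i :=
  (((continuous_apply i).comp (continuous_ampZ β J x k)).comp
    (by fun_prop : Continuous fun ξ : ι → ℝ => fun l => y l + (h * x l + √h * ξ l))).sub
    continuous_const

lemma continuous_resp (k : ℕ) (i : ι) : Continuous fun ξ => resp β J y x k ξ i := by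
  simp only [resp, Matrix.mulVec, dotProduct]
  fun_prop

lemma continuous_respErr (h : ℝ) (k : ℕ) : Continuous fun ξ => respErr β J y x h k ξ :=
  continuous_finsetSum _ fun i _ =>
    ((continuous_ampShift h k i).sub (continuous_const.mul (continuous_resp k i))).pow 2

/-- Moments of the response. -/
lemma resp_moments {C : ℝ} {m : ℕ} (hG : GoodWords β m C J) (hx : ∀ i, |x i| ≤ 1) (k : ℕ) :
    (∀ i, Integrable (fun ξ => resp β J y x k ξ i ^ 2) (gauss ι) ∧
      ∫ ξ, resp β J y x k ξ i ^ 2 ∂gauss ι = ∑ j, (gamE β J y x k).mat J i j ^ 2) ∧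
    (Integrable (fun ξ => respQuart β J y x k ξ) (gauss ι) ∧
      ∫ ξ, respQuart β J y x k ξ ∂gauss ι ≤ Fintype.card ι * (144 * gamAct β C k ^ 2)) ∧
    (∀ (c : ι → ℝ) (B : ℝ), (∀ i, |c i| ≤ B) →
      Integrable (fun ξ => (∑ i, c i * resp β J y x k ξ i) ^ 2) (gauss ι) ∧
      ∫ ξ, (∑ i, c i * resp β J y x k ξ i) ^ 2 ∂gauss ι
        ≤ gamAct β C k * (B ^ 2 * Fintype.card ι)) := by
  have hA := gamE_act (y := y) hG hx k
  set M := (gamE β J y x k).mat J
  have hK := gamAct_pos β C k
  have hL : 0 < √(gamAct β C k) := sqrt_pos.2 hK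
  have hLL : √(gamAct β C k) ^ 2 = gamAct β C k := sq_sqrt hK.le
  have row : ∀ i, ∑ j, M i j ^ 2 ≤ √(gamAct β C k) ^ 2 := fun i => (hA.row_le i).trans_eq hLL.symm
  have e4 : √(gamAct β C k) ^ 4 = gamAct β C k ^ 2 := by
    rw [show √(gamAct β C k) ^ 4 = (√(gamAct β C k) ^ 2) ^ 2 by ring, hLL]
  refine ⟨fun i => ⟨(linear_moments (M i) hL (row i)).1, (linear_moments (M i) hL (row i)).2.1⟩,
    ⟨integrable_finsetSum _ fun i _ => (linear_moments (M i) hL (row i)).2.2.1, ?_⟩,
    fun c B hc => ?_⟩
  · simp only [respQuart]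
    rw [integral_finsetSum]
    · refine (sum_le_sum fun i _ => (linear_moments (M i) hL (row i)).2.2.2).trans_eq ?_
      simp [e4]
    · exact fun i _ => (linear_moments (M i) hL (row i)).2.2.1
  · set d := M.transpose.mulVec c
    have hd : ∑ j, d j ^ 2 ≤ gamAct β C k * (B ^ 2 * Fintype.card ι) := by
      refine (hA.2 c).trans (mul_le_mul_of_nonneg_left ?_ hK.le)
      refine (sum_le_sum (g := fun _ => B ^ 2) fun i _ => ?_).trans_eq (by simp [mul_comm])
      exact sq_le_sq' (abs_le.1 (hc i)).1 (abs_le.1 (hc i)).2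
    have e : ∀ ξ, ∑ i, c i * resp β J y x k ξ i = ∑ j, d j * ξ j := fun ξ => by
      simp only [resp, d, Matrix.mulVec, dotProduct, Matrix.transpose_apply, mul_sum, sum_mul, M]
      rw [sum_comm]
      exact sum_congr rfl fun j _ => sum_congr rfl fun i _ => by ring
    have hL' : 0 < √(∑ j, d j ^ 2 + 1) := sqrt_pos.2 (by positivity)
    obtain ⟨i2, v2, -, -⟩ := linear_moments d hL' (by rw [sq_sqrt (by positivity)]; linarith)
    simp only [e]
    exact ⟨i2, v2.trans_le hd⟩

end Vale.Agent.P150.Beta1.Profile
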