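import Mathlib
import Vale.Agent.P150.Beta1.Profile.Expand

/-!
# The three expansions of one step of the external field
-/

namespace Vale.Agent.P150.Beta1.Profile

open MeasureTheory ProbabilityTheory Finset Real

/-- (a) The shift is linear in the noise up to `h² n + h` in squared norm. -/
theorem respErr_mean (β C : ℝ) (k : ℕ) : ∃ C', 0 ≤ C' ∧ ∀ (n m : ℕ) (J : Fin n → Fin n → ℝ)
    (y x : Fin n → ℝ) (h : ℝ), 0 ≤ h → (∀ i, |x i| ≤ 1) → GoodWords β m C J →
      Integrable (fun ξ => respErr β J y x h k ξ) (gauss (Fin n)) ∧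
      ∫ ξ, respErr β J y x h k ξ ∂gauss (Fin n) ≤ C' * (h ^ 2 * n + h) := by
  obtain ⟨K, hK, hb⟩ := respErr_le β C k
  set S := ∑ j ∈ range k, 144 * gamAct β C j ^ 2
  set T := ∑ j ∈ range k, gamAct β C j
  have hS : 0 ≤ S := sum_nonneg fun j _ => by positivity
  have hT : 0 ≤ T := sum_nonneg fun j _ => (gamAct_pos β C j).le
  refine ⟨K * (1 + S + T), by positivity, fun n m J y x h hh hx hG => ?_⟩
  have hJ := hG.2.2.1
  have mQ := fun j => (resp_moments (y := y) (x := x) hG hx j).2.1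
  have mP : ∀ j, Integrable (fun ξ => respDot β J y x j ξ) (gauss (Fin n)) ∧
      ∫ ξ, respDot β J y x j ξ ∂gauss (Fin n) ≤ gamAct β C j := fun j => by
    obtain ⟨hi, hv⟩ := (resp_moments (y := y) (x := x) hG hx j).2.2
      (fun i => ampA β J y x (j + 1) i * Algebra.ampU β J y x (j + 1) i) 1 fun i => by
        rw [abs_mul]
        exact mul_le_one₀ (ampA_abs_le hx _ i) (abs_nonneg _) (Rule.abs_one_sub_tanh_sq _)
    refine ⟨hi.div_const _, ?_⟩
    simp only [respDot, Fintype.card_fin] at hv ⊢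
    rw [integral_div]
    refine div_le_of_le_mul₀ (Nat.cast_nonneg n) (gamAct_pos β C j).le ?_
    rwa [one_pow, one_mul] at hv
  have iM : Integrable (fun ξ => respMaj β J y x h k ξ) (gauss (Fin n)) := by
    unfold respMaj
    exact (integrable_const _).add (integrable_finsetSum _ fun j _ =>
      ((mQ j).1.const_mul _).add ((mP j).1.const_mul _))
  have hi : Integrable (fun ξ => respErr β J y x h k ξ) (gauss (Fin n)) :=
    (iM.const_mul K).mono' (continuous_respErr h k).aestronglyMeasurable (ae_of_all _ fun ξ => by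
      rw [norm_eq_abs, abs_of_nonneg (respErr_nonneg k ξ)]
      exact hb n J y x h ξ hh hx hJ)
  refine ⟨hi, (integral_mono hi (iM.const_mul K) fun ξ => hb n J y x h ξ hh hx hJ).trans ?_⟩
  rw [integral_const_mul, mul_assoc]
  refine mul_le_mul_of_nonneg_left ?_ hK
  have i2 : ∀ j ∈ range k, Integrable
      (fun ξ => h ^ 2 * respQuart β J y x j ξ + h * respDot β J y x j ξ) (gauss (Fin n)) :=
    fun j _ => ((mQ j).1.const_mul _).add ((mP j).1.const_mul _)
  simp only [respMaj]
  rw [integral_add (integrable_const _) (integrable_finsetSum _ i2), integral_const,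
    probReal_univ, one_smul, integral_finsetSum _ i2, Fintype.card_fin]
  have hsum : ∑ j ∈ range k, ∫ ξ, h ^ 2 * respQuart β J y x j ξ + h * respDot β J y x j ξ
      ∂gauss (Fin n) ≤ h ^ 2 * n * S + h * T := by
    rw [mul_sum, mul_sum, ← sum_add_distrib]
    refine sum_le_sum fun j _ => ?_
    rw [integral_add ((mQ j).1.const_mul _) ((mP j).1.const_mul _), integral_const_mul,
      integral_const_mul, mul_assoc]
    have := (mQ j).2
    rw [Fintype.card_fin] at this
    exact add_le_add (mul_le_mul_of_nonneg_left this (sq_nonneg h))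
      (mul_le_mul_of_nonneg_left (mP j).2 hh)
  have : 0 ≤ h ^ 2 * n := by positivity
  have : 0 ≤ h * S := mul_nonneg hh hS
  have : 0 ≤ h ^ 2 * n * T := by positivity
  linarith

/-- (b) Second-order expansion of a site average. -/
theorem avg_expand (β C : ℝ) (k : ℕ) : ∃ C', 0 ≤ C' ∧ ∀ (n m : ℕ) (J : Fin n → Fin n → ℝ)
    (y x : Fin n → ℝ) (h Cφ : ℝ) (φ : ℝ → ℝ), 0 ≤ h → h ≤ 1 → (∀ i, |x i| ≤ 1) → 2 * k ≤ m →
      GoodWords β m C J → SmoothB Cφ φ →
      |(∫ ξ, avg (fun i => φ (ampZ β J (fun l => y l + (h * x l + √h * ξ l)) x k i))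
            ∂gauss (Fin n))
          - avg (fun i => φ (ampZ β J y x k i))
          - (∫ ξ, avg (fun i => deriv φ (ampZ β J y x k i) * ampShift β J y x h k ξ i)
            ∂gauss (Fin n))
          - h / 2 * sigA β J y x k * avg (fun i => deriv (deriv φ) (ampZ β J y x k i))|
        ≤ C' * Cφ * (h * √h + h / √n) := by
  obtain ⟨K, hK, hKb⟩ := respErr_mean β C k
  set L := gamAct β C k
  set M := max C 0 * (((2 + β ^ 2) ^ k) ^ 2) ^ 2
  have hL : 0 < L := gamAct_pos β C k
  have hM : 0 ≤ M := mul_nonneg (le_max_right _ _) (sq_nonneg _)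
  refine ⟨8 * (L + 144 * L ^ 2) + 16 * K + L + 2 * K + (M + 1), by positivity,
    fun n m J y x h Cφ φ hh hh1 hx hm hG hφ => ?_⟩
  have hC := hφ.nonneg
  rcases Nat.eq_zero_or_pos n with rfl | hn
  · simp [avg]; positivity
  have hn' : (0:ℝ) < n := Nat.cast_pos.2 hn
  set s := √h
  have hs : 0 ≤ s := sqrt_nonneg h
  have hss : s * s = h := mul_self_sqrt hh
  have hs1 : s ≤ 1 := sqrt_le_one.2 hh1
  set w := 1 / √n
  have hw : 0 < w := by positivity
  have hww : w * w = 1 / n := by
    simp only [w]; rw [div_mul_div_comm, one_mul, mul_self_sqrt hn'.le]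
  have hhw : h / √n = h * w := by simp only [w]; rw [mul_one_div]
  rw [hhw]
  set t := s + w
  have ht : 0 < t := by positivity
  set μ := gauss (Fin n)
  set z := ampZ β J y x k
  set D := fun ξ => ampShift β J y x h k ξ
  set g := fun ξ => resp β J y x k ξ
  have hz : ∀ ξ i, ampZ β J (fun l => y l + (h * x l + s * ξ l)) x k i = z i + D ξ i := fun ξ i => by
    simp [D, z, s, ampShift]
  obtain ⟨iE, vE⟩ := hKb n m J y x h hh hx hG
  obtain ⟨m2, ⟨i4, v4⟩, -⟩ := resp_moments (y := y) (x := x) hG hx k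
  have hrow := row_sq_gamE (y := y) (x := x) hG hx hm
  set R := fun i => ∑ j, (gamE β J y x k).mat J i j ^ 2
  have hA := gamE_act (y := y) hG hx k
  -- the pointwise remainder
  set u := fun ξ i => φ (z i + D ξ i) - φ (z i) - deriv φ (z i) * D ξ i
    - deriv (deriv φ) (z i) * (s * g ξ i) ^ 2 / 2
  set bound := fun ξ => Cφ * (8 * (h * s) * ((∑ i, g ξ i ^ 2) + respQuart β J y x k ξ)
    + 8 * respErr β J y x h k ξ + t * (h * ∑ i, g ξ i ^ 2) + respErr β J y x h k ξ / t)
  have hu : ∀ ξ, |∑ i, u ξ i| ≤ bound ξ := fun ξ => by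
    refine (abs_sum_le_sum_abs _ _).trans ((sum_le_sum fun i _ => ?_).trans_eq (b := ∑ i,
      Cφ * (8 * (h * s) * (g ξ i ^ 2 + g ξ i ^ 4) + 8 * (D ξ i - s * g ξ i) ^ 2
        + t * (h * g ξ i ^ 2) + (D ξ i - s * g ξ i) ^ 2 / t)) ?_)
    · have := taylor_split hφ (z i) (s * g ξ i) (D ξ i - s * g ξ i) ht
      simp only [add_sub_cancel] at this
      refine this.trans (mul_le_mul_of_nonneg_left ?_ hC)
      have h3 : |s * g ξ i| ^ 3 ≤ h * s * (g ξ i ^ 2 + g ξ i ^ 4) := by
        rw [abs_mul, abs_of_nonneg hs, mul_pow, show s ^ 3 = h * s by rw [← hss]; ring]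
        refine mul_le_mul_of_nonneg_left ?_ (mul_nonneg hh hs)
        have := two_mul_le_add_sq |g ξ i| (g ξ i ^ 2)
        have e : |g ξ i| * g ξ i ^ 2 = |g ξ i| ^ 3 := by rw [← sq_abs (g ξ i)]; ring
        rw [sq_abs] at this
        have : 2 * |g ξ i| ^ 3 ≤ 2 * (g ξ i ^ 2 + g ξ i ^ 4) := by
          have h0 := mul_nonneg (abs_nonneg (g ξ i)) (sq_nonneg (|g ξ i| - 1))
          nlinarith [sq_nonneg (g ξ i ^ 2 - |g ξ i|), sq_abs (g ξ i)]
        linarith
      rw [mul_pow, sq s, hss]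
      linarith
    · simp only [bound, respQuart, respErr, g, D, s, mul_sum, sum_add_distrib, mul_add,
        sum_div]
  have i2 : Integrable (fun ξ => ∑ i, g ξ i ^ 2) μ := integrable_finsetSum _ fun i _ => (m2 i).1
  have v2 : ∫ ξ, ∑ i, g ξ i ^ 2 ∂μ ≤ n * L := by
    rw [integral_finsetSum _ fun i _ => (m2 i).1]
    refine (sum_le_sum fun i _ => (m2 i).2.trans_le (hA.row_le i)).trans_eq ?_
    simp [L]
  have v4' : ∫ ξ, respQuart β J y x k ξ ∂μ ≤ n * (144 * L ^ 2) := by simpa [L] using v4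
  have p1 : Integrable (fun ξ => 8 * (h * s) * ((∑ i, g ξ i ^ 2) + respQuart β J y x k ξ)) μ :=
    (i2.add i4).const_mul _
  have p2 : Integrable (fun ξ => 8 * respErr β J y x h k ξ) μ := iE.const_mul 8
  have p3 : Integrable (fun ξ => t * (h * ∑ i, g ξ i ^ 2)) μ := (i2.const_mul h).const_mul t
  have p4 : Integrable (fun ξ => respErr β J y x h k ξ / t) μ := iE.div_const t
  have p12 : Integrable (fun ξ => 8 * (h * s) * ((∑ i, g ξ i ^ 2) + respQuart β J y x k ξ)
      + 8 * respErr β J y x h k ξ) μ := p1.add p2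
  have p123 : Integrable (fun ξ => 8 * (h * s) * ((∑ i, g ξ i ^ 2) + respQuart β J y x k ξ)
      + 8 * respErr β J y x h k ξ + t * (h * ∑ i, g ξ i ^ 2)) μ := p12.add p3
  have ib : Integrable bound μ := (p123.add p4).const_mul Cφ
  have hcont : Continuous fun ξ => ∑ i, u ξ i := by
    refine continuous_finsetSum _ fun i _ => ?_
    have hD : Continuous fun ξ => D ξ i := continuous_ampShift h k i
    have hg : Continuous fun ξ => g ξ i := continuous_resp k i
    exact (((hφ.continuous.comp (continuous_const.add hD)).sub continuous_const).sub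
      (continuous_const.mul hD)).sub ((continuous_const.mul ((continuous_const.mul hg).pow 2)).div_const 2)
  have iu : Integrable (fun ξ => ∑ i, u ξ i) μ :=
    ib.mono' hcont.aestronglyMeasurable (ae_of_all _ fun ξ => hu ξ)
  -- its mean
  have vb : ∫ ξ, bound ξ ∂μ
      ≤ Cφ * n * ((8 * (L + 144 * L ^ 2) + 16 * K + L + 2 * K) * (h * s + h * w)) := by
    simp only [bound]
    rw [integral_const_mul, integral_add p123 p4, integral_add p12 p3, integral_add p1 p2,
      integral_const_mul, integral_const_mul, integral_const_mul, integral_const_mul,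
      integral_div, integral_add i2 i4, mul_assoc Cφ]
    refine mul_le_mul_of_nonneg_left ?_ hC
    set E := ∫ ξ, respErr β J y x h k ξ ∂μ
    have hE : E ≤ n * (K * (h ^ 2 + h * (w * w))) := by
      refine vE.trans_eq ?_
      rw [hww]; field_simp
    have q0 : (0:ℝ) ≤ n * (h * s) := by positivity
    have q1 : (0:ℝ) ≤ n * (h * w) := by positivity
    have b1 : 8 * (h * s) * ((∫ ξ, ∑ i, g ξ i ^ 2 ∂μ) + ∫ ξ, respQuart β J y x k ξ ∂μ)
        ≤ 8 * (L + 144 * L ^ 2) * (n * (h * s)) := by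
      refine (mul_le_mul_of_nonneg_left (add_le_add v2 v4') (by positivity)).trans_eq ?_
      ring
    have hh2 : h ^ 2 ≤ h * s := by
      rw [sq]
      refine mul_le_mul_of_nonneg_left ?_ hh
      rw [← hss]; exact mul_le_of_le_one_left hs hs1
    have hw2 : h * (w * w) ≤ h * w := by
      refine mul_le_mul_of_nonneg_left (mul_le_of_le_one_left hw.le ?_) hh
      exact div_le_one (sqrt_pos.2 hn') |>.2 (one_le_sqrt.2 (Nat.one_le_cast.2 hn))
    have b2 : 8 * E ≤ 8 * K * (n * (h * s + h * w)) := by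
      refine (mul_le_mul_of_nonneg_left (hE.trans (mul_le_mul_of_nonneg_left
        (mul_le_mul_of_nonneg_left (add_le_add hh2 hw2) hK) hn'.le)) (by norm_num)).trans_eq ?_
      ring
    have b3 : t * (h * ∫ ξ, ∑ i, g ξ i ^ 2 ∂μ) ≤ L * (n * (h * s + h * w)) := by
      refine (mul_le_mul_of_nonneg_left (mul_le_mul_of_nonneg_left v2 hh) ht.le).trans_eq ?_
      simp only [t]; ring
    have b4 : E / t ≤ K * (n * (h * s + h * w)) := by
      rw [div_le_iff₀ ht]
      refine hE.trans ?_
      have e : K * (n * (h * s + h * w)) * t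
          = n * (K * (h * (s * s) + h * (w * w) + 2 * (h * s * w))) := by simp only [t]; ring
      rw [e, hss, ← sq h]
      have : 0 ≤ 2 * (h * s * w) := by positivity
      exact mul_le_mul_of_nonneg_left (mul_le_mul_of_nonneg_left (by linarith) hK) hn'.le
    have := mul_nonneg (show 0 ≤ L + 144 * L ^ 2 by positivity) q1
    have := mul_nonneg hK (add_nonneg q0 q1)
    linarith
  -- splitting
  set q := fun i => deriv (deriv φ) (z i)
  have i0 : ∀ i, Integrable (fun ξ => φ (z i + D ξ i)) μ := fun i =>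
    (integrable_const Cφ).mono'
      (hφ.continuous.comp (continuous_const.add (continuous_ampShift h k i))).aestronglyMeasurable
      (ae_of_all _ fun ξ => hφ.b0 _)
  have isq : ∀ i, Integrable (fun ξ => q i * (s * g ξ i) ^ 2 / 2) μ := fun i => by
    simp only [mul_pow]
    exact (((m2 i).1.const_mul _).const_mul _).div_const 2
  have iP : Integrable (fun ξ => ∑ i, q i * (s * g ξ i) ^ 2 / 2) μ :=
    integrable_finsetSum _ fun i _ => isq i
  have iphi : Integrable (fun ξ => ∑ i, (φ (z i + D ξ i) - φ (z i))) μ :=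
    integrable_finsetSum _ fun i _ => (i0 i).sub (integrable_const _)
  have idD : Integrable (fun ξ => ∑ i, deriv φ (z i) * D ξ i) μ := by
    have := (iphi.sub iP).sub iu
    refine this.congr (ae_of_all _ fun ξ => ?_)
    simp only [Pi.sub_apply, ← sum_sub_distrib, u, q]
    exact sum_congr rfl fun i _ => by ring
  have iphiD : Integrable (fun ξ => ∑ i, (φ (z i + D ξ i) - φ (z i))
      - ∑ i, deriv φ (z i) * D ξ i) μ := iphi.sub idD
  have hIu : ∫ ξ, ∑ i, u ξ i ∂μ = (∫ ξ, ∑ i, φ (z i + D ξ i) ∂μ) - ∑ i, φ (z i)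
      - (∫ ξ, ∑ i, deriv φ (z i) * D ξ i ∂μ) - ∑ i, q i * (h * R i) / 2 := by
    have e : ∀ ξ, ∑ i, u ξ i = ∑ i, (φ (z i + D ξ i) - φ (z i)) - ∑ i, deriv φ (z i) * D ξ i
        - ∑ i, q i * (s * g ξ i) ^ 2 / 2 := fun ξ => by
      simp only [← sum_sub_distrib, u, q]
    simp only [e]
    rw [integral_sub iphiD iP, integral_sub iphi idD,
      integral_finsetSum _ (f := fun i ξ => φ (z i + D ξ i) - φ (z i)) fun i _ =>
        (i0 i).sub (integrable_const _),
      integral_finsetSum _ (f := fun i ξ => q i * (s * g ξ i) ^ 2 / 2) fun i _ => isq i,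
      integral_finsetSum _ (f := fun i ξ => φ (z i + D ξ i)) fun i _ => i0 i,
      ← sum_sub_distrib]
    congr 1
    · congr 1
      refine sum_congr rfl fun i _ => ?_
      rw [integral_sub (i0 i) (integrable_const _), integral_const, probReal_univ, one_smul]
    · refine sum_congr rfl fun i _ => ?_
      simp only [mul_pow]
      rw [integral_div, integral_const_mul, integral_const_mul, (m2 i).2, sq s, hss]
  have hdiag : |∑ i, q i * (h * R i) / 2 - h / 2 * sigA β J y x k * ∑ i, q i|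
      ≤ Cφ * n * ((M + 1) * (h * w)) := by
    rw [mul_sum, ← sum_sub_distrib]
    refine (abs_sum_le_sum_abs _ _).trans ?_
    refine (sum_le_sum (g := fun i => Cφ * h * (((R i - sigA β J y x k) ^ 2 / w + w) / 2))
      fun i _ => ?_).trans ?_
    · rw [show q i * (h * R i) / 2 - h / 2 * sigA β J y x k * q i
        = q i * (h / 2 * (R i - sigA β J y x k)) by ring, abs_mul, abs_mul,
        abs_of_nonneg (show 0 ≤ h / 2 by linarith), mul_assoc Cφ]
      refine mul_le_mul (hφ.b2 _) ?_ (by positivity) hC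
      have hd : |R i - sigA β J y x k| ≤ (R i - sigA β J y x k) ^ 2 / w + w := by
        rw [div_add' _ _ _ hw.ne', le_div_iff₀ hw]
        have := two_mul_le_add_sq |R i - sigA β J y x k| w
        rw [sq_abs, sq w] at this
        have := mul_nonneg (abs_nonneg (R i - sigA β J y x k)) hw.le
        linarith
      have := mul_le_mul_of_nonneg_left hd (show 0 ≤ h / 2 by linarith)
      linarith
    · rw [← mul_sum, ← sum_div, sum_add_distrib, ← sum_div, sum_const, card_univ,
        Fintype.card_fin, nsmul_eq_mul]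
      have h1 : (∑ i, (R i - sigA β J y x k) ^ 2) / w ≤ M * (n * w) := by
        rw [div_le_iff₀ hw, mul_assoc, mul_assoc (n:ℝ), hww, mul_one_div_cancel hn'.ne', mul_one]
        exact hrow.trans (mul_le_mul_of_nonneg_right (le_max_left _ _) (sq_nonneg _))
      have h2 := mul_le_mul_of_nonneg_left h1 (show 0 ≤ Cφ * h by positivity)
      have : 0 ≤ Cφ * h * (M * (n * w)) := by positivity
      have : 0 ≤ Cφ * h * (n * w) := by positivity
      linarith
  -- conclusion
  have hmain : |∫ ξ, ∑ i, u ξ i ∂μ| ≤ ∫ ξ, bound ξ ∂μ :=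
    abs_integral_le_integral_abs.trans (integral_mono iu.abs ib hu)
  simp only [avg, Fintype.card_fin, hz]
  rw [integral_div, integral_div, ← sub_div, ← sub_div, ← mul_div_assoc, ← sub_div, abs_div,
    abs_of_pos hn', div_le_iff₀ hn']
  have e : (∫ ξ, ∑ i, φ (z i + D ξ i) ∂μ) - ∑ i, φ (z i)
      - (∫ ξ, ∑ i, deriv φ (z i) * D ξ i ∂μ) - h / 2 * sigA β J y x k * ∑ i, q i
      = (∫ ξ, ∑ i, u ξ i ∂μ)
        + (∑ i, q i * (h * R i) / 2 - h / 2 * sigA β J y x k * ∑ i, q i) := by
    rw [hIu]; ring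
  rw [e]
  refine (abs_add_le _ _).trans ((add_le_add (hmain.trans vb) hdiag).trans ?_)
  have : 0 ≤ Cφ * n * ((M + 1) * (h * s)) := by positivity
  linarith

/-- (c) Second moment of the shift of a site average. -/
theorem avg_shift_sq (β C : ℝ) (k : ℕ) : ∃ C', 0 ≤ C' ∧ ∀ (n m : ℕ) (J : Fin n → Fin n → ℝ)
    (y x : Fin n → ℝ) (h Cφ : ℝ) (φ : ℝ → ℝ), 0 ≤ h → (∀ i, |x i| ≤ 1) →
      GoodWords β m C J → SmoothB Cφ φ →
      ∫ ξ, (avg (fun i => φ (ampZ β J (fun l => y l + (h * x l + √h * ξ l)) x k i))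
          - avg (fun i => φ (ampZ β J y x k i))) ^ 2 ∂gauss (Fin n)
        ≤ C' * Cφ ^ 2 * (h ^ 2 + h / n) := by
  obtain ⟨K, hK, hKb⟩ := respErr_mean β C k
  set L := gamAct β C k
  have hL : 0 < L := gamAct_pos β C k
  refine ⟨2 * L + 68 * K + 256 * (144 * L ^ 2), by positivity,
    fun n m J y x h Cφ φ hh hx hG hφ => ?_⟩
  have hC := hφ.nonneg
  rcases Nat.eq_zero_or_pos n with rfl | hn
  · simp [avg]; positivity
  have hn' : (0:ℝ) < n := Nat.cast_pos.2 hn
  set μ := gauss (Fin n)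
  set z := ampZ β J y x k
  set g := fun ξ => resp β J y x k ξ
  set D := fun ξ => ampShift β J y x h k ξ
  set p := fun i => deriv φ (z i)
  have hz : ∀ ξ i, ampZ β J (fun l => y l + (h * x l + √h * ξ l)) x k i = z i + D ξ i := fun ξ i => by
    simp [D, z, ampShift]
  obtain ⟨iE, vE⟩ := hKb n m J y x h hh hx hG
  obtain ⟨-, ⟨i4, v4⟩, hdot⟩ := resp_moments (y := y) (x := x) hG hx k
  obtain ⟨iS, vS⟩ := hdot p Cφ fun i => hφ.b1 _
  set bound := fun ξ => 2 * h * (∑ i, p i * g ξ i) ^ 2 / (n:ℝ) ^ 2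
    + 2 * (Cφ ^ 2 * (34 * respErr β J y x h k ξ + 128 * (h ^ 2 * respQuart β J y x k ξ))) / n
  have hle : ∀ ξ, ((∑ i, φ (z i + D ξ i)) / n - (∑ i, φ (z i)) / n) ^ 2 ≤ bound ξ := fun ξ => by
    set e := fun i => φ (z i + D ξ i) - φ (z i) - p i * (√h * g ξ i)
    have he : ∑ i, e i ^ 2
        ≤ Cφ ^ 2 * (34 * respErr β J y x h k ξ + 128 * (h ^ 2 * respQuart β J y x k ξ)) := by
      simp only [respErr, respQuart, mul_sum, ← sum_add_distrib]
      refine sum_le_sum fun i _ => ?_
      have := incr_split hφ (z i) (√h * g ξ i) (D ξ i - √h * g ξ i)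
      simp only [add_sub_cancel, mul_pow] at this
      rw [show √h ^ 4 = (√h ^ 2) ^ 2 by ring, sq_sqrt hh] at this
      simp only [g, D, e, p] at this ⊢
      refine this.trans (le_of_eq ?_)
      ring
    have hsum : (∑ i, φ (z i + D ξ i)) - ∑ i, φ (z i) = √h * (∑ i, p i * g ξ i) + ∑ i, e i := by
      simp only [e, mul_sum, ← sum_add_distrib, ← sum_sub_distrib]
      exact sum_congr rfl fun i _ => by ring
    rw [← sub_div, div_pow, hsum, div_le_iff₀ (by positivity)]
    refine add_sq_le.trans ?_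
    have e1 : (√h * ∑ i, p i * g ξ i) ^ 2 = h * (∑ i, p i * g ξ i) ^ 2 := by
      rw [mul_pow, sq_sqrt hh]
    have h1 : (∑ i, e i) ^ 2 ≤ n * ∑ i, e i ^ 2 := by
      simpa using sq_sum_le_card_mul_sum_sq (s := univ) (f := e)
    have h2 := mul_le_mul_of_nonneg_left he hn'.le
    have e2 : bound ξ * (n:ℝ) ^ 2 = 2 * h * (∑ i, p i * g ξ i) ^ 2 + 2 * ((n:ℝ) * (Cφ ^ 2
        * (34 * respErr β J y x h k ξ + 128 * (h ^ 2 * respQuart β J y x k ξ)))) := by
      simp only [bound]
      field_simp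
    rw [e1, e2]
    linarith [h1.trans h2]
  have j12 : Integrable
      (fun ξ => 34 * respErr β J y x h k ξ + 128 * (h ^ 2 * respQuart β J y x k ξ)) μ :=
    (iE.const_mul 34).add ((i4.const_mul _).const_mul 128)
  have ja : Integrable (fun ξ => 2 * h * (∑ i, p i * g ξ i) ^ 2 / (n:ℝ) ^ 2) μ :=
    (iS.const_mul _).div_const _
  have jb : Integrable (fun ξ => 2 * (Cφ ^ 2 * (34 * respErr β J y x h k ξ
      + 128 * (h ^ 2 * respQuart β J y x k ξ))) / (n:ℝ)) μ :=
    ((j12.const_mul _).const_mul 2).div_const _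
  have ib : Integrable bound μ := ja.add jb
  simp only [avg, Fintype.card_fin, hz]
  refine (integral_mono_of_nonneg (ae_of_all _ fun ξ => sq_nonneg _) ib (ae_of_all _ hle)).trans ?_
  simp only [bound]
  rw [integral_add ja jb, integral_div, integral_div, integral_const_mul, integral_const_mul,
    integral_const_mul, integral_add (iE.const_mul 34) ((i4.const_mul _).const_mul 128),
    integral_const_mul, integral_const_mul, integral_const_mul]
  rw [Fintype.card_fin] at v4 vS
  have a1 : 2 * h * (∫ ξ, (∑ i, p i * g ξ i) ^ 2 ∂μ) / (n:ℝ) ^ 2 ≤ 2 * L * Cφ ^ 2 * (h / n) := by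
    rw [div_le_iff₀ (by positivity)]
    refine (mul_le_mul_of_nonneg_left vS (by positivity)).trans_eq ?_
    field_simp
    simp only [L]
    ring
  have a2 : 2 * (Cφ ^ 2 * (34 * (∫ ξ, respErr β J y x h k ξ ∂μ)
      + 128 * (h ^ 2 * ∫ ξ, respQuart β J y x k ξ ∂μ))) / n
      ≤ Cφ ^ 2 * (68 * K * (h ^ 2 + h / n) + 256 * (144 * L ^ 2) * h ^ 2) := by
    rw [div_le_iff₀ hn']
    refine (mul_le_mul_of_nonneg_left (mul_le_mul_of_nonneg_left (add_le_add
      (mul_le_mul_of_nonneg_left vE (by norm_num)) (mul_le_mul_of_nonneg_left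
        (mul_le_mul_of_nonneg_left v4 (sq_nonneg h)) (by norm_num))) (sq_nonneg Cφ))
      (by norm_num)).trans_eq ?_
    field_simp
    simp only [L]
    ring
  have : 0 ≤ Cφ ^ 2 * (256 * (144 * L ^ 2) * (h / n)) := by positivity
  have : 0 ≤ 2 * L * Cφ ^ 2 * h ^ 2 := by positivity
  linarith

end Vale.Agent.P150.Beta1.Profile
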