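import Vale.Agent.P150.Beta1.Profile.Drift
import Vale.Agent.P150.Beta1.Profile.Step
import Vale.Agent.P150.Beta1.Profile.Sigma

/-!
# Evolution of averages of the iterates along the localisation

For a slow scalar `s`, the increment of `avg φ (z_k)` over a step `h` has mean
`h E s σ_k avg (L φ)(z_k)` with `L = tanh ∂ + ∂²/2`; the overlap increments follow by induction
on the level.
-/

namespace Vale.Agent.P150.Beta1.Profile

open MeasureTheory ProbabilityTheory Finset Function Real
open Local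

variable {n : ℕ} {β : ℝ} {J : Fin n → Fin n → ℝ}

/-- The error of one step. -/
noncomputable def errE (J : Fin n → Fin n → ℝ) (F : (Fin n → Bool) → ℝ) (h : ℝ) : ℝ :=
  h * √h + h / √n + errN J F

/-- The variance rate as an observable. -/
noncomputable def sigO (β : ℝ) (J : Fin n → Fin n → ℝ) (k : ℕ) : Obs (Fin n) :=
  fun x y => sigA β J y (spins x) k

/-- The average of a function of an iterate as an observable. -/
noncomputable def avgO (β : ℝ) (J : Fin n → Fin n → ℝ) (φ : ℝ → ℝ) (k : ℕ) : Obs (Fin n) :=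
  fun x y => avg fun i => φ (ampZ β J y (spins x) k i)

/-- Increments of the squared norm of `ampA k`. -/
def OmegaAt (β : ℝ) (k : ℕ) : Prop :=
  ∃ m : ℕ, ∀ C, ∃ C', 0 ≤ C' ∧ ∀ (n : ℕ), 0 < n → ∀ (J : Fin n → Fin n → ℝ),
    GoodWords β m C J → ∀ F : (Fin n → Bool) → ℝ, (∀ x, 0 < F x) → mean (p0 J) F = 1 →
    ∀ u h : ℝ, 0 ≤ u → 0 ≤ h → h ≤ 1 → ∀ s : Obs (Fin n), (∀ x, Continuous (s x)) →
    (∀ y, SlowScalar C fun x => s x y) →
      |β ^ 2 * pE2 J F u h (fun x y y' => s x y
          * (qav (ampA β J y' (spins x) k) - qav (ampA β J y (spins x) k)))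
        - h * pE J F u (fun x y => s x y * (sigO β J k x y - 1))| ≤ C' * errE J F h

/-- Increments of averages of functions of `ampZ k`. -/
def StepAt (β : ℝ) (k : ℕ) : Prop :=
  ∃ m : ℕ, ∀ C, ∃ C', 0 ≤ C' ∧ ∀ (n : ℕ), 0 < n → ∀ (J : Fin n → Fin n → ℝ),
    GoodWords β m C J → ∀ F : (Fin n → Bool) → ℝ, (∀ x, 0 < F x) → mean (p0 J) F = 1 →
    ∀ u h : ℝ, 0 ≤ u → 0 ≤ h → h ≤ 1 → ∀ s : Obs (Fin n), (∀ x, Continuous (s x)) →
    (∀ y, SlowScalar C fun x => s x y) → ∀ φ : ℝ → ℝ, SmoothB C φ →
      |pE2 J F u h (fun x y y' => s x y * (avgO β J φ k x y' - avgO β J φ k x y))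
        - h * pE J F u (fun x y => s x y * sigO β J k x y * avgO β J (gen φ) k x y)|
        ≤ C' * errE J F h

lemma errN_le_errE {h : ℝ} (hh : 0 ≤ h) (F : (Fin n → Bool) → ℝ) : errN J F ≤ errE J F h := by
  rw [errE]
  exact le_add_of_nonneg_left (by positivity)

lemma errE_nonneg {h : ℝ} (hh : 0 ≤ h) (F : (Fin n → Bool) → ℝ) : 0 ≤ errE J F h :=
  le_trans (Real.sqrt_nonneg _) (errN_le_errE hh F)

lemma smooth2_of_smoothB {C : ℝ} {φ : ℝ → ℝ} (h : SmoothB C φ) :
    Smooth2 C φ (deriv φ) (deriv (deriv φ)) :=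
  fun t => ⟨h.d1 t, h.d2 t, h.b0 t, h.b1 t, h.b2 t⟩

lemma smooth2_deriv {C : ℝ} {φ : ℝ → ℝ} (h : SmoothB C φ) :
    Smooth2 C (deriv φ) (deriv (deriv φ)) (deriv (deriv (deriv φ))) :=
  fun t => ⟨h.d2 t, h.d3 t, h.b1 t, h.b2 t, h.b3 t⟩

lemma smooth2_div {C M : ℝ} {φ φ₁ φ₂ : ℝ → ℝ} (h : Smooth2 C φ φ₁ φ₂) (hM : 1 ≤ M) :
    Smooth2 C (fun t => φ t / M) (fun t => φ₁ t / M) (fun t => φ₂ t / M) := fun t => by
  have hb : ∀ {a : ℝ}, |a| ≤ C → |a / M| ≤ C := fun {a} ha => by
    rw [abs_div, abs_of_pos (zero_lt_one.trans_le hM)]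
    exact (div_le_self (abs_nonneg a) hM).trans ha
  exact ⟨(h t).1.div_const M, (h t).2.1.div_const M, hb (h t).2.2.1, hb (h t).2.2.2.1,
    hb (h t).2.2.2.2⟩

lemma slow_affine {A c₀ c : ℝ} {t : (Fin n → Bool) → ℝ} (ht : SlowScalar A t)
    (hc : |c₀| + |c| ≤ 1) : SlowScalar A fun x => c₀ + c * t x := by
  intro x
  have h1 : |c| ≤ 1 := le_trans (le_add_of_nonneg_left (abs_nonneg _)) hc
  refine ⟨(abs_add_le _ _).trans (le_trans ?_ hc), le_trans ?_ (slow_smul ht h1 x).2⟩
  · rw [abs_mul]
    exact add_le_add le_rfl (mul_le_of_le_one_right (abs_nonneg _) (ht x).1)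
  · refine le_of_eq (congrArg _ (sum_congr rfl fun j _ => ?_))
    simp only [deriv2]
    ring

/-- Crude bound of the variance rate. -/
noncomputable def sigB (β : ℝ) (k : ℕ) : ℝ := (1 + β ^ 2) ^ k

lemma one_le_sigB (β : ℝ) (k : ℕ) : 1 ≤ sigB β k :=
  one_le_pow₀ (le_add_of_nonneg_right (sq_nonneg β))

lemma avgO_mem {φ : ℝ → ℝ} (h : ∀ t, φ t ∈ Set.Icc (0:ℝ) 1) (k : ℕ) (x : Fin n → Bool)
    (y : Fin n → ℝ) : |avgO β J φ k x y| ≤ 1 :=
  abs_avg_le_of_le zero_le_one fun i => by rw [abs_of_nonneg (h _).1]; exact (h _).2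

lemma sigO_succ (k : ℕ) (x : Fin n → Bool) (y : Fin n → ℝ) :
    sigO β J (k + 1) x y = 1 + β ^ 2 * avgO β J vsq k x y * sigO β J k x y := by
  simp only [sigO, sigA_succ]
  rfl

lemma sigO_zero (x : Fin n → Bool) (y : Fin n → ℝ) : sigO β J 0 x y = 1 := rfl

lemma continuous_avgO {φ : ℝ → ℝ} (hφ : Continuous φ) (k : ℕ) (x : Fin n → Bool) :
    Continuous (avgO β J φ k x) :=
  (continuous_finsetSum _ fun i _ => hφ.comp ((continuous_apply i).comp
    (continuous_ampZ β J (spins x) k))).div_const _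

lemma continuous_sigO : ∀ (k : ℕ) (x : Fin n → Bool), Continuous (sigO β J k x)
  | 0, x => by simp only [funext (sigO_zero (β := β) (J := J) x)]; exact continuous_const
  | k + 1, x => by
    simp only [funext (sigO_succ (β := β) (J := J) k x)]
    exact continuous_const.add ((continuous_const.mul
      (continuous_avgO smoothB_vsq.continuous k x)).mul (continuous_sigO k x))

/-- The variance rate is slow. -/
lemma slow_sig (hGr : GradStatement β) : ∀ k : ℕ, ∃ m : ℕ, ∀ C, ∃ C', 0 ≤ C' ∧
    ∀ (n : ℕ) (J : Fin n → Fin n → ℝ), GoodWords β m C J → ∀ y : Fin n → ℝ,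
      SlowScalar C' fun x => sigO β J k x y / sigB β k
  | 0 => ⟨0, fun C => ⟨0, le_rfl, fun n J _ y => by
      simp only [sigO_zero, sigB, pow_zero, div_one]
      exact slow_cst (by simp)⟩⟩
  | k + 1 => by
    obtain ⟨m₀, h₀⟩ := slow_sig hGr k
    obtain ⟨m₁, h₁⟩ := hGr k
    refine ⟨max m₀ m₁, fun C => ?_⟩
    obtain ⟨C₀, hC₀, hs₀⟩ := h₀ C
    obtain ⟨Cg₀, hg₀⟩ := h₁ C
    set Cg := max Cg₀ 0
    refine ⟨2 * (2 * 300 ^ 2 * Cg + 8 * 300 ^ 2 * Cg ^ 2) + 2 * C₀, by positivity,
      fun n J hG y => ?_⟩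
    have hgb : GradBound β J y k Cg := fun a x =>
      (hg₀ n J y a x (goodWords_mono hG (le_max_right _ _) le_rfl)).trans
        (mul_le_mul_of_nonneg_right (le_max_left _ _) (sum_nonneg fun i _ => sq_nonneg _))
    have h1 := slow_avg (le_max_right _ _) hgb (by norm_num) (smooth2_of_smoothB smoothB_vsq)
      fun t => by rw [abs_of_nonneg (vsq_mem t).1]; exact (vsq_mem t).2
    have h2 := hs₀ n J (goodWords_mono hG (le_max_left _ _) le_rfl) y
    have hB : (0:ℝ) < sigB β k := zero_lt_one.trans_le (one_le_sigB β k)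
    have hB' : (0:ℝ) < sigB β (k + 1) := zero_lt_one.trans_le (one_le_sigB β (k + 1))
    have e : sigB β (k + 1) = sigB β k * (1 + β ^ 2) := pow_succ _ _
    have hc : |1 / sigB β (k + 1)| + |β ^ 2 * sigB β k / sigB β (k + 1)| ≤ 1 := by
      rw [abs_of_pos (one_div_pos.2 hB'), abs_of_nonneg (by positivity), ← add_div,
        div_le_one hB', e]
      linarith [one_le_sigB β k]
    refine fun x => ?_
    have h3 := slow_affine (slow_mul h1 h2) hc x
    have e2 : (fun x => sigO β J (k + 1) x y / sigB β (k + 1)) = fun x => 1 / sigB β (k + 1)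
        + β ^ 2 * sigB β k / sigB β (k + 1) * ((avg fun i => vsq (ampZ β J y (spins x) k i))
          * (sigO β J k x y / sigB β k)) := by
      funext z
      rw [sigO_succ, avgO]
      field_simp
    rw [e2]
    exact h3

variable {F : (Fin n → Bool) → ℝ} {u h : ℝ}

lemma bddCont2_fst {f : Obs (Fin n)} (hc : ∀ x, Continuous (f x)) {B : ℝ}
    (hB : ∀ x y, |f x y| ≤ B) : BddCont2 fun x y _ => f x y :=
  ⟨B, fun x => ⟨(hc x).comp continuous_fst, fun y _ => hB x y⟩⟩

lemma pE_add {f g : Obs (Fin n)} (hf : BddCont2 fun x y _ => f x y)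
    (hg : BddCont2 fun x y _ => g x y) :
    pE J F u (fun x y => f x y + g x y) = pE J F u f + pE J F u g := by
  rw [← pE2_fst J F u 0, ← pE2_fst J F u 0 f, ← pE2_fst J F u 0 g]
  exact pE2_add (hf.int2 u 0) (hg.int2 u 0)

/-- A pointwise bound on the inner average bounds the two-time mean. -/
lemma abs_pE2_le_inner (hF : ∀ x, 0 < F x) (hm : mean (p0 J) F = 1) {Φ : Obs2 (Fin n)} {B : ℝ}
    (hb : ∀ x y, |∫ ξ', Φ x y (nfield h x y ξ') ∂gauss (Fin n)| ≤ B) :
    |pE2 J F u h Φ| ≤ B := by
  refine (abs_sum_le_sum_abs _ _).trans ((sum_le_sum (g := fun x => p0 J x * F x * B)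
    fun x _ => ?_).trans (le_of_eq ?_))
  · rw [abs_mul, abs_of_nonneg (pF_nonneg J hF x)]
    refine mul_le_mul_of_nonneg_left ?_ (pF_nonneg J hF x)
    have := norm_integral_le_of_norm_le_const (μ := gauss (Fin n)) (C := B)
      (f := fun ξ => ∫ ξ', Φ x (pfield u x ξ) (nfield h x (pfield u x ξ) ξ') ∂gauss (Fin n))
      (ae_of_all _ fun ξ => (Real.norm_eq_abs _).le.trans (hb x _))
    simpa [Real.norm_eq_abs] using this
  · rw [← sum_mul, show ∑ x, p0 J x * F x = mean (p0 J) F from rfl, hm, one_mul]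

lemma integrable_shift (hn : 0 < n) (y : Fin n → ℝ) (x : Fin n → Bool) (h : ℝ) (k : ℕ)
    (i : Fin n) :
    Integrable (fun ξ => ampZ β J (nfield h x y ξ) (spins x) k i) (gauss (Fin n)) := by
  have hc : Continuous fun ξ : Fin n → ℝ => nfield h x y ξ := by unfold nfield; fun_prop
  have hA : ∀ y' l j, |ampA β J y' (spins x) l j| ≤ 1 := fun y' l j => Rule.abs_ampA_le β J y' x l j
  have h1 : Integrable (fun ξ : Fin n → ℝ => ξ i) (gauss (Fin n)) :=
    (measurePreserving_eval (fun _ : Fin n => gaussianReal 0 1) i).integrable_comp_of_integrable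
      ((memLp_id_gaussianReal 1).integrable le_rfl)
  refine (((integrable_const (|y i| + |h| + (∑ l, |J i l|) + β ^ 2)).fun_add
    (h1.abs.const_mul √h))).mono' (((continuous_apply i).comp
      (continuous_ampZ β J (spins x) k)).comp hc).aestronglyMeasurable (ae_of_all _ fun ξ => ?_)
  rw [Real.norm_eq_abs, ampZ_eq hn]
  set y' := nfield h x y ξ
  have a1 : |act J (ampA β J y' (spins x) k) i| ≤ ∑ l, |J i l| :=
    (abs_sum_le_sum_abs _ _).trans (sum_le_sum fun l _ => by
      rw [abs_mul]; exact mul_le_of_le_one_right (abs_nonneg _) (hA y' k l))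
  have a2 : |onsager β (ampA β J y' (spins x) k) * ampA β J y' (spins x) (k - 1) i| ≤ β ^ 2 := by
    rw [abs_mul]
    exact (mul_le_of_le_one_right (abs_nonneg _) (hA y' _ i)).trans (Rule.abs_onsager_le β (hA y' k))
  have a3 : |y' i| ≤ |y i| + |h| + √h * |ξ i| := by
    simp only [y', nfield]
    refine (abs_add_le _ _).trans ?_
    have := abs_add_le (h * spins x i) (√h * ξ i)
    rw [abs_mul, abs_mul, abs_of_nonneg (Real.sqrt_nonneg h)] at this
    have := mul_le_of_le_one_right (abs_nonneg h) (Rule.abs_spins_le x i)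
    linarith
  refine (abs_sub _ _).trans ?_
  linarith [abs_add_le (y' i) (act J (ampA β J y' (spins x) k) i)]

theorem step_of_omega (hT : TestsStatement β) (hGr : GradStatement β) (k : ℕ)
    (hΩ : OmegaAt β k) : StepAt β k := by
  obtain ⟨md, hd⟩ := drift hT hGr k
  obtain ⟨mo, ho⟩ := hΩ
  obtain ⟨mt, ht⟩ := hT k
  obtain ⟨mg, hg⟩ := hGr k
  obtain ⟨ms, hsig⟩ := slow_sig hGr k
  refine ⟨max (max md mo) (max (max mt mg) (max ms (2 * k))), fun C => ?_⟩
  set M := max C 1
  set B := sigB β k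
  obtain ⟨Cs, hCs, hsC⟩ := hsig C
  obtain ⟨Cg₀, hgC⟩ := hg C
  set Cg := max Cg₀ 0
  set Co := 2 * (2 * M ^ 2 * Cg + 8 * M ^ 2 * Cg ^ 2) + 18
  set C3 := max (max M (2 * |C| + 2 * Co)) (2 * |C| + 2 * Cs)
  obtain ⟨Cd, hCd, hdC⟩ := hd C
  obtain ⟨CO, hCO, hoC⟩ := ho C3
  obtain ⟨Ct₀, htC⟩ := ht C3
  obtain ⟨Ce, hCe, heC⟩ := avg_expand β C k
  set Ct := max Ct₀ 0
  have hM0 : (0:ℝ) ≤ M := zero_le_one.trans (le_max_right _ _)
  have hB0 : (0:ℝ) ≤ B := zero_le_one.trans (one_le_sigB β k)
  refine ⟨Ce * |C| + Cd + M * CO + (k + 1) * (M * B * Ct),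
    add_nonneg (add_nonneg (add_nonneg (mul_nonneg hCe (abs_nonneg C)) hCd) (mul_nonneg hM0 hCO))
      (mul_nonneg (Nat.cast_add_one_pos k).le
        (mul_nonneg (mul_nonneg hM0 hB0) (le_max_right _ _))),
    fun n hn J hG F hF hm u h hu hh hh1 s hsc hs φ hφ => ?_⟩
  have hC : 0 ≤ C := hφ.nonneg
  have hn' : (0 : ℝ) < n := Nat.cast_pos.2 hn
  have hM : 1 ≤ M := le_max_right _ _
  have hB : 1 ≤ B := one_le_sigB β k
  have hCM : C ≤ C3 := (le_max_left C 1).trans ((le_max_left _ _).trans (le_max_left _ _))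
  have habs : ∀ x y, |s x y| ≤ 1 := fun x y => (hs y x).1
  have hE := errE_nonneg (J := J) hh F
  have hNE := errN_le_errE (J := J) hh F
  set ψ := fun t => deriv φ t / M
  have hψ : Smooth2 C ψ _ _ := smooth2_div (smooth2_deriv hφ) hM
  have hψ1 : ∀ t, |ψ t| ≤ 1 := fun t => by
    simp only [ψ]
    rw [abs_div, abs_of_pos (zero_lt_one.trans_le hM), div_le_one (zero_lt_one.trans_le hM)]
    exact (hφ.b1 t).trans (le_max_left _ _)
  have hψc : Continuous ψ := hφ.continuous_d1.div_const M
  have hgb : ∀ y, GradBound β J y k Cg := fun y a x =>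
    (hgC n J y a x (goodWords_mono hG ((le_max_right _ _).trans ((le_max_left _ _).trans
      (le_max_right _ _))) le_rfl)).trans
      (mul_le_mul_of_nonneg_right (le_max_left _ _) (sum_nonneg fun i _ => sq_nonneg _))
  set σ := sigO β J k
  have hσs : ∀ y, SlowScalar Cs fun x => σ x y / B :=
    hsC n J (goodWords_mono hG ((le_max_left _ _).trans ((le_max_right _ _).trans
      (le_max_right _ _))) le_rfl)
  have hσB : ∀ x y, |σ x y| ≤ B := fun x y => by
    have := (hσs y x).1
    rwa [abs_div, abs_of_pos (zero_lt_one.trans_le hB), div_le_one (zero_lt_one.trans_le hB)] at this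
  set a1 := fun x y => s x y * ovl β J (deriv φ) k x y
  set a2 := fun x y => s x y * σ x y * avgO β J (deriv (deriv φ)) k x y
  set a3 := fun x y => s x y * σ x y
    * (ovl β J (deriv φ) k x y - avgO β J (fun t => tanh t * deriv φ t) k x y)
  have cz : ∀ x i, Continuous fun y : Fin n → ℝ => ampZ β J y (spins x) k i := fun x i =>
    (continuous_apply i).comp (continuous_ampZ β J (spins x) k)
  have co : ∀ {f : ℝ → ℝ}, Continuous f → ∀ x, Continuous (ovl β J f k x) := fun hf x =>
    (continuous_finsetSum _ fun i _ => (hf.comp (cz x i)).mul continuous_const).div_const _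
  have bo : ∀ x y, |ovl β J (deriv φ) k x y| ≤ M := fun x y =>
    abs_avg_le_of_le (zero_le_one.trans hM) fun i => by
      rw [abs_mul]
      exact (mul_le_of_le_one_right (abs_nonneg _) (Rule.abs_spins_le x i)).trans
        ((hφ.b1 _).trans (le_max_left _ _))
  -- 1. expansion
  set Φ1 : Obs2 (Fin n) := fun x y y' => s x y * (avgO β J φ k x y' - avgO β J φ k x y)
  set Φ2 : Obs2 (Fin n) := fun x y y' => s x y * avg fun i => deriv φ (ampZ β J y (spins x) k i)
    * (ampZ β J y' (spins x) k i - ampZ β J y (spins x) k i)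
  set Φ3 : Obs2 (Fin n) := fun x y _ => h / 2 * a2 x y
  obtain ⟨i2, hdrift⟩ := hdC n hn J (goodWords_mono hG ((le_max_left _ _).trans (le_max_left _ _))
    le_rfl) F hF hm u h hu hh s hsc hs _ _ _ (smooth2_deriv hφ)
  have hc1 := continuous_avgO (β := β) (J := J) hφ.continuous k
  have b0 : ∀ x y, |avgO β J φ k x y| ≤ C := fun x y => abs_avg_le_of_le hC fun i => hφ.b0 _
  have hΦ1 : BddCont2 Φ1 := ⟨C + C, fun x => ⟨((hsc x).comp continuous_fst).mul
    (((hc1 x).comp continuous_snd).sub ((hc1 x).comp continuous_fst)), fun y y' => by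
      rw [abs_mul]
      exact (mul_le_of_le_one_left (abs_nonneg _) (habs x y)).trans
        ((abs_sub _ _).trans (add_le_add (b0 x y') (b0 x y)))⟩⟩
  have c2 : ∀ x, Continuous (a2 x) := fun x =>
    ((hsc x).mul (continuous_sigO k x)).mul (continuous_avgO hφ.continuous_d2 k x)
  have b2 : ∀ x y, |a2 x y| ≤ B * C := fun x y => by
    rw [abs_mul, abs_mul]
    exact mul_le_mul ((mul_le_of_le_one_left (abs_nonneg _) (habs x y)).trans (hσB x y))
      (abs_avg_le_of_le hC fun i => hφ.b2 _) (abs_nonneg _) (zero_le_one.trans hB)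
  have hΦ3 : Int2 u h Φ3 := ((bddCont2_fst c2 b2).int2 u h).smul _
  have e1 : |pE2 J F u h (fun x y y' => Φ1 x y y' - Φ2 x y y' - Φ3 x y y')|
      ≤ Ce * |C| * errE J F h := by
    refine abs_pE2_le_inner hF hm fun x y => ?_
    have he := heC n (max (max md mo) (max (max mt mg) (max ms (2 * k)))) J y (spins x) h C φ hh hh1
      (Rule.abs_spins_le x) (by omega) hG hφ
    set z := ampZ β J y (spins x) k
    have iA : Integrable (fun ξ => avgO β J φ k x (nfield h x y ξ)) (gauss (Fin n)) :=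
      Integrable.of_bound ((hc1 x).comp (by unfold nfield; fun_prop)).aestronglyMeasurable C
        (ae_of_all _ fun ξ => (Real.norm_eq_abs _).le.trans (b0 x _))
    have iD : Integrable (fun ξ => avg fun i => deriv φ (z i)
        * (ampZ β J (nfield h x y ξ) (spins x) k i - z i)) (gauss (Fin n)) := by
      simp only [avg]
      exact (integrable_finsetSum _ fun i _ =>
        ((integrable_shift hn y x h k i).sub' (integrable_const _)).const_mul _).div_const _
    have iA' := iA.sub' (integrable_const (avgO β J φ k x y))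
    have e : ∫ ξ', (Φ1 x y (nfield h x y ξ') - Φ2 x y (nfield h x y ξ') - Φ3 x y (nfield h x y ξ'))
        ∂gauss (Fin n) = s x y * ((∫ ξ, avgO β J φ k x (nfield h x y ξ) ∂gauss (Fin n))
          - avgO β J φ k x y - (∫ ξ, avg (fun i => deriv φ (z i)
              * (ampZ β J (nfield h x y ξ) (spins x) k i - z i)) ∂gauss (Fin n))
          - h / 2 * σ x y * avgO β J (deriv (deriv φ)) k x y) := by
      have r : ∀ ξ, Φ1 x y (nfield h x y ξ) - Φ2 x y (nfield h x y ξ) - Φ3 x y (nfield h x y ξ)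
          = s x y * ((avgO β J φ k x (nfield h x y ξ) - avgO β J φ k x y)
            - (avg fun i => deriv φ (z i) * (ampZ β J (nfield h x y ξ) (spins x) k i - z i))
            - h / 2 * σ x y * avgO β J (deriv (deriv φ)) k x y) := fun ξ => by
        simp only [Φ1, Φ2, Φ3, a2, z]; ring
      simp only [r, integral_const_mul]
      rw [integral_sub (iA'.sub' iD) (integrable_const _), integral_sub iA' iD,
        integral_sub iA (integrable_const _)]
      simp only [integral_const, probReal_univ, one_smul]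
    rw [e, abs_mul]
    refine (mul_le_of_le_one_left (abs_nonneg _) (habs x y)).trans (le_trans he ?_)
    rw [abs_of_nonneg hC, errE]
    exact mul_le_mul_of_nonneg_left (le_add_of_nonneg_right (Real.sqrt_nonneg _))
      (mul_nonneg hCe hC)
  rw [pE2_sub ((hΦ1.int2 u h).sub i2) hΦ3, pE2_sub (hΦ1.int2 u h) i2] at e1
  have e1' : pE2 J F u h Φ3 = h / 2 * pE J F u a2 := by
    simp only [Φ3, pE2_smul, pE2_fst]
  rw [e1'] at e1
  -- 2. the overlap increment
  set s' := fun x y => s x y * ovl β J ψ k x y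
  have hs' : ∀ y, SlowScalar C3 fun x => s' x y := fun y => by
    have h2 := slow_overlap (le_max_right _ _) (hgb y) (zero_le_one.trans hM)
      (φ := ψ) (φ₁ := fun t => deriv (deriv φ) t / M) (φ₂ := fun t => deriv (deriv (deriv φ)) t / M)
      (fun t => ⟨(hψ t).1, (hψ t).2.1, (hψ t).2.2.1.trans (le_max_left _ _),
        (hψ t).2.2.2.1.trans (le_max_left _ _), (hψ t).2.2.2.2.trans (le_max_left _ _)⟩) hψ1
    exact slow_mono (slow_mul (hs y) h2) (le_trans (by linarith [le_abs_self C])
      ((le_max_right M _).trans (le_max_left _ _)))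
  have hsc' : ∀ x, Continuous (s' x) := fun x => (hsc x).mul (co hψc x)
  have e2 := hoC n hn J (goodWords_mono hG ((le_max_right _ _).trans (le_max_left _ _)) hCM) F hF hm
    u h hu hh hh1 s' hsc' hs'
  have eo : ∀ x y, a1 x y = M * s' x y := fun x y => by
    simp only [a1, s', ovl, avg, ψ, div_mul_eq_mul_div, ← sum_div]
    field_simp
  have eq2 : pE2 J F u h (fun x y y' => s x y * ovl β J (deriv φ) k x y
        * (qav (ampA β J y' (spins x) k) - qav (ampA β J y (spins x) k)))
      = M * pE2 J F u h (fun x y y' => s' x y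
        * (qav (ampA β J y' (spins x) k) - qav (ampA β J y (spins x) k))) := by
    rw [← pE2_smul]
    refine congrArg (pE2 J F u h) (funext₃ fun x y y' => ?_)
    rw [← mul_assoc, ← eo]
  have eq3 : pE J F u (fun x y => a1 x y * (σ x y - 1))
      = M * pE J F u (fun x y => s' x y * (σ x y - 1)) := by
    rw [← pE_smul]
    refine congrArg (pE J F u) (funext₂ fun x y => ?_)
    rw [← mul_assoc, ← eo]
  have e2' : |β ^ 2 * pE2 J F u h (fun x y y' => s x y * ovl β J (deriv φ) k x y
        * (qav (ampA β J y' (spins x) k) - qav (ampA β J y (spins x) k)))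
      - h * pE J F u (fun x y => a1 x y * (σ x y - 1))| ≤ M * CO * errE J F h := by
    rw [eq2, eq3, show ∀ a b : ℝ, β ^ 2 * (M * a) - h * (M * b) = M * (β ^ 2 * a - h * b) from
      fun a b => by ring, abs_mul, abs_of_nonneg (zero_le_one.trans hM), mul_assoc]
    exact mul_le_mul_of_nonneg_left e2 (zero_le_one.trans hM)
  -- 3. the configuration against `tanh`
  have hG3 : GoodWords β mt C3 J :=
    goodWords_mono hG ((le_max_left _ _).trans ((le_max_left _ _).trans (le_max_right _ _))) hCM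
  have hw : ∀ y, SlowScalar C3 fun x => s x y * (σ x y / B) := fun y =>
    slow_mono (slow_mul (hs y) (hσs y)) (le_trans (by linarith [le_abs_self C]) (le_max_right _ _))
  set R : ℕ → Obs (Fin n) := fun j x y =>
    s x y * (σ x y / B) * avg fun i => ψ (ampZ β J y (spins x) k i) * ampD β J y (spins x) j i
  have cR : ∀ j x, Continuous (R j x) := fun j x =>
    ((hsc x).mul ((continuous_sigO k x).div_const B)).mul ((continuous_finsetSum _ fun i _ =>
      (hψc.comp (cz x i)).mul (((continuous_apply i).comp (continuous_ampA' x j)).sub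
        ((continuous_apply i).comp (continuous_ampA' x (j + 1))))).div_const _)
  have bR : ∀ j x y, |R j x y| ≤ 2 := fun j x y => by
    rw [abs_mul]
    refine (mul_le_of_le_one_left (abs_nonneg _) (hw y x).1).trans
      (abs_avg_le_of_le zero_le_two fun i => ?_)
    rw [abs_mul]
    exact (mul_le_of_le_one_left (abs_nonneg _) (hψ1 _)).trans (abs_ampD_le y x j i)
  have tR : ∀ j, j ≤ k → |pE J F u (R j)| ≤ Ct * errN J F := fun j hj => by
    have hb : ∀ y, |tmean (gibbs J y) F (fun x => R j x y)|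
        ≤ Ct / √n * √(tdir (gibbs J y) F + 1) := fun y => by
      have h0 := (htC n J y y F _ ψ _ _ hG3 hF (hw y) (fun t => ⟨(hψ t).1, (hψ t).2.1,
        (hψ t).2.2.2.1.trans hCM, (hψ t).2.2.2.2.trans hCM⟩) (fun x => by
          refine (sum_le_sum fun i _ => (sq_le_one_iff_abs_le_one _).2 (hψ1 _)).trans ?_
          simpa using le_mul_of_one_le_left hn'.le ((le_max_right C 1).trans
            ((le_max_left _ _).trans (le_max_left _ _)))) j hj).1
      have e : ∀ x, R j x y = (n:ℝ)⁻¹ * (s x y * (σ x y / B)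
          * ∑ i, ψ (ampZ β J y (spins x) k i) * ampD β J y (spins x) j i) := fun x => by
        simp only [R, avg, Fintype.card_fin]; ring
      simp only [e, tmean_mul, abs_mul, abs_inv, Nat.abs_cast]
      refine (mul_le_mul_of_nonneg_left (h0.trans (mul_le_mul_of_nonneg_right
        (mul_le_mul_of_nonneg_right (le_max_left Ct₀ 0) (Real.sqrt_nonneg _))
        (Real.sqrt_nonneg _))) (inv_nonneg.2 hn'.le)).trans (le_of_eq ?_)
      have hsn : √(n:ℝ) ≠ 0 := (Real.sqrt_pos.2 hn').ne'
      field_simp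
      rw [Real.sq_sqrt hn'.le]
      ring
    refine (abs_pE_le hF hm hu (cR j) (bR j) (div_nonneg (le_max_right _ _) (Real.sqrt_nonneg _))
      hb).trans (le_of_eq ?_)
    rw [errN, Real.sqrt_div' _ hn'.le]
    ring
  have ea3 : ∀ x y, a3 x y = M * B * ∑ j ∈ range (k + 1), R j x y := fun x y => by
    have e : ∀ i, deriv φ (ampZ β J y (spins x) k i) * spins x i
        - tanh (ampZ β J y (spins x) k i) * deriv φ (ampZ β J y (spins x) k i)
        = M * ∑ j ∈ range (k + 1), ψ (ampZ β J y (spins x) k i) * ampD β J y (spins x) j i := by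
      intro i
      have h1 := ampA_eq_sub (β := β) (J := J) y x (k + 1) i
      have h2 : ampA β J y (spins x) (k + 1) i = tanh (ampZ β J y (spins x) k i) := rfl
      rw [← mul_sum, show M * (ψ (ampZ β J y (spins x) k i)
          * ∑ j ∈ range (k + 1), ampD β J y (spins x) j i)
        = deriv φ (ampZ β J y (spins x) k i) * ∑ j ∈ range (k + 1), ampD β J y (spins x) j i by
        simp only [ψ]; field_simp]
      rw [h2] at h1
      linear_combination -(deriv φ (ampZ β J y (spins x) k i)) * h1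
    have e' : ovl β J (deriv φ) k x y - avgO β J (fun t => tanh t * deriv φ t) k x y
        = avg fun i => M * ∑ j ∈ range (k + 1),
            ψ (ampZ β J y (spins x) k i) * ampD β J y (spins x) j i := by
      simp only [← e, ovl, avgO, avg, sum_sub_distrib, sub_div]
    simp only [a3, e', R, avg, mul_sum, sum_div]
    rw [sum_comm]
    refine sum_congr rfl fun j _ => sum_congr rfl fun i _ => ?_
    have := (zero_lt_one.trans_le hB).ne'
    field_simp
  have iR : ∀ j, BddCont2 fun x y _ => R j x y := fun j => bddCont2_fst (cR j) (bR j)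
  have e3 : |pE J F u a3| ≤ (k + 1) * (M * B * Ct) * errE J F h := by
    rw [show a3 = fun x y => M * B * ∑ j ∈ range (k + 1), R j x y from funext₂ ea3, pE_smul,
      ← pE2_fst J F u 0, pE2_sum _ fun j _ => (iR j).int2 u 0]
    simp only [pE2_fst]
    rw [abs_mul, abs_of_nonneg (mul_nonneg (zero_le_one.trans hM) (zero_le_one.trans hB))]
    refine (mul_le_mul_of_nonneg_left ((abs_sum_le_sum_abs _ _).trans
      (sum_le_sum fun j hj => tR j (by have := mem_range.1 hj; omega)))
      (mul_nonneg (zero_le_one.trans hM) (zero_le_one.trans hB))).trans ?_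
    rw [sum_const, card_range, nsmul_eq_mul]
    push_cast
    calc M * B * ((k + 1) * (Ct * errN J F)) = (k + 1) * (M * B * Ct) * errN J F := by ring
      _ ≤ _ := mul_le_mul_of_nonneg_left hNE (by positivity)
  -- assembly
  have i1 : BddCont2 fun x y _ => a1 x y := bddCont2_fst (fun x => (hsc x).mul
    (co hφ.continuous_d1 x)) (B := M) fun x y => by
      rw [abs_mul]; exact (mul_le_of_le_one_left (abs_nonneg _) (habs x y)).trans (bo x y)
  have i1' : BddCont2 fun x y _ => a1 x y * (σ x y - 1) := bddCont2_fst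
    (fun x => ((hsc x).mul (co hφ.continuous_d1 x)).mul ((continuous_sigO k x).sub continuous_const))
    (B := M * (B + 1)) fun x y => by
      rw [abs_mul, abs_mul]
      refine mul_le_mul ((mul_le_of_le_one_left (abs_nonneg _) (habs x y)).trans (bo x y))
        ((abs_sub _ _).trans (by rw [abs_one]; linarith [hσB x y])) (abs_nonneg _)
        (zero_le_one.trans hM)
  have cg : Continuous fun t => tanh t * deriv φ t := continuous_tanh'.mul hφ.continuous_d1
  have i3 : BddCont2 fun x y _ => a3 x y := bddCont2_fst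
    (fun x => ((hsc x).mul (continuous_sigO k x)).mul ((co hφ.continuous_d1 x).sub
      (continuous_avgO cg k x))) (B := B * (M + C)) fun x y => by
      rw [abs_mul, abs_mul]
      refine mul_le_mul ((mul_le_of_le_one_left (abs_nonneg _) (habs x y)).trans (hσB x y))
        ((abs_sub _ _).trans (add_le_add (bo x y) (abs_avg_le_of_le hC fun i => ?_))) (abs_nonneg _)
        (zero_le_one.trans hB)
      rw [abs_mul]
      exact (mul_le_of_le_one_left (abs_nonneg _) (abs_tanh_lt_one _).le).trans (hφ.b1 _)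
  have i2' := bddCont2_fst c2 b2
  have ig : BddCont2 fun x y _ => s x y * σ x y * avgO β J (gen φ) k x y := bddCont2_fst
    (fun x => ((hsc x).mul (continuous_sigO k x)).mul (continuous_avgO
      (cg.add (hφ.continuous_d2.div_const 2)) k x)) (B := B * (2 * C)) fun x y => by
      rw [abs_mul, abs_mul]
      refine mul_le_mul ((mul_le_of_le_one_left (abs_nonneg _) (habs x y)).trans (hσB x y))
        (abs_avg_le_of_le (by linarith) fun i => ?_) (abs_nonneg _) (zero_le_one.trans hB)
      refine (abs_add_le _ _).trans ?_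
      rw [abs_mul, abs_div, abs_two]
      linarith [(mul_le_of_le_one_left (abs_nonneg _)
        (abs_tanh_lt_one (ampZ β J y (spins x) k i)).le).trans
          (hφ.b1 (ampZ β J y (spins x) k i)), hφ.b2 (ampZ β J y (spins x) k i)]
  have esum : pE J F u a1 + pE J F u (fun x y => a1 x y * (σ x y - 1))
      = pE J F u a3 + (pE J F u (fun x y => s x y * σ x y * avgO β J (gen φ) k x y)
        - 1 / 2 * pE J F u a2) := by
    have hp : (fun x y => a1 x y + a1 x y * (σ x y - 1))
        = fun x y => a3 x y + (s x y * σ x y * avgO β J (gen φ) k x y + -(1/2) * a2 x y) := by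
      funext x y
      simp only [a1, a2, a3, avgO, avg, gen, sum_add_distrib, ← sum_div]
      ring
    have hi : BddCont2 fun x y _ => -(1/2 : ℝ) * a2 x y := bddCont2_fst
      (fun x => continuous_const.mul (c2 x)) (B := B * C) fun x y => by
        rw [abs_mul]; exact (mul_le_of_le_one_left (abs_nonneg _) (by norm_num)).trans (b2 x y)
    have hi2 : BddCont2 fun x y _ => s x y * σ x y * avgO β J (gen φ) k x y
        + -(1/2 : ℝ) * a2 x y := by
      obtain ⟨B1, h1⟩ := ig
      obtain ⟨B2, h2⟩ := hi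
      exact ⟨B1 + B2, fun x => ⟨(h1 x).1.add (h2 x).1,
        fun y y' => (abs_add_le _ _).trans (add_le_add ((h1 x).2 y y') ((h2 x).2 y y'))⟩⟩
    rw [← pE_add i1 i1', hp, pE_add i3 hi2, pE_add ig hi, pE_smul]
    ring
  set P1 := pE2 J F u h Φ1
  set P2 := pE2 J F u h Φ2
  set G0 := pE J F u fun x y => s x y * σ x y * avgO β J (gen φ) k x y
  have hd' : |P2 - (h * pE J F u a1 + β ^ 2 * pE2 J F u h (fun x y y' => s x y
        * ovl β J (deriv φ) k x y * (qav (ampA β J y' (spins x) k) - qav (ampA β J y (spins x) k))))|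
      ≤ Cd * errE J F h := hdrift.trans (mul_le_mul_of_nonneg_left hNE hCd)
  have e3h : |h * pE J F u a3| ≤ (k + 1) * (M * B * Ct) * errE J F h := by
    rw [abs_mul, abs_of_nonneg hh]
    exact (mul_le_of_le_one_left (abs_nonneg _) hh1).trans e3
  change |P1 - h * G0| ≤ _
  rw [abs_le] at e1 e2' e3h hd' ⊢
  have hsum := congrArg (h * ·) esum
  constructor <;> linarith [e1.1, e1.2, e2'.1, e2'.2, e3h.1, e3h.2, hd'.1, hd'.2]

theorem omega_succ (hT : TestsStatement β) (k : ℕ) (hS : StepAt β k) : OmegaAt β (k + 1) := by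
  obtain ⟨m, hm⟩ := hS
  refine ⟨m, fun C => ?_⟩
  obtain ⟨C', hC', h⟩ := hm (max C 16)
  refine ⟨β ^ 2 * C', mul_nonneg (sq_nonneg β) hC', fun n hn J hG F hF hmass u h' hu hh hh1 s hsc hs
    => ?_⟩
  have h0 := h n hn J (goodWords_mono hG le_rfl (le_max_left _ _)) F hF hmass u h' hu hh hh1 s hsc
    (fun y => slow_mono (hs y) (le_max_left _ _)) tsq (smoothB_tsq.mono (le_max_right _ _))
  rw [gen_tsq] at h0
  have e : ∀ x y, qav (ampA β J y (spins x) (k + 1)) = avgO β J tsq k x y := fun x y => rfl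
  have e2 : (fun x y => s x y * (sigO β J (k + 1) x y - 1))
      = fun x y => β ^ 2 * (s x y * sigO β J k x y * avgO β J vsq k x y) := by
    funext x y
    rw [sigO_succ]
    ring
  simp only [e, e2, pE_smul]
  rw [show ∀ P G : ℝ, β ^ 2 * P - h' * (β ^ 2 * G) = β ^ 2 * (P - h' * G) from fun P G => by ring,
    abs_mul, abs_of_nonneg (sq_nonneg β), mul_assoc]
  exact mul_le_mul_of_nonneg_left h0 (sq_nonneg β)

theorem omega_zero (β : ℝ) : OmegaAt β 0 := by
  refine ⟨0, fun C => ⟨0, le_rfl, fun n hn J _ F _ _ u h _ _ _ s _ _ => ?_⟩⟩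
  simp [sigO_zero, ampA, pE2, pE]

/-- The increments at every level. -/
theorem stepAt (hT : TestsStatement β) (hGr : GradStatement β) : ∀ k, StepAt β k := by
  intro k
  refine step_of_omega hT hGr k ?_
  induction k with
  | zero => exact omega_zero β
  | succ k ih => exact omega_succ hT k (step_of_omega hT hGr k ih)

end Vale.Agent.P150.Beta1.Profile
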