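import Mathlib

/-!
# The discrete Gronwall bounds of the profile

A chain `Y (l+1) ≤ (1+h) Y l + a l`, and a family of levels coupled by a contraction and by sums
along the grid: in the weight `exp (-M i h)` the sums are small, so the levels decay geometrically.
-/

namespace Vale.Agent.P150.Beta1.Profile

open Finset Real

/-- Discrete Gronwall. -/
theorem chain_bound {h : ℝ} (hh : 0 ≤ h) {Y a : ℕ → ℝ} {i : ℕ} (h0 : 0 ≤ Y 0)
    (ha : ∀ l < i, 0 ≤ a l) (hs : ∀ l < i, Y (l + 1) ≤ (1 + h) * Y l + a l) :
    Y i ≤ exp (i * h) * (Y 0 + ∑ l ∈ range i, a l) := by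
  induction i with
  | zero => simp
  | succ i ih =>
    have hY := ih (fun l hl => ha l (hl.trans (Nat.lt_succ_self i)))
      fun l hl => hs l (hl.trans (Nat.lt_succ_self i))
    have hS : 0 ≤ Y 0 + ∑ l ∈ range i, a l :=
      add_nonneg h0 (sum_nonneg fun l hl => ha l ((mem_range.1 hl).trans (Nat.lt_succ_self i)))
    have hp : 0 ≤ exp (i * h) * (Y 0 + ∑ l ∈ range i, a l) := mul_nonneg (exp_pos _).le hS
    calc Y (i + 1) ≤ (1 + h) * Y i + a i := hs i (Nat.lt_succ_self i)
      _ ≤ exp h * (exp (i * h) * (Y 0 + ∑ l ∈ range i, a l))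
          + exp ((i + 1 : ℕ) * h) * a i := by
        refine add_le_add ((mul_le_mul_of_nonneg_left hY (by linarith)).trans
          (mul_le_mul_of_nonneg_right (by linarith [add_one_le_exp h]) hp)) ?_
        exact le_mul_of_one_le_left (ha i (Nat.lt_succ_self i)) (one_le_exp (by positivity))
      _ = _ := by
        rw [sum_range_succ, ← mul_assoc, ← exp_add]
        push_cast
        ring_nf

/-- A sum of exponential weights along the grid. -/
lemma sum_weight_le {M h : ℝ} (hM : 0 < M) (i : ℕ) :
    h * ∑ l ∈ range i, exp (M * l * h) ≤ exp (M * i * h) / M := by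
  rw [le_div_iff₀ hM]
  have : ∀ l ∈ range i, exp (M * l * h) * (M * h)
      ≤ exp (M * (l + 1 : ℕ) * h) - exp (M * l * h) := fun l _ => by
    have e : exp (M * (l + 1 : ℕ) * h) = exp (M * l * h) * exp (M * h) := by
      rw [← exp_add]
      push_cast
      ring_nf
    have := mul_le_mul_of_nonneg_left (add_one_le_exp (M * h)) (exp_pos (M * l * h)).le
    linarith
  have h2 := sum_le_sum this
  rw [sum_range_sub (fun l : ℕ => exp (M * l * h)), ← sum_mul] at h2
  simp only [Nat.cast_zero, mul_zero, zero_mul, exp_zero] at h2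
  linarith

/-- Levels coupled by a contraction and by sums along the grid decay geometrically. -/
theorem level_bound {T lam C B : ℝ} (hl : 0 ≤ lam) (hl1 : lam < 1) (hC : 0 ≤ C)
    (hB : 0 ≤ B) :
    ∃ lam' : ℝ, 0 ≤ lam' ∧ lam' < 1 ∧ ∃ C' : ℝ, 0 ≤ C' ∧
      ∀ (N L : ℕ) (h η e : ℝ) (G F : ℕ → ℕ → ℝ) (init : ℕ → ℝ),
        0 ≤ h → N * h ≤ T → 0 ≤ η → 0 ≤ e → (∀ i ≤ N, G L i ≤ B) →
        (∀ k ≥ L, init k ≤ η) →
        (∀ k ≥ L, ∀ i ≤ N, F k i ≤ exp T * (init k + C * h * ∑ l ∈ range i, G k l + e)) →
        (∀ k ≥ L, ∀ i ≤ N, G (k + 1) i ≤ lam * G k i + C * F k i + e) →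
        ∀ k ≥ L, ∀ i ≤ N, F k i ≤ C' * (lam' ^ (k - L) + η + e) ∧
          G k i ≤ C' * (lam' ^ (k - L) + η + e) := by
  set M := 2 * C ^ 2 * exp T / (1 - lam) + 1 with hM
  have h1l : 0 < 1 - lam := by linarith
  have hM1 : 1 ≤ M := le_add_of_nonneg_left (by positivity)
  have hM0 : 0 < M := one_pos.trans_le hM1
  set lam' := (1 + lam) / 2 with hlam
  have hkey : lam + C ^ 2 * exp T / M ≤ lam' := by
    have : C ^ 2 * exp T / M ≤ (1 - lam) / 2 := by
      rw [div_le_iff₀ hM0, hM]
      field_simp
      linarith [exp_pos T]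
    rw [hlam]
    linarith
  set A := (C * exp T + 1) / (1 - lam') with hA
  have hl' : 0 ≤ lam' ∧ lam' < 1 := by rw [hlam]; constructor <;> linarith
  have hA0 : 0 ≤ A := div_nonneg (by positivity) (by linarith [hl'.2])
  set P := exp (M * T) * (B + A) with hP
  have hP0 : 0 ≤ P := by positivity
  refine ⟨lam', hl'.1, hl'.2, exp T + (1 + exp T * C) * P, by positivity, ?_⟩
  intro N L h η e G F init hh hN hη he hG hinit hF hrec
  set D := fun j : ℕ => B * lam' ^ j + A * (η + e) with hD
  have hD0 : ∀ j, 0 ≤ D j := fun j => by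
    have := hl'.1
    simp only [hD]
    positivity
  have hw1 : ∀ i : ℕ, 1 ≤ exp (M * i * h) := fun i => one_le_exp (by positivity)
  -- the sums and the second array in the weight
  have hFb : ∀ j, (∀ l ≤ N, G (L + j) l ≤ exp (M * l * h) * D j) → ∀ i ≤ N,
      F (L + j) i ≤ exp (M * i * h) * (exp T * (η + e) + exp T * C / M * D j) := by
    intro j hj i hi
    have hs : C * h * ∑ l ∈ range i, G (L + j) l ≤ exp (M * i * h) * (C / M * D j) := by
      calc C * h * ∑ l ∈ range i, G (L + j) l
          ≤ C * h * ∑ l ∈ range i, exp (M * l * h) * D j :=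
            mul_le_mul_of_nonneg_left (sum_le_sum fun l hl =>
              hj l ((mem_range.1 hl).le.trans hi)) (by positivity)
        _ = C * D j * (h * ∑ l ∈ range i, exp (M * l * h)) := by rw [← sum_mul]; ring
        _ ≤ C * D j * (exp (M * i * h) / M) :=
            mul_le_mul_of_nonneg_left (sum_weight_le hM0 i) (mul_nonneg hC (hD0 j))
        _ = _ := by ring
    refine (hF _ (Nat.le_add_right L j) i hi).trans ?_
    have h2 : init (L + j) + e ≤ exp (M * i * h) * (η + e) :=
      (add_le_add (hinit _ (Nat.le_add_right L j)) le_rfl).trans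
        (le_mul_of_one_le_left (by positivity) (hw1 i))
    calc exp T * (init (L + j) + C * h * ∑ l ∈ range i, G (L + j) l + e)
        ≤ exp T * (exp (M * i * h) * (η + e) + exp (M * i * h) * (C / M * D j)) :=
          mul_le_mul_of_nonneg_left (by linarith) (exp_pos T).le
      _ = _ := by ring
  have hall : ∀ j, ∀ i ≤ N, G (L + j) i ≤ exp (M * i * h) * D j := by
    intro j
    induction j with
    | zero =>
      intro i hi
      refine (hG i hi).trans ((le_mul_of_one_le_left hB (hw1 i)).trans ?_)
      refine mul_le_mul_of_nonneg_left ?_ (exp_pos _).le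
      simp only [hD, pow_zero, mul_one]
      have : 0 ≤ A * (η + e) := by positivity
      linarith
    | succ j ih =>
      intro i hi
      refine (hrec _ (Nat.le_add_right L j) i hi).trans ?_
      have h1 := mul_le_mul_of_nonneg_left (ih i hi) hl
      have h2 := mul_le_mul_of_nonneg_left (hFb j ih i hi) hC
      have h3 : e ≤ exp (M * i * h) * (η + e) :=
        (le_add_of_nonneg_left hη).trans (le_mul_of_one_le_left (by positivity) (hw1 i))
      have h4 := mul_le_mul_of_nonneg_left
        (mul_le_mul_of_nonneg_right hkey (hD0 j)) (exp_pos (M * i * h)).le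
      have hA' : lam' * A + (C * exp T + 1) = A := by
        rw [hA]
        field_simp [(sub_pos.2 hl'.2).ne']
        ring
      have e1 : exp (M * i * h) * D (j + 1)
          = exp (M * i * h) * (lam' * D j + (C * exp T + 1) * (η + e)) := by
        simp only [hD, pow_succ]
        linear_combination -exp (M * i * h) * (η + e) * hA'
      have e2 : C * (exp (M * i * h) * (exp T * (η + e) + exp T * C / M * D j))
          = exp (M * i * h) * (C * exp T * (η + e) + C ^ 2 * exp T / M * D j) := by ring
      linarith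
  intro k hk i hi
  obtain ⟨j, rfl⟩ := Nat.exists_eq_add_of_le hk
  rw [Nat.add_sub_cancel_left]
  have hw : exp (M * i * h) ≤ exp (M * T) := by
    refine exp_le_exp.2 ?_
    rw [mul_assoc]
    refine mul_le_mul_of_nonneg_left (le_trans ?_ hN) hM0.le
    gcongr
  have hp : 0 ≤ lam' ^ j := pow_nonneg hl'.1 j
  have hd : exp (M * i * h) * D j ≤ P * (lam' ^ j + η + e) := by
    rw [hP, mul_assoc (exp (M * T))]
    refine mul_le_mul hw ?_ (hD0 j) (exp_pos _).le
    simp only [hD]
    have : 0 ≤ A * lam' ^ j + B * (η + e) := by positivity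
    linarith
  have hx : 0 ≤ lam' ^ j + η + e := by positivity
  constructor
  · refine (hF _ hk i hi).trans ?_
    have hs : C * h * ∑ l ∈ range i, G (L + j) l ≤ C * (P * (lam' ^ j + η + e)) := by
      calc C * h * ∑ l ∈ range i, G (L + j) l
          ≤ C * h * ∑ l ∈ range i, exp (M * l * h) * D j :=
            mul_le_mul_of_nonneg_left (sum_le_sum fun l hl =>
              hall j l ((mem_range.1 hl).le.trans hi)) (by positivity)
        _ = C * D j * (h * ∑ l ∈ range i, exp (M * l * h)) := by rw [← sum_mul]; ring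
        _ ≤ C * D j * (exp (M * i * h) / M) :=
            mul_le_mul_of_nonneg_left (sum_weight_le hM0 i) (mul_nonneg hC (hD0 j))
        _ ≤ C * D j * exp (M * i * h) :=
            mul_le_mul_of_nonneg_left (div_le_self (exp_pos _).le hM1) (mul_nonneg hC (hD0 j))
        _ ≤ _ := by
            have := mul_le_mul_of_nonneg_left hd hC
            linarith
    have h1 := hinit _ hk
    calc exp T * (init (L + j) + C * h * ∑ l ∈ range i, G (L + j) l + e)
        ≤ exp T * ((lam' ^ j + η + e) + C * (P * (lam' ^ j + η + e))) :=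
          mul_le_mul_of_nonneg_left (by linarith) (exp_pos T).le
      _ ≤ _ := by
          have := mul_nonneg hP0 hx
          linarith
  · refine ((hall j i hi).trans hd).trans (mul_le_mul_of_nonneg_right ?_ hx)
    have : 0 ≤ exp T * C * P := by positivity
    linarith [exp_pos T]

end Vale.Agent.P150.Beta1.Profile
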