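import Vale.Agent.P150.Beta1.Profile.Statement
import Vale.Agent.P150.Beta1.Rule.Fields
import Vale.Agent.P150.Beta1.Stein.Basic

/-!
# The profile parameters

`slopeSq` is the slope of `psi`, so `profS β h i` solves `s = i h + β² psi s` up to `O(√h)`; for
`β < 1` that equation has exactly one solution, stable in the right-hand side.
-/

namespace Vale.Agent.P150.Beta1.Profile

open MeasureTheory ProbabilityTheory Finset Real
open scoped Topology

lemma slope_pointwise (z : ℝ) : 0 ≤ (1 - tanh z ^ 2) ^ 2 ∧ (1 - tanh z ^ 2) ^ 2 ≤ 1 :=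
  ⟨sq_nonneg _, (sq_le_one_iff_abs_le_one _).2 (Rule.abs_one_sub_tanh_sq z)⟩

lemma slopeSq_nonneg (s : ℝ) : 0 ≤ slopeSq s := integral_nonneg fun _ => sq_nonneg _

lemma slopeSq_le_one (s : ℝ) : slopeSq s ≤ 1 := by
  refine (integral_mono_of_nonneg (ae_of_all _ fun x => sq_nonneg _) (integrable_const 1)
    (ae_of_all _ fun x => (slope_pointwise _).2)).trans ?_
  simp

lemma continuous_slopeSq : Continuous slopeSq := by
  refine continuous_of_dominated (bound := fun _ => 1) (fun s => ?_)
    (fun s => ae_of_all _ fun x => ?_) (integrable_const _) (ae_of_all _ fun x => ?_)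
  · exact (((continuous_const.sub ((continuous_tanh_real.comp
      (by fun_prop)).pow 2))).pow 2).aestronglyMeasurable
  · rw [norm_eq_abs, abs_of_nonneg (slope_pointwise _).1]
    exact (slope_pointwise _).2
  · exact (continuous_const.sub ((continuous_tanh_real.comp (by fun_prop)).pow 2)).pow 2

lemma continuous_psi : Continuous psi := by
  refine continuous_of_dominated (bound := fun _ => 1) (fun s => ?_)
    (fun s => ae_of_all _ fun x => ?_) (integrable_const _) (ae_of_all _ fun x => ?_)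
  · exact ((continuous_tanh_real.comp (by fun_prop)).pow 2).aestronglyMeasurable
  · rw [norm_eq_abs, abs_of_nonneg (sq_nonneg _)]
    exact tanh_sq_le_one _
  · exact (continuous_tanh_real.comp (by fun_prop)).pow 2

variable {β h : ℝ}

lemma slope_den (hβ : β ^ 2 < 1) (s : ℝ) :
    1 - β ^ 2 ≤ 1 - β ^ 2 * slopeSq s ∧ 1 - β ^ 2 * slopeSq s ≤ 1 ∧ 0 < 1 - β ^ 2 * slopeSq s := by
  have h1 := mul_le_of_le_one_right (sq_nonneg β) (slopeSq_le_one s)
  have h2 := mul_nonneg (sq_nonneg β) (slopeSq_nonneg s)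
  exact ⟨by linarith, by linarith, by linarith⟩

lemma profS_step (hβ : β ^ 2 < 1) (hh : 0 ≤ h) (i : ℕ) :
    profS β h i + h ≤ profS β h (i + 1) ∧ profS β h (i + 1) ≤ profS β h i + h / (1 - β ^ 2) := by
  obtain ⟨h1, h2, h3⟩ := slope_den hβ (profS β h i)
  exact ⟨add_le_add le_rfl (le_div_self hh h3 h2),
    add_le_add le_rfl (div_le_div_of_nonneg_left hh (by linarith) h1)⟩

lemma profS_mono (hβ : β ^ 2 < 1) (hh : 0 ≤ h) : Monotone (profS β h) :=
  monotone_nat_of_le_succ fun i => (le_add_of_nonneg_right hh).trans (profS_step hβ hh i).1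

lemma profS_bounds (hβ : β ^ 2 < 1) (hh : 0 ≤ h) (i : ℕ) :
    i * h ≤ profS β h i ∧ profS β h i ≤ i * h / (1 - β ^ 2) := by
  induction i with
  | zero => simp [profS]
  | succ i ih =>
    obtain ⟨h1, h2⟩ := profS_step hβ hh i
    have e : ((i + 1 : ℕ) : ℝ) * h / (1 - β ^ 2)
        = i * h / (1 - β ^ 2) + h / (1 - β ^ 2) := by push_cast; ring
    exact ⟨by push_cast; linarith, by rw [e]; linarith⟩

lemma profS_nonneg (hβ : β ^ 2 < 1) (hh : 0 ≤ h) (i : ℕ) : 0 ≤ profS β h i :=
  (mul_nonneg (Nat.cast_nonneg i) hh).trans (profS_bounds hβ hh i).1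

/-- `slopeSq` is the slope of `psi`. -/
theorem psi_step : ∃ C, 0 ≤ C ∧ ∀ s h, 0 ≤ s → 0 ≤ h → h ≤ 1 →
    |psi (s + h) - psi s - h * slopeSq s| ≤ C * (h * √h) := by
  set M3 := ∫ x, |x| ^ 3 ∂gaussianReal 0 1 with hM3
  have hM : 0 ≤ M3 := integral_nonneg fun x => by positivity
  refine ⟨1 + 16 * (M3 + 1), by positivity, fun s h hs hh h1 => ?_⟩
  set u := fun g : Fin 2 → ℝ => 1 - tanh (√s * g 0 + s) ^ 2 with hu
  set d := fun g : Fin 2 → ℝ => √h * g 1 + h with hd
  have he : psi (s + h) - psi s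
      = ∫ g, (tanh (√s * g 0 + s + d g) - tanh (√s * g 0 + s)) ^ 2 ∂gauss (Fin 2) := by
    rw [psi_duo hs hh]
    refine integral_congr_ae (ae_of_all _ fun g => ?_)
    simp only [hd]
    ring_nf
  have hmp := measurePreserving_eval (fun _ : Fin 2 => gaussianReal 0 1) 1
  have i2 : Integrable (fun x : ℝ => (√h * x + h) ^ 2) (gaussianReal 0 1) := by
    have e : (fun x : ℝ => (√h * x + h) ^ 2)
        = fun x => h * x ^ 2 + (2 * √h * h) * x + h ^ 2 := by
      funext x; linear_combination x ^ 2 * sq_sqrt hh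
    rw [e]
    exact (((memLp_id_gaussianReal 2).integrable_sq.const_mul h).add
      (((memLp_id_gaussianReal 1).integrable le_rfl).const_mul _)).add (integrable_const _)
  have e2 : ∫ x, (√h * x + h) ^ 2 ∂gaussianReal 0 1 = h + h ^ 2 := by
    have e : ∀ x : ℝ, (√h * x + h) ^ 2 = h * x ^ 2 + ((2 * √h * h) * x + h ^ 2) := fun x => by
      linear_combination x ^ 2 * sq_sqrt hh
    have hv := variance_id_gaussianReal (μ := 0) (v := 1)
    rw [variance_eq_integral aemeasurable_id] at hv
    simp only [id, integral_id_gaussianReal, sub_zero, NNReal.coe_one] at hv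
    simp only [e]
    have k1 : Integrable (fun x : ℝ => 2 * √h * h * x) (gaussianReal 0 1) :=
      ((memLp_id_gaussianReal 1).integrable le_rfl).const_mul _
    have k2 : Integrable (fun x : ℝ => h * x ^ 2) (gaussianReal 0 1) :=
      (memLp_id_gaussianReal 2).integrable_sq.const_mul h
    rw [integral_add k2 (k1.fun_add (integrable_const _)), integral_add k1 (integrable_const _),
      integral_const_mul, integral_const_mul, hv, integral_id_gaussianReal]
    simp
  have i3 : Integrable (fun x : ℝ => |x| ^ 3) (gaussianReal 0 1) := by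
    simpa using (memLp_id_gaussianReal 3).integrable_norm_pow (p := 3)
  -- the main term
  have hprod : ∫ g, u g ^ 2 * d g ^ 2 ∂gauss (Fin 2) = slopeSq s * (h + h ^ 2) := by
    have := integral_fintype_prod_eq_prod (𝕜 := ℝ) (μ := fun _ : Fin 2 => gaussianReal 0 1)
      ![fun x : ℝ => (1 - tanh (√s * x + s) ^ 2) ^ 2, fun x => (√h * x + h) ^ 2]
    simp only [Fin.prod_univ_two, Matrix.cons_val_zero, Matrix.cons_val_one] at this
    rw [e2] at this
    exact this
  have j3 : Integrable (fun g : Fin 2 → ℝ => 16 * (h * √h * |g 1| ^ 3 + h ^ 3)) (gauss (Fin 2)) :=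
    (((hmp.integrable_comp_of_integrable i3).const_mul _).fun_add (integrable_const _)).const_mul _
  have ju : Integrable (fun g => u g ^ 2 * d g ^ 2) (gauss (Fin 2)) := by
    refine (hmp.integrable_comp_of_integrable i2).bdd_mul (c := 1) ?_ (ae_of_all _ fun g => ?_)
    · exact ((continuous_const.sub ((continuous_tanh_real.comp
        (by fun_prop)).pow 2)).pow 2).aestronglyMeasurable
    · rw [norm_eq_abs, abs_of_nonneg (slope_pointwise _).1]
      exact (slope_pointwise _).2
  have hpt : ∀ g, |(tanh (√s * g 0 + s + d g) - tanh (√s * g 0 + s)) ^ 2 - u g ^ 2 * d g ^ 2|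
      ≤ 16 * (h * √h * |g 1| ^ 3 + h ^ 3) := by
    intro g
    set x := √s * g 0 + s
    set D := tanh (x + d g) - tanh x
    have t1 : |D - u g * d g| ≤ 2 * d g ^ 2 := by
      have := Rule.taylor_one hasDerivAt_tanh Rule.tanh_deriv_lip zero_le_two x (x + d g)
      simpa [u, D, x] using this
    have t2 : |D + u g * d g| ≤ 2 * |d g| := by
      refine (abs_add_le _ _).trans ?_
      have a1 : |D| ≤ |d g| := by simpa using abs_tanh_sub_le (x + d g) x
      have a2 : |u g * d g| ≤ |d g| := by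
        rw [abs_mul]
        exact mul_le_of_le_one_left (abs_nonneg _) (Rule.abs_one_sub_tanh_sq _)
      linarith
    calc |D ^ 2 - u g ^ 2 * d g ^ 2| = |D - u g * d g| * |D + u g * d g| := by
          rw [← abs_mul]; ring_nf
      _ ≤ 2 * d g ^ 2 * (2 * |d g|) := mul_le_mul t1 t2 (abs_nonneg _) (by positivity)
      _ = 4 * |d g| ^ 3 := by rw [← sq_abs (d g)]; ring
      _ ≤ 4 * (√h * |g 1| + h) ^ 3 := by
          gcongr
          refine (abs_add_le _ _).trans (le_of_eq ?_)
          rw [abs_mul, abs_of_nonneg (sqrt_nonneg _), abs_of_nonneg hh]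
      _ ≤ 4 * (4 * ((√h * |g 1|) ^ 3 + h ^ 3)) := by
          gcongr
          exact add_pow_le (by positivity) hh 3 |>.trans_eq (by norm_num)
      _ = _ := by
          linear_combination 16 * √h * |g 1| ^ 3 * sq_sqrt hh
  have jD : Integrable (fun g => (tanh (√s * g 0 + s + d g) - tanh (√s * g 0 + s)) ^ 2)
      (gauss (Fin 2)) := by
    refine integrable_bdd ?_ (B := 4) fun g => ?_
    · exact ((continuous_tanh_real.comp (by fun_prop)).sub
        (continuous_tanh_real.comp (by fun_prop))).pow 2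
    · rw [abs_of_nonneg (sq_nonneg _)]
      nlinarith [abs_le.1 (abs_tanh_le_one (√s * g 0 + s + d g)),
        abs_le.1 (abs_tanh_le_one (√s * g 0 + s))]
  have hb : |psi (s + h) - psi s - slopeSq s * (h + h ^ 2)| ≤ 16 * (h * √h * M3 + h ^ 3) := by
    rw [he, ← hprod, ← integral_sub jD ju]
    refine abs_integral_le_integral_abs.trans
      ((integral_mono (jD.sub ju).abs j3 hpt).trans (le_of_eq ?_))
    have em : (gauss (Fin 2)).map (fun g => g 1) = gaussianReal 0 1 := hmp.map_eq
    have := integral_map (μ := gauss (Fin 2)) (φ := fun g => g 1)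
      (measurable_pi_apply 1).aemeasurable (f := fun x : ℝ => |x| ^ 3) (by fun_prop)
    rw [em] at this
    have k3 : Integrable (fun g : Fin 2 → ℝ => h * √h * |g 1| ^ 3) (gauss (Fin 2)) :=
      (hmp.integrable_comp_of_integrable i3).const_mul _
    rw [integral_const_mul, integral_add k3 (integrable_const _),
      integral_const_mul, ← this, integral_const, probReal_univ, one_smul]
  have hh2 : h ^ 2 ≤ h * √h := by
    rw [sq]
    refine mul_le_mul_of_nonneg_left ?_ hh
    exact Real.le_sqrt_of_sq_le (by rw [sq]; exact mul_le_of_le_one_left hh h1)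
  have h32 : h ^ 3 ≤ h ^ 2 := pow_le_pow_of_le_one hh h1 (by norm_num)
  have hsl : slopeSq s * h ^ 2 ≤ h * √h :=
    (mul_le_of_le_one_left (sq_nonneg h) (slopeSq_le_one s)).trans hh2
  have hsl0 := mul_nonneg (slopeSq_nonneg s) (sq_nonneg h)
  rw [abs_le] at hb ⊢
  constructor <;> linarith [hb.1, hb.2]

/-- The discrete profile solves `s = i h + β² psi s` up to `O(√h)`. -/
theorem profS_fixed (hβ : β ^ 2 < 1) : ∃ C, 0 ≤ C ∧ ∀ h, 0 ≤ h → h ≤ 1 - β ^ 2 → ∀ i : ℕ,
    |profS β h i - β ^ 2 * psi (profS β h i) - i * h| ≤ C * (i * h * √h) := by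
  obtain ⟨C, hC, hstep⟩ := psi_step
  set b := 1 / (1 - β ^ 2) with hb
  have hb0 : 0 ≤ b := div_nonneg one_pos.le (by linarith)
  refine ⟨C * (b * √b), by positivity, fun h hh hh1 i => ?_⟩
  induction i with
  | zero => simp [profS, psi_zero]
  | succ i ih =>
    set s := profS β h i
    set D := h / (1 - β ^ 2 * slopeSq s) with hD
    obtain ⟨d1, d2, d3⟩ := slope_den hβ s
    have hD0 : 0 ≤ D := div_nonneg hh d3.le
    have hDb : D ≤ h * b := by
      rw [hb, ← mul_div_assoc, mul_one]
      exact div_le_div_of_nonneg_left hh (by linarith) d1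
    have hD1 : D ≤ 1 := (div_le_one d3).2 (hh1.trans d1)
    have hkey := hstep s D (profS_nonneg hβ hh i) hD0 hD1
    have hlin : D - β ^ 2 * (D * slopeSq s) = h := by rw [hD]; field_simp
    have hsq : D * √D ≤ h * √h * (b * √b) := by
      refine (mul_le_mul hDb (sqrt_le_sqrt hDb) (sqrt_nonneg _) (by positivity)).trans_eq ?_
      rw [sqrt_mul hh]; ring
    have hk : |β ^ 2 * (psi (s + D) - psi s - D * slopeSq s)| ≤ C * (b * √b) * (h * √h) := by
      rw [abs_mul, abs_of_nonneg (sq_nonneg β)]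
      refine (mul_le_of_le_one_left (abs_nonneg _) hβ.le).trans (hkey.trans ?_)
      have := mul_le_mul_of_nonneg_left hsq hC
      linarith
    show |s + D - β ^ 2 * psi (s + D) - ((i + 1 : ℕ) : ℝ) * h| ≤ _
    push_cast
    rw [abs_le] at ih hk ⊢
    constructor <;> linarith [ih.1, ih.2, hk.1, hk.2]

/-- For `β < 1` the fixed relation is stable. -/
lemma fix_gap (β : ℝ) {s s' : ℝ} (hs : 0 ≤ s) (hs' : 0 ≤ s') :
    (1 - β ^ 2) * |s - s'| ≤ |(s - β ^ 2 * psi s) - (s' - β ^ 2 * psi s')| := by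
  wlog h : s' ≤ s generalizing s s'
  · rw [abs_sub_comm s, abs_sub_comm (s - _)]
    exact this hs' hs (le_of_not_ge h)
  rw [abs_of_nonneg (sub_nonneg.2 h)]
  refine le_trans ?_ (le_abs_self _)
  have := mul_le_mul_of_nonneg_left (psi_lipschitz hs' h) (sq_nonneg β)
  linarith

/-- The replica-symmetric signal exists. -/
lemma exists_fix (β t : ℝ) :
    ∃ s, t ≤ s ∧ s ≤ t + β ^ 2 ∧ s - β ^ 2 * psi s = t := by
  have h1 : t - β ^ 2 * psi t ≤ t := by linarith [mul_nonneg (sq_nonneg β) (psi_nonneg t)]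
  have h2 : t ≤ t + β ^ 2 - β ^ 2 * psi (t + β ^ 2) := by
    linarith [mul_le_of_le_one_right (sq_nonneg β) (psi_le_one (t + β ^ 2))]
  obtain ⟨s, hs, hs'⟩ := intermediate_value_Icc (show t ≤ t + β ^ 2 by linarith [sq_nonneg β])
    (continuous_id.sub (continuous_psi.const_mul (β ^ 2))).continuousOn ⟨h1, h2⟩
  exact ⟨s, hs.1, hs.2, hs'⟩

end Vale.Agent.P150.Beta1.Profile
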