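import Vale.Agent.P150.Beta1.Profile.Evolution
import Vale.Agent.P150.Beta1.Profile.Gronwall
import Vale.Agent.P150.Beta1.Profile.Params

/-!
# Concentration of the profile on a grid, one level at a time

The martingale `avg (flow (s_i - s_l) φ)(z_k(u_l))` keeps its mean square distance from its start
up to the distance of the variance rate from its limit; the latter contracts from level to level.
-/

namespace Vale.Agent.P150.Beta1.Profile

open MeasureTheory ProbabilityTheory Finset Function Real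
open Local

variable {n : ℕ} {β : ℝ} {J : Fin n → Fin n → ℝ} {F : (Fin n → Bool) → ℝ} {u h : ℝ}

lemma gsm_neg {φ : ℝ → ℝ} (hc : Continuous φ) (he : ∀ z, φ (-z) = φ z) (m w : ℝ) :
    gsm (-m) w φ = gsm m w φ := by
  have hm : (gaussianReal 0 1).map (fun x => -x) = gaussianReal 0 1 := by
    rw [gaussianReal_map_neg, neg_zero]
  have h1 := integral_map (μ := gaussianReal 0 1) (φ := fun x => -x) (by fun_prop)
    (f := fun g => φ (-m + √w * g)) (hc.comp (by fun_prop)).aestronglyMeasurable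
  rw [hm] at h1
  rw [gsm, gsm, h1]
  refine integral_congr_ae (ae_of_all _ fun g => ?_)
  beta_reduce
  rw [← he]
  ring_nf

lemma flow_at_zero {φ : ℝ → ℝ} (hc : Continuous φ) (he : ∀ z, φ (-z) = φ z) (s : ℝ) :
    flow s φ 0 = gsm s s φ := by
  simp only [flow, tanh_zero, zero_add, zero_sub, gsm_neg hc he]
  ring

lemma flow_vsq_zero (s : ℝ) : flow s vsq 0 = slopeSq s := by
  rw [flow_at_zero smoothB_vsq.continuous (fun z => by simp [vsq, tanh_neg]), gsm, slopeSq]
  simp only [vsq, add_comm]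

lemma flow_tsq_zero (s : ℝ) : flow s tsq 0 = psi s := by
  rw [flow_at_zero smoothB_tsq.continuous (fun z => by simp [tsq, tanh_neg]), gsm, psi]
  simp only [tsq, add_comm]

/-- Means are monotone. -/
lemma pE_mono (hF : ∀ x, 0 < F x) {f g : Obs (Fin n)} (hf : BddCont2 fun x y _ => f x y)
    (hg : BddCont2 fun x y _ => g x y) (hle : ∀ x y, f x y ≤ g x y) :
    pE J F u f ≤ pE J F u g := by
  obtain ⟨B, hB⟩ := hf
  obtain ⟨B', hB'⟩ := hg
  refine sum_le_sum fun x _ => mul_le_mul_of_nonneg_left ?_ (pF_nonneg J hF x)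
  have hi : ∀ {Φ : Obs (Fin n)} {b : ℝ}, Continuous (fun q : (Fin n → ℝ) × (Fin n → ℝ) => Φ x q.1) →
      (∀ y, |Φ x y| ≤ b) → Integrable (fun ξ => Φ x (pfield u x ξ)) (gauss (Fin n)) :=
    fun {Φ b} hc hb => Integrable.of_bound ((hc.comp ((continuous_id (X := Fin n → ℝ)).prodMk
      continuous_id)).comp (continuous_pfield u x)).aestronglyMeasurable b
      (ae_of_all _ fun ξ => (Real.norm_eq_abs _).le.trans (hb _))
  exact integral_mono (hi (hB x).1 fun y => (hB x).2 y y) (hi (hB' x).1 fun y => (hB' x).2 y y)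
    fun ξ => hle x _

lemma pE_const (hm : mean (p0 J) F = 1) (c : ℝ) : pE J F u (fun _ _ => c) = c := by
  simp only [pE, integral_const, probReal_univ, one_smul, ← sum_mul]
  rw [show ∑ x, p0 J x * F x = mean (p0 J) F from rfl, hm, one_mul]

lemma BddCont2.comb {f g : Obs (Fin n)} (hf : BddCont2 fun x y _ => f x y)
    (hg : BddCont2 fun x y _ => g x y) (a b : ℝ) :
    BddCont2 fun x y _ => a * f x y + b * g x y := by
  obtain ⟨B, hB⟩ := hf
  obtain ⟨B', hB'⟩ := hg
  refine ⟨|a| * B + |b| * B', fun x => ⟨(continuous_const.mul (hB x).1).add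
    (continuous_const.mul (hB' x).1), fun y y' => (abs_add_le _ _).trans ?_⟩⟩
  rw [abs_mul, abs_mul]
  exact add_le_add (mul_le_mul_of_nonneg_left ((hB x).2 y y') (abs_nonneg _))
    (mul_le_mul_of_nonneg_left ((hB' x).2 y y') (abs_nonneg _))

lemma pE_comb {f g : Obs (Fin n)} (hf : BddCont2 fun x y _ => f x y)
    (hg : BddCont2 fun x y _ => g x y) (a b : ℝ) :
    pE J F u (fun x y => a * f x y + b * g x y) = a * pE J F u f + b * pE J F u g := by
  have ha : BddCont2 fun x y _ => a * f x y := by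
    simpa using hf.comb hg a 0
  have hb : BddCont2 fun x y _ => b * g x y := by
    simpa using hf.comb hg 0 b
  rw [pE_add ha hb, pE_smul, pE_smul]

/-- The limit of the variance rate at the grid point `i`. -/
noncomputable def sigStar (β h : ℝ) (i : ℕ) : ℝ := 1 / (1 - β ^ 2 * slopeSq (profS β h i))

/-- Mean square distance of the variance rate from its limit. -/
noncomputable def rateGap (β : ℝ) (J : Fin n → Fin n → ℝ) (F : (Fin n → Bool) → ℝ) (h : ℝ)
    (k i : ℕ) : ℝ :=
  pE J F (i * h) fun x y => (sigO β J k x y - sigStar β h i) ^ 2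

/-- Mean square distance of an average from its profile value. -/
noncomputable def avgGap (β : ℝ) (J : Fin n → Fin n → ℝ) (F : (Fin n → Bool) → ℝ) (h : ℝ)
    (φ : ℝ → ℝ) (k i : ℕ) : ℝ :=
  pE J F (i * h) fun x y => (avgO β J φ k x y - flow (profS β h i) φ 0) ^ 2

/-- Mean squared length of an iterate at the start. -/
noncomputable def startGap (β : ℝ) (J : Fin n → Fin n → ℝ) (F : (Fin n → Bool) → ℝ) (k : ℕ) : ℝ :=
  tmean (gibbs J 0) F fun x => avg fun i => ampZ β J 0 (spins x) k i ^ 2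

lemma sigStar_mem (hβ : β ^ 2 < 1) (i : ℕ) :
    1 ≤ sigStar β h i ∧ sigStar β h i ≤ 1 / (1 - β ^ 2) := by
  obtain ⟨h1, h2, h3⟩ := slope_den hβ (profS β h i)
  exact ⟨(one_le_div h3).2 h2, one_div_le_one_div_of_le (by linarith) h1⟩

lemma sigO_mem (hβ : β ^ 2 < 1) : ∀ (k : ℕ) (x : Fin n → Bool) (y : Fin n → ℝ),
    0 ≤ sigO β J k x y ∧ sigO β J k x y ≤ 1 / (1 - β ^ 2) := by
  intro k
  induction k with
  | zero =>
    intro x y
    rw [sigO_zero]
    exact ⟨zero_le_one, by rw [one_le_div (by linarith)]; linarith [sq_nonneg β]⟩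
  | succ k ih =>
    intro x y
    obtain ⟨s0, s1⟩ := ih x y
    have a0 : 0 ≤ avgO β J vsq k x y := by
      rw [avgO, avg]
      exact div_nonneg (sum_nonneg fun i _ => (vsq_mem _).1) (Nat.cast_nonneg _)
    have a1 : avgO β J vsq k x y ≤ 1 := (le_abs_self _).trans (avgO_mem vsq_mem k x y)
    rw [sigO_succ]
    refine ⟨by positivity, ?_⟩
    have h1 : β ^ 2 * avgO β J vsq k x y * sigO β J k x y ≤ β ^ 2 * (1 / (1 - β ^ 2)) :=
      mul_le_mul (mul_le_of_le_one_right (sq_nonneg β) a1) s1 s0 (sq_nonneg β)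
    have h2 : 1 + β ^ 2 * (1 / (1 - β ^ 2)) = 1 / (1 - β ^ 2) := by
      have : (1:ℝ) - β ^ 2 ≠ 0 := by linarith
      field_simp
      ring
    linarith

lemma bddCont2_sigGap (hβ : β ^ 2 < 1) (c : ℝ) (k : ℕ) :
    BddCont2 fun x (y : Fin n → ℝ) (_ : Fin n → ℝ) => (sigO β J k x y - c) ^ 2 :=
  bddCont2_fst (fun x => ((continuous_sigO k x).sub continuous_const).pow 2)
    (B := (1 / (1 - β ^ 2) + |c|) ^ 2) fun x y => by
      rw [abs_pow]
      refine pow_le_pow_left₀ (abs_nonneg _) ((abs_sub _ _).trans ?_) 2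
      obtain ⟨a, b⟩ := sigO_mem (J := J) hβ k x y
      rw [abs_of_nonneg a]
      linarith

lemma bddCont2_avgGap {C : ℝ} {φ : ℝ → ℝ} (hc : Continuous φ) (hC : 0 ≤ C) (hb : ∀ t, |φ t| ≤ C)
    (c : ℝ) (k : ℕ) :
    BddCont2 fun x (y : Fin n → ℝ) (_ : Fin n → ℝ) => (avgO β J φ k x y - c) ^ 2 :=
  bddCont2_fst (fun x => ((continuous_avgO hc k x).sub continuous_const).pow 2)
    (B := (C + |c|) ^ 2) fun x y => by
      rw [abs_pow]
      exact pow_le_pow_left₀ (abs_nonneg _) ((abs_sub _ _).trans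
        (add_le_add (abs_avg_le_of_le hC fun i => hb _) le_rfl)) 2

/-- The variance rate contracts from level to level. -/
theorem rateGap_succ (hβ : β ^ 2 < 1) (hF : ∀ x, 0 < F x) (k i : ℕ) :
    rateGap β J F h (k + 1) i ≤ (1 + β ^ 4) / 2 * rateGap β J F h k i
      + (1 + 2 / (1 - β ^ 4)) / (1 - β ^ 2) ^ 2 * avgGap β J F h vsq k i := by
  set A := slopeSq (profS β h i)
  set σ' := sigStar β h i
  have hfix : σ' = 1 + β ^ 2 * A * σ' := by
    have := (slope_den hβ (profS β h i)).2.2.ne'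
    simp only [σ', sigStar, A]
    field_simp
    ring
  obtain ⟨hσ1, hσ2⟩ := sigStar_mem (h := h) hβ i
  have hb4 : β ^ 4 < 1 := by
    rw [show β ^ 4 = (β ^ 2) ^ 2 by ring]; exact pow_lt_one₀ (sq_nonneg β) hβ two_ne_zero
  set t := (1 - β ^ 4) / 2
  have ht : 0 < t := by simp only [t]; linarith
  set a := (1 + β ^ 4) / 2
  set b := (1 + 2 / (1 - β ^ 4)) / (1 - β ^ 2) ^ 2
  have key : ∀ x y, (sigO β J (k + 1) x y - σ') ^ 2 ≤ a * (sigO β J k x y - σ') ^ 2
      + b * (avgO β J vsq k x y - flow (profS β h i) vsq 0) ^ 2 := by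
    intro x y
    rw [flow_vsq_zero]
    set av := avgO β J vsq k x y
    set σ := sigO β J k x y
    have ha : |av| ≤ 1 := avgO_mem vsq_mem k x y
    have e : sigO β J (k + 1) x y - σ' = β ^ 2 * av * (σ - σ') + β ^ 2 * σ' * (av - A) := by
      rw [sigO_succ]; linear_combination -hfix
    set p := β ^ 2 * av * (σ - σ')
    set q := β ^ 2 * σ' * (av - A)
    have hpq : (p + q) ^ 2 ≤ (1 + t) * p ^ 2 + (1 + 1 / t) * q ^ 2 := by
      have : 0 ≤ (t * p - q) ^ 2 / t := by positivity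
      rw [show (t * p - q) ^ 2 / t = t * p ^ 2 - 2 * (p * q) + 1 / t * q ^ 2 by field_simp; ring]
        at this
      linarith
    have hp : p ^ 2 ≤ β ^ 4 * (σ - σ') ^ 2 := by
      rw [show p ^ 2 = β ^ 4 * (av ^ 2 * (σ - σ') ^ 2) by simp only [p]; ring]
      exact mul_le_mul_of_nonneg_left (mul_le_of_le_one_left (sq_nonneg _)
        ((sq_le_one_iff_abs_le_one _).2 ha)) (by positivity)
    have hq : q ^ 2 ≤ (1 / (1 - β ^ 2)) ^ 2 * (av - A) ^ 2 := by
      rw [show q ^ 2 = (β ^ 2 * σ') ^ 2 * (av - A) ^ 2 by simp only [q]; ring]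
      refine mul_le_mul_of_nonneg_right (pow_le_pow_left₀ (by positivity) ?_ 2) (sq_nonneg _)
      exact (mul_le_of_le_one_left (zero_le_one.trans hσ1) hβ.le).trans hσ2
    have ht1 : (1 + t) * β ^ 4 ≤ a := by
      simp only [t, a]; nlinarith [hb4, sq_nonneg (β ^ 2)]
    have ht2 : (1 + 1 / t) * (1 / (1 - β ^ 2)) ^ 2 = b := by
      simp only [t, b]; field_simp
    rw [e]
    refine hpq.trans (add_le_add ?_ ?_)
    · exact ((mul_le_mul_of_nonneg_left hp (by linarith)).trans_eq (by ring)).trans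
        (mul_le_mul_of_nonneg_right ht1 (sq_nonneg _))
    · rw [← ht2, mul_assoc]
      exact mul_le_mul_of_nonneg_left hq (by positivity)
  have i1 := bddCont2_sigGap (J := J) hβ σ' k
  have i2 := bddCont2_avgGap (β := β) (J := J) smoothB_vsq.continuous (by norm_num)
    smoothB_vsq.b0 (flow (profS β h i) vsq 0) k
  refine (pE_mono hF (bddCont2_sigGap hβ σ' (k + 1)) (i1.comb i2 a b) key).trans ?_
  rw [pE_comb i1 i2]
  exact le_rfl

/-- One step of the martingale: `Ψ` propagates to `Φ` over the signal increment `h σ'`. -/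
theorem avgGap_step (hT : TestsStatement β) (hGr : GradStatement β) (hβ : β ^ 2 < 1) {Cf : ℝ}
    (hCf1 : 1 ≤ Cf) (k : ℕ) : ∃ m : ℕ, ∀ C, ∃ C', 0 ≤ C' ∧ ∀ (n : ℕ), 0 < n →
      ∀ (J : Fin n → Fin n → ℝ), GoodWords β m C J →
      ∀ F : (Fin n → Bool) → ℝ, (∀ x, 0 < F x) → mean (p0 J) F = 1 →
      ∀ u h : ℝ, 0 ≤ u → 0 ≤ h → h ≤ 1 - β ^ 2 → ∀ σ' δ c : ℝ, 1 ≤ σ' → σ' ≤ 1 / (1 - β ^ 2) →
      δ = h * σ' → |c| ≤ Cf → ∀ Ψ Φ : ℝ → ℝ, SmoothB Cf Ψ → SmoothB Cf Φ →
      (∀ z, Ψ z = flow δ Φ z) →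
        pE J F (u + h) (fun x y => (avgO β J Φ k x y - c) ^ 2)
          ≤ (1 + h) * pE J F u (fun x y => (avgO β J Ψ k x y - c) ^ 2)
            + (4 * Cf ^ 2 * h * pE J F u (fun x y => (sigO β J k x y - σ') ^ 2)
              + C' * errE J F h) := by
  set b := 1 / (1 - β ^ 2)
  have hb : 0 ≤ b := one_div_nonneg.2 (by linarith)
  have hCf : (0:ℝ) ≤ Cf := zero_le_one.trans hCf1
  obtain ⟨ms, hs⟩ := stepAt hT hGr k
  obtain ⟨mg, hgr⟩ := hGr k
  refine ⟨max ms mg, fun C => ?_⟩
  obtain ⟨Cg₀, hgC⟩ := hgr C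
  set Cg := max Cg₀ 0
  set C2 := max (max C Cf) ((2 * Cf ^ 2 * Cg + 8 * Cf ^ 2 * Cg ^ 2 + 0) / 2)
  obtain ⟨Cst, hCst, hsC⟩ := hs C2
  obtain ⟨Csh, hCsh, hshC⟩ := avg_shift_sq β C k
  obtain ⟨Kf, hKf, hflow⟩ := flow_step
  set K2 := Kf * Cf * (b * √b)
  set C' := 4 * Cf * Cst + 4 * Cf * K2 + 2 * (Csh * Cf ^ 2) + 2 * (2 * Cf * b + K2) ^ 2
  refine ⟨C', by positivity, fun n hn J hG F hF hm u h hu hh hh1 σ' δ c hσ1 hσ2 hδe hc Ψ Φ hΨ hΦ'
    hflow_eq => ?_⟩
  have hn' : (0:ℝ) < n := Nat.cast_pos.2 hn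
  have hgb : ∀ y, GradBound β J y k Cg := fun y a x =>
    (hgC n J y a x (goodWords_mono hG (le_max_right _ _) le_rfl)).trans
      (mul_le_mul_of_nonneg_right (le_max_left _ _) (sum_nonneg fun i _ => sq_nonneg _))
  have hE := errE_nonneg (J := J) hh F
  have hh1' : h ≤ 1 := hh1.trans (by linarith [sq_nonneg β])
  set X := fun (x : Fin n → Bool) (y : Fin n → ℝ) => avgO β J Ψ k x y - c
  set X' := fun (x : Fin n → Bool) (y : Fin n → ℝ) => avgO β J Φ k x y - c
  have hX : ∀ x y, |X x y| ≤ 2 * Cf := fun x y => (abs_sub _ _).trans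
    ((add_le_add (abs_avg_le_of_le hCf fun j => hΨ.b0 _) hc).trans_eq (two_mul Cf).symm)
  have hX' : ∀ x y, |X' x y| ≤ 2 * Cf := fun x y => (abs_sub _ _).trans
    ((add_le_add (abs_avg_le_of_le hCf fun j => hΦ'.b0 _) hc).trans_eq (two_mul Cf).symm)
  have cX : ∀ x, Continuous (X x) := fun x =>
    (continuous_avgO hΨ.continuous k x).sub continuous_const
  have cX' : ∀ x, Continuous (X' x) := fun x =>
    (continuous_avgO hΦ'.continuous k x).sub continuous_const
  have hδ0 : 0 ≤ δ := hδe ▸ mul_nonneg hh (zero_le_one.trans hσ1)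
  have hδb : δ ≤ h * b := hδe ▸ mul_le_mul_of_nonneg_left hσ2 hh
  have hδ1 : δ ≤ 1 := hδb.trans (by
    rw [mul_one_div, div_le_one (by linarith)]; exact hh1)
  set d2 := fun x y => avgO β J (Φ) k x y - avgO β J (Ψ) k x y
  set g := fun x y => avgO β J (gen (Φ)) k x y
  have hg : ∀ t, |gen (Φ) t| ≤ 2 * Cf := fun t => by
    refine (abs_add_le _ _).trans ?_
    rw [abs_mul, abs_div, abs_two]
    linarith [(mul_le_of_le_one_left (abs_nonneg _) (abs_tanh_lt_one t).le).trans
      (hΦ'.b1 t), hΦ'.b2 t]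
  have hgb' : ∀ x y, |g x y| ≤ 2 * Cf := fun x y =>
    abs_avg_le_of_le (by linarith) fun j => hg _
  have hK2 : ∀ x y, |d2 x y + δ * g x y| ≤ K2 * (h * √h) := fun x y => by
    have e : d2 x y + δ * g x y = -avg fun j => Ψ (ampZ β J y (spins x) k j)
        - Φ (ampZ β J y (spins x) k j) - δ * gen (Φ) (ampZ β J y (spins x) k j) := by
      simp only [d2, g, avgO, avg, sum_sub_distrib, ← mul_sum]
      ring
    rw [e, abs_neg]
    refine abs_avg_le_of_le (by positivity) fun j => ?_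
    rw [hflow_eq]
    refine (hflow Cf _ hΦ' δ hδ0 hδ1 _).trans ?_
    rw [show K2 * (h * √h) = Kf * Cf * (h * b * (√h * √b)) by simp only [K2]; ring,
      ← Real.sqrt_mul hh]
    exact mul_le_mul_of_nonneg_left (mul_le_mul hδb (Real.sqrt_le_sqrt hδb) (Real.sqrt_nonneg _)
      (mul_nonneg hh hb)) (mul_nonneg hKf hCf)
  set s := fun x y => X x y / (2 * Cf)
  have hss : ∀ y, SlowScalar C2 fun x => s x y := fun y => by
    have h1 := slow_avg (β := β) (J := J) (y := y) (k := k) (le_max_right _ _) (hgb y) hCf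
      (smooth2_div (smooth2_of_smoothB hΨ) hCf1) fun t => by
        rw [abs_div, abs_of_nonneg hCf, div_le_one (by linarith)]; exact hΨ.b0 t
    have h2 : SlowScalar (n := n) 0 fun _ => c / Cf := slow_cst (by
      rw [abs_div, abs_of_nonneg hCf, div_le_one (by linarith)]; exact hc)
    have h3 := slow_half_sub h1 h2
    refine slow_mono (cast (congrArg _ (funext fun x => ?_)) h3) (le_max_right _ _)
    simp only [s, X, avgO, avg, ← sum_div]
    field_simp
  have hsc : ∀ x, Continuous (s x) := fun x => (cX x).div_const _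
  have hst := hsC n hn J (goodWords_mono hG (le_max_left _ _)
    ((le_max_left _ _).trans (le_max_left _ _))) F hF hm u h hu hh hh1' s hsc hss (Φ)
    (hΦ'.mono ((le_max_right _ _).trans (le_max_left _ _)))
  set σ := sigO β J k
  set D1 : Obs2 (Fin n) := fun x y y' => avgO β J (Φ) k x y' - avgO β J (Φ) k x y
  -- integrability
  have cΦ := continuous_avgO (β := β) (J := J) hΦ'.continuous k
  have bΦ : ∀ x y, |avgO β J (Φ) k x y| ≤ Cf := fun x y =>
    abs_avg_le_of_le hCf fun j => hΦ'.b0 _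
  have cd2 : ∀ x, Continuous (d2 x) := fun x =>
    (cΦ x).sub (continuous_avgO hΨ.continuous k x)
  have bd2 : ∀ x y, |d2 x y| ≤ 2 * Cf := fun x y => (abs_sub _ _).trans
    ((add_le_add (bΦ x y) (abs_avg_le_of_le hCf fun j => hΨ.b0 _)).trans_eq (two_mul Cf).symm)
  have bD1 : ∀ x y y', |D1 x y y'| ≤ 2 * Cf := fun x y y' => (abs_sub _ _).trans
    (by linarith [bΦ x y, bΦ x y'])
  have cD1 : ∀ x, Continuous fun q : (Fin n → ℝ) × (Fin n → ℝ) => D1 x q.1 q.2 := fun x =>
    ((cΦ x).comp continuous_snd).sub ((cΦ x).comp continuous_fst)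
  have I1 : BddCont2 fun x y y' => s x y * D1 x y y' := ⟨2 * Cf, fun x =>
    ⟨((hsc x).comp continuous_fst).mul (cD1 x), fun y y' => by
      rw [abs_mul]
      exact (mul_le_of_le_one_left (abs_nonneg _) (hss y x).1).trans (bD1 x y y')⟩⟩
  have I2 : BddCont2 fun x y y' => D1 x y y' ^ 2 := ⟨(2 * Cf) ^ 2, fun x =>
    ⟨(cD1 x).pow 2, fun y y' => by
      rw [abs_pow]; exact pow_le_pow_left₀ (abs_nonneg _) (bD1 x y y') 2⟩⟩
  have IX : BddCont2 fun x y (_ : Fin n → ℝ) => X x y ^ 2 :=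
    bddCont2_avgGap hΨ.continuous hCf hΨ.b0 c k
  have IR := bddCont2_sigGap (J := J) hβ σ' k
  set W := fun x y => X x y ^ 2 + 2 * (X x y * d2 x y) + 2 * d2 x y ^ 2
  have IW : BddCont2 fun x y (_ : Fin n → ℝ) => W x y := bddCont2_fst
    (fun x => (((cX x).pow 2).add (continuous_const.mul ((cX x).mul (cd2 x)))).add
      (continuous_const.mul ((cd2 x).pow 2)))
    (B := (2 * Cf) ^ 2 + 2 * (2 * Cf * (2 * Cf)) + 2 * (2 * Cf) ^ 2) fun x y => by
      refine (abs_add_le _ _).trans (add_le_add ((abs_add_le _ _).trans (add_le_add ?_ ?_)) ?_)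
      · rw [abs_pow]; exact pow_le_pow_left₀ (abs_nonneg _) (hX x y) 2
      · rw [abs_mul, abs_two, abs_mul]
        exact mul_le_mul_of_nonneg_left
          (mul_le_mul (hX x y) (bd2 x y) (abs_nonneg _) (by positivity)) zero_le_two
      · rw [abs_mul, abs_two, abs_pow]
        exact mul_le_mul_of_nonneg_left (pow_le_pow_left₀ (abs_nonneg _) (bd2 x y) 2) zero_le_two
  -- the square of the next average
  have hY1 : pE J F (u + h) (fun x y => X' x y ^ 2) = pE2 J F u h fun x _ y' => X' x y' ^ 2 := by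
    rw [pE2_snd J F hu hh (Φ := fun x y => X' x y ^ 2) (fun x => (cX' x).pow 2)
      (B := (2 * Cf) ^ 2) fun x y => by
      rw [abs_pow]; exact pow_le_pow_left₀ (abs_nonneg _) (hX' x y) 2]
  have hle : pE2 J F u h (fun x _ y' => X' x y' ^ 2)
      ≤ pE J F u W + 4 * Cf * pE2 J F u h (fun x y y' => s x y * D1 x y y')
        + 2 * pE2 J F u h (fun x y y' => D1 x y y' ^ 2) := by
    rw [← pE2_fst J F u h W, ← pE2_smul, ← pE2_smul (c := (2:ℝ)),
      ← pE2_add (IW.int2 u h) ((I1.int2 u h).smul _),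
      ← pE2_add ((IW.int2 u h).add ((I1.int2 u h).smul _)) ((I2.int2 u h).smul _)]
    have iA : Int2 u h fun x _ y' => X' x y' ^ 2 := BddCont2.int2 ⟨(2 * Cf) ^ 2,
      fun x => ⟨((cX' x).comp continuous_snd).pow 2, fun y y' => by
        rw [abs_pow]; exact pow_le_pow_left₀ (abs_nonneg _) (hX' x y') 2⟩⟩ u h
    rw [pE2_prod iA, pE2_prod (((IW.int2 u h).add ((I1.int2 u h).smul _)).add
      ((I2.int2 u h).smul _))]
    refine sum_le_sum fun x _ => mul_le_mul_of_nonneg_left
      (integral_mono (iA x) ((((IW.int2 u h).add ((I1.int2 u h).smul _)).add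
        ((I2.int2 u h).smul _)) x) fun q => ?_) (pF_nonneg J hF x)
    set y := pfield u x q.1
    set y' := nfield h x y q.2
    have e : X' x y' = X x y + d2 x y + D1 x y y' := by
      simp only [X, d2, D1]; ring
    have e2 : 4 * Cf * (s x y * D1 x y y') = 2 * (X x y * D1 x y y') := by
      simp only [s]; field_simp; ring
    rw [e2, e]
    simp only [W]
    nlinarith [sq_nonneg (d2 x y - D1 x y y')]
  have hD1 : pE2 J F u h (fun x y y' => D1 x y y' ^ 2) ≤ Csh * Cf ^ 2 * errE J F h := by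
    refine (le_abs_self _).trans (abs_pE2_le_inner hF hm fun x y => ?_)
    rw [abs_of_nonneg (integral_nonneg fun _ => sq_nonneg _)]
    refine (hshC n _ J y (spins x) h Cf _ hh (Rule.abs_spins_le x) hG hΦ').trans
      (mul_le_mul_of_nonneg_left ?_ (by positivity))
    have h2 : h ^ 2 ≤ h * √h := by
      rw [sq]
      exact mul_le_mul_of_nonneg_left
        (Real.le_sqrt_of_sq_le (by rw [sq]; exact mul_le_of_le_one_left hh hh1')) hh
    have h3 : h / n ≤ h / √n := div_le_div_of_nonneg_left hh (Real.sqrt_pos.2 hn')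
      (by nlinarith [Real.sq_sqrt hn'.le, Real.sqrt_nonneg (n:ℝ), (Nat.one_le_cast (α := ℝ)).2 hn])
    have h4 : 0 ≤ errN J F := Real.sqrt_nonneg _
    rw [errE]
    linarith
  set Z := fun x y => s x y * σ x y * g x y
  have IZ : BddCont2 fun x y (_ : Fin n → ℝ) => Z x y := bddCont2_fst
    (fun x => ((hsc x).mul (continuous_sigO k x)).mul
      (continuous_avgO ((continuous_tanh'.mul hΦ'.continuous_d1).add
        (hΦ'.continuous_d2.div_const 2)) k x)) (B := b * (2 * Cf)) fun x y => by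
      rw [abs_mul, abs_mul]
      refine mul_le_mul ((mul_le_of_le_one_left (abs_nonneg _) (hss y x).1).trans ?_) (hgb' x y)
        (abs_nonneg _) hb
      obtain ⟨a, a'⟩ := sigO_mem (J := J) hβ k x y
      rw [abs_of_nonneg a]; exact a'
  have hWle : pE J F u W + 4 * Cf * h * pE J F u Z
      ≤ (1 + h) * pE J F u (fun x y => X x y ^ 2) + 4 * Cf ^ 2 * h * pE J F u (fun x y => (sigO β J k x y - σ') ^ 2)
        + (4 * Cf * K2 + 2 * (2 * Cf * b + K2) ^ 2) * (h * √h) := by
    set e1 := (4 * Cf * K2 + 2 * (2 * Cf * b + K2) ^ 2) * (h * √h)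
    have IB := (IX.comb IR (1 + h) (4 * Cf ^ 2 * h))
    have Ie : BddCont2 fun (_ : Fin n → Bool) (_ : Fin n → ℝ) (_ : Fin n → ℝ) => e1 :=
      bddCont2_fst (fun _ => continuous_const) fun _ _ => le_rfl
    have := pE_mono (J := J) (u := u) hF (IW.comb IZ 1 (4 * Cf * h)) (IB.comb Ie 1 1)
      fun x y => ?_
    · rw [pE_comb IW IZ, pE_comb IB Ie, pE_comb IX IR, pE_const hm, one_mul, one_mul, one_mul]
        at this
      exact this
    · simp only [one_mul, W, Z, e1]
      set a := X x y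
      set r := d2 x y + δ * g x y
      have hr := hK2 x y
      have hd2 : d2 x y = r - δ * g x y := by simp only [r]; ring
      have e : 4 * Cf * h * (s x y * σ x y * g x y) = 2 * h * (a * σ x y * g x y) := by
        simp only [s, a]; field_simp; ring
      rw [e]
      have hmain : 2 * (a * d2 x y) + 2 * h * (a * σ x y * g x y)
          = 2 * (a * r) + 2 * h * (a * (σ x y - σ') * g x y) := by
        rw [hd2, hδe]; ring
      have h1 : 2 * (a * r) ≤ 4 * Cf * (K2 * (h * √h)) := by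
        have := mul_le_mul (hX x y) hr (abs_nonneg _) (by positivity)
        rw [← abs_mul] at this
        linarith [le_abs_self (a * r)]
      have h2 : 2 * h * (a * (σ x y - σ') * g x y)
          ≤ h * a ^ 2 + 4 * Cf ^ 2 * h * (σ x y - σ') ^ 2 := by
        have hg2 : g x y ^ 2 ≤ 4 * Cf ^ 2 := by
          rw [← sq_abs]; refine (pow_le_pow_left₀ (abs_nonneg _) (hgb' x y) 2).trans_eq (by ring)
        have := mul_nonneg hh (sq_nonneg (a - (σ x y - σ') * g x y))
        have := mul_le_mul_of_nonneg_left hg2 (mul_nonneg hh (sq_nonneg (σ x y - σ')))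
        linarith
      have h3 : 2 * d2 x y ^ 2 ≤ 2 * (2 * Cf * b + K2) ^ 2 * (h * √h) := by
        have hab : |d2 x y| ≤ (2 * Cf * b + K2) * h := by
          rw [hd2]
          refine (abs_sub _ _).trans ?_
          rw [abs_mul, abs_of_nonneg hδ0]
          have := mul_le_mul hδb (hgb' x y) (abs_nonneg _) (mul_nonneg hh hb)
          have hK20 : 0 ≤ K2 := by positivity
          have : K2 * (h * √h) ≤ K2 * h := mul_le_mul_of_nonneg_left
            (mul_le_of_le_one_right hh (Real.sqrt_le_one.2 hh1')) hK20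
          linarith
        have h2' := pow_le_pow_left₀ (abs_nonneg _) hab 2
        rw [sq_abs, mul_pow] at h2'
        have h2h : h ^ 2 ≤ h * √h := by
          rw [sq]
          exact mul_le_mul_of_nonneg_left
            (Real.le_sqrt_of_sq_le (by rw [sq]; exact mul_le_of_le_one_left hh hh1')) hh
        have := mul_le_mul_of_nonneg_left h2h (sq_nonneg (2 * Cf * b + K2))
        linarith
      linarith
  have hst' : 4 * Cf * pE2 J F u h (fun x y y' => s x y * D1 x y y')
      ≤ 4 * Cf * h * pE J F u Z + 4 * Cf * Cst * errE J F h := by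
    have h0 := mul_le_mul_of_nonneg_left (abs_le.1 hst).2 (show (0:ℝ) ≤ 4 * Cf by positivity)
    simp only [D1, Z, g, σ]
    linarith
  have hK20 : 0 ≤ 4 * Cf * K2 + 2 * (2 * Cf * b + K2) ^ 2 := by positivity
  have hhE : h * √h ≤ errE J F h := by
    rw [errE, add_assoc]
    exact le_add_of_nonneg_right (add_nonneg (div_nonneg hh (Real.sqrt_nonneg _))
      (Real.sqrt_nonneg _))
  have h4 := mul_le_mul_of_nonneg_left hhE hK20
  change pE J F (u + h) (fun x y => X' x y ^ 2) ≤ _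
  rw [hY1]
  simp only [C']
  linarith

/-- The martingale: an average at level `k` is near its profile value when the variance rates on
the earlier grid are near theirs. -/
theorem avgGap_le (hT : TestsStatement β) (hGr : GradStatement β) (hβ : β ^ 2 < 1) (C₀ : ℝ) :
    ∃ Kφ, 0 ≤ Kφ ∧ ∀ k : ℕ, ∃ m : ℕ, ∀ C, ∃ C', 0 ≤ C' ∧ ∀ (n : ℕ), 0 < n →
      ∀ (J : Fin n → Fin n → ℝ), GoodWords β m C J →
      ∀ F : (Fin n → Bool) → ℝ, (∀ x, 0 < F x) → mean (p0 J) F = 1 →
      ∀ h T : ℝ, 0 ≤ h → h ≤ 1 - β ^ 2 → ∀ N : ℕ, N * h ≤ T → ∀ φ, SmoothB C₀ φ → ∀ i ≤ N,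
        avgGap β J F h φ k i ≤ exp T * (Kφ * startGap β J F k
          + Kφ * h * ∑ l ∈ range i, rateGap β J F h k l + C' * (N * errE J F h)) := by
  rcases lt_or_ge C₀ 0 with hC₀ | hC₀
  · exact ⟨0, le_rfl, fun k => ⟨0, fun C => ⟨0, le_rfl, fun n _ J _ F _ _ h T _ _ N _ φ hφ =>
      absurd hφ.nonneg (not_le.2 hC₀)⟩⟩⟩
  set Cf := max (24 * C₀) 1
  have hCf1 : (1:ℝ) ≤ Cf := le_max_right _ _
  have hCf : (0:ℝ) ≤ Cf := zero_le_one.trans hCf1
  set b := 1 / (1 - β ^ 2)
  have hb : 0 ≤ b := one_div_nonneg.2 (by linarith)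
  refine ⟨4 * Cf ^ 2, by positivity, fun k => ?_⟩
  obtain ⟨m, hst⟩ := avgGap_step hT hGr hβ hCf1 k
  refine ⟨m, fun C => ?_⟩
  obtain ⟨C', hC'0, hstC⟩ := hst C
  refine ⟨C', hC'0, fun n hn J hG F hF hm h T hh hh1 N hNT φ hφ i hi => ?_⟩
  have hn' : (0:ℝ) < n := Nat.cast_pos.2 hn
  set S := profS β h
  set Φ := fun l => flow (S i - S l) φ
  set c := flow (S i) φ 0
  set X := fun l => fun (x : Fin n → Bool) (y : Fin n → ℝ) => avgO β J (Φ l) k x y - c
  set Y := fun l : ℕ => pE J F (l * h) fun x y => X l x y ^ 2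
  have hΦ : ∀ l, SmoothB Cf (Φ l) := fun l => (hφ.flow _).mono (le_max_left _ _)
  have hc : |c| ≤ Cf := (abs_flow_le hφ.b0 _ _).trans
    (le_trans (by linarith) (le_max_left (24 * C₀) 1))
  have hX : ∀ l x y, |X l x y| ≤ 2 * Cf := fun l x y => (abs_sub _ _).trans
    ((add_le_add (abs_avg_le_of_le hCf fun j => (hΦ l).b0 _) hc).trans_eq (two_mul Cf).symm)
  have cX : ∀ l x, Continuous (X l x) := fun l x =>
    (continuous_avgO (hΦ l).continuous k x).sub continuous_const
  have hE := errE_nonneg (J := J) hh F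
  have hY0 : Y 0 ≤ 4 * Cf ^ 2 * startGap β J F k := by
    have e : ∀ x, pfield (0 : ℝ) x = fun _ : Fin n → ℝ => (0 : Fin n → ℝ) := fun x => by
      funext ξ j; simp [pfield]
    have e0 : Y 0 = tmean (gibbs J 0) F fun x => X 0 x 0 ^ 2 := by
      simp only [Y, Nat.cast_zero, zero_mul, pE, e, integral_const, probReal_univ, one_smul]
      rw [tmean, show mean (gibbs J 0) F = 1 from hm, div_one]
      simp only [mean, p0, mul_assoc]
    rw [e0, startGap, ← tmean_mul]
    refine tmean_mono hF fun x => ?_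
    have hd : ∀ j, |Φ 0 (ampZ β J 0 (spins x) k j) - c| ≤ Cf * |ampZ β J 0 (spins x) k j| := by
      intro j
      have hc0 : c = Φ 0 0 := by simp [c, Φ, S, profS]
      rw [hc0]
      have := (convex_univ (𝕜 := ℝ) (E := ℝ)).norm_image_sub_le_of_norm_hasDerivWithin_le
        (f := Φ 0) (f' := deriv (Φ 0)) (C := Cf) (fun t _ => ((hΦ 0).d1 t).hasDerivWithinAt)
        (fun t _ => by rw [Real.norm_eq_abs]; exact (hΦ 0).b1 t) (Set.mem_univ 0)
        (Set.mem_univ (ampZ β J 0 (spins x) k j))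
      simpa using this
    have h1 : |X 0 x 0| ≤ Cf * avg fun j => |ampZ β J 0 (spins x) k j| := by
      simp only [X, avgO, avg, Fintype.card_fin]
      rw [mul_div_assoc', mul_sum, show c = (∑ _j : Fin n, c) / n by simp; field_simp,
        ← sub_div, ← sum_sub_distrib, abs_div, Nat.abs_cast]
      exact div_le_div_of_nonneg_right ((abs_sum_le_sum_abs _ _).trans (sum_le_sum fun j _ => hd j))
        hn'.le
    have h2 : (avg fun j => |ampZ β J 0 (spins x) k j|) ^ 2
        ≤ avg fun j => ampZ β J 0 (spins x) k j ^ 2 := by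
      simp only [avg, Fintype.card_fin, div_pow]
      rw [div_le_div_iff₀ (by positivity) hn']
      have h3 := sum_mul_sq_le_sq_mul_sq univ (fun j => |ampZ β J 0 (spins x) k j|) fun _ => (1:ℝ)
      simp only [mul_one, sq_abs, one_pow, sum_const, card_univ, Fintype.card_fin,
        nsmul_one] at h3
      nlinarith [h3, hn']
    rw [← sq_abs]
    refine (pow_le_pow_left₀ (abs_nonneg _) h1 2).trans ?_
    rw [mul_pow]
    refine mul_le_mul (by nlinarith [sq_nonneg Cf]) h2 (sq_nonneg _) (by positivity)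
  have hstep : ∀ l < i, Y (l + 1)
      ≤ (1 + h) * Y l + (4 * Cf ^ 2 * h * rateGap β J F h k l + C' * errE J F h) := by
    intro l hl
    obtain ⟨hσ1, hσ2⟩ := sigStar_mem (h := h) hβ l
    have hδe : S (l + 1) - S l = h * sigStar β h l := by simp only [S, profS, sigStar]; ring
    have hsi : 0 ≤ S i - S (l + 1) := sub_nonneg.2 (profS_mono hβ hh hl)
    have := hstC n hn J hG F hF hm (l * h) h (by positivity) hh hh1 (sigStar β h l)
      (S (l + 1) - S l) c hσ1 hσ2 hδe hc (Φ l) (Φ (l + 1)) (hΦ l) (hΦ (l + 1)) fun z => by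
        simp only [Φ]
        rw [flow_flow hφ.continuous hφ.b0 (hδe ▸ mul_nonneg hh (zero_le_one.trans hσ1)) hsi]
        ring_nf
    rw [show (l:ℝ) * h + h = ((l + 1 : ℕ) : ℝ) * h by push_cast; ring] at this
    exact this
  have hG0 : ∀ l, 0 ≤ rateGap β J F h k l := fun l =>
    sum_nonneg fun x _ => mul_nonneg (pF_nonneg J hF x) (integral_nonneg fun ξ => sq_nonneg _)
  have hch := chain_bound hh (Y := Y)
    (a := fun l => 4 * Cf ^ 2 * h * rateGap β J F h k l + C' * errE J F h)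
    (sum_nonneg fun x _ => mul_nonneg (pF_nonneg J hF x) (integral_nonneg fun ξ => sq_nonneg _))
    (fun l _ => add_nonneg (mul_nonneg (by positivity) (hG0 l)) (mul_nonneg (by positivity) hE))
    hstep
  have hYi : Y i = avgGap β J F h φ k i := by
    simp only [Y, X, Φ, avgGap, c, S, sub_self, show flow 0 φ = φ from funext (flow_zero φ)]
  rw [hYi, sum_add_distrib, ← mul_sum, sum_const, card_range, nsmul_eq_mul] at hch
  have hiN : (i:ℝ) ≤ N := Nat.cast_le.2 hi
  refine hch.trans (mul_le_mul (exp_le_exp.2 ((mul_le_mul_of_nonneg_right hiN hh).trans hNT)) ?_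
    (add_nonneg (sum_nonneg fun x _ => mul_nonneg (pF_nonneg J hF x)
      (integral_nonneg fun ξ => sq_nonneg _)) (add_nonneg (mul_nonneg (by positivity)
        (sum_nonneg fun l _ => hG0 l)) (by positivity))) (exp_pos _).le)
  have := mul_le_mul_of_nonneg_right hiN (mul_nonneg (show (0:ℝ) ≤ C' by positivity) hE)
  linarith

end Vale.Agent.P150.Beta1.Profile
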