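import Vale.Agent.P150.Beta1.Local.Ising
import Vale.Agent.P150.Beta1.Fields.Nishimori

/-!
# The laws of a configuration and of its fields at two times

`pE u Φ` is the mean of `Φ (x, u x + √u ξ)` for `x` of law `p0 · F`; `pE2` adds a second field
`y + h x + √h ξ'`. Given the later field the configuration has the law of the tilted component, so
bounds for tilted Ising measures average to bounds for `pE2`.
-/

namespace Vale.Agent.P150.Beta1.Profile

open MeasureTheory ProbabilityTheory Finset Function Real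
open Local

variable {ι : Type*} [Fintype ι]

/-- Observables of a configuration and one field. -/
abbrev Obs (ι : Type*) := (ι → Bool) → (ι → ℝ) → ℝ

/-- Observables of a configuration and two fields. -/
abbrev Obs2 (ι : Type*) := (ι → Bool) → (ι → ℝ) → (ι → ℝ) → ℝ

/-- The field seen at time `u`. -/
noncomputable def pfield (u : ℝ) (x : ι → Bool) (ξ : ι → ℝ) : ι → ℝ :=
  fun i => u * spins x i + √u * ξ i

/-- The field seen a time `h` later. -/
noncomputable def nfield (h : ℝ) (x : ι → Bool) (y ξ : ι → ℝ) : ι → ℝ :=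
  fun i => y i + (h * spins x i + √h * ξ i)

variable [DecidableEq ι]

/-- Mean over configuration and field. -/
noncomputable def pE (J : ι → ι → ℝ) (F : (ι → Bool) → ℝ) (u : ℝ) (Φ : Obs ι) : ℝ :=
  ∑ x, p0 J x * F x * ∫ ξ, Φ x (pfield u x ξ) ∂gauss ι

/-- Mean over configuration and the fields at two times. -/
noncomputable def pE2 (J : ι → ι → ℝ) (F : (ι → Bool) → ℝ) (u h : ℝ) (Φ : Obs2 ι) : ℝ :=
  ∑ x, p0 J x * F x * ∫ ξ, (∫ ξ', Φ x (pfield u x ξ) (nfield h x (pfield u x ξ) ξ') ∂gauss ι)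
    ∂gauss ι

/-- Jointly continuous and bounded. -/
def BddCont2 (Φ : Obs2 ι) : Prop :=
  ∃ B, ∀ x, Continuous (fun q : (ι → ℝ) × (ι → ℝ) => Φ x q.1 q.2) ∧ ∀ y y', |Φ x y y'| ≤ B

omit [DecidableEq ι] in
lemma integral_shift' {u : ℝ} (hu : 0 ≤ u) (x : ι → Bool) {G : (ι → ℝ) → ℝ} (hG : Measurable G) :
    ∫ g, exp (√u * dotk g (spins x) - u * dotk (spins x) (spins x) / 2) * G g ∂gauss ι
      = ∫ ξ, G (fun i => ξ i + √u * spins x i) ∂gauss ι := by
  have h := integral_shift (fun i => √u * spins x i) hG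
  refine Eq.trans (integral_congr_ae (ae_of_all _ fun g => ?_)) h.symm
  simp only [shiftW, lin, sqn, dotk, mul_pow, Real.sq_sqrt hu, mul_sum, sum_div]
  refine congrArg (fun t => exp t * G g) ?_
  refine congrArg₂ _ (sum_congr rfl fun k _ => by ring) (sum_congr rfl fun k _ => by ring)

lemma integrable_tilt_mul {u : ℝ} (hu : 0 ≤ u) (p : (ι → Bool) → ℝ) (x : ι → Bool)
    {G : (ι → ℝ) → ℝ} (hG : Continuous G) {B : ℝ} (hB : ∀ g, |G g| ≤ B) :
    Integrable (fun g => tilt p spins u g x * G g) (gauss ι) := by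
  refine (integrable_of_env spins (continuous_tilt p spins u x) (K := |p x|) (c := rate u)
    fun g => ?_).mul_bdd hG.aestronglyMeasurable
    (ae_of_all _ fun g => (Real.norm_eq_abs _).le.trans (hB g))
  rw [tilt, abs_mul, abs_exp]
  exact mul_le_mul_of_nonneg_left
    (exp_le_exp.2 (abs_le.1 (abs_exponent_le_rate spins hu g x)).2) (abs_nonneg _)

/-- Given the field, the configuration has the law of the tilted component. -/
theorem pE_eq {J : ι → ι → ℝ} (F : (ι → Bool) → ℝ) {u : ℝ} (hu : 0 ≤ u) {Φ : Obs ι}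
    (hc : ∀ x, Continuous (Φ x)) {B : ℝ} (hB : ∀ x y, |Φ x y| ≤ B) :
    pE J F u Φ
      = ∫ g, wgt J u g * mean (gibbs J (fld u g)) (fun x => F x * Φ x (fld u g)) ∂gauss ι := by
  have hfc : Continuous (fld (ι := ι) u) := by unfold fld; fun_prop
  simp only [← sum_tilt]
  rw [integral_finsetSum _ fun x _ => ?_]
  · refine sum_congr rfl fun x _ => ?_
    have e : ∀ g, tilt (p0 J) spins u g x * (F x * Φ x (fld u g)) = p0 J x * F x
        * (exp (√u * dotk g (spins x) - u * dotk (spins x) (spins x) / 2) * Φ x (fld u g)) :=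
      fun g => by simp only [tilt]; ring
    simp only [e, integral_const_mul]
    rw [integral_shift' hu x (G := fun g => Φ x (fld u g)) ((hc x).comp hfc).measurable]
    refine congrArg _ (integral_congr_ae (ae_of_all _ fun ξ => ?_))
    refine congrArg (Φ x) ?_
    funext i
    simp only [pfield, fld, mul_add, ← mul_assoc, Real.mul_self_sqrt hu]
    ring
  · refine integrable_tilt_mul hu (p0 J) x (continuous_const.mul ((hc x).comp hfc))
      (B := |F x| * B) fun g => ?_
    rw [abs_mul]
    exact mul_le_mul_of_nonneg_left (hB x _) (abs_nonneg _)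

/-- The weight of a component at two times. -/
noncomputable def wgt2 (J : ι → ι → ℝ) (u h : ℝ) (g g' : ι → ℝ) : ℝ :=
  tot (tilt (tilt (p0 J) spins u g) spins h g')

/-- The second field in tilt coordinates. -/
noncomputable def fld2 (u h : ℝ) (g g' : ι → ℝ) : ι → ℝ := fun i => √u * g i + √h * g' i

omit [DecidableEq ι] in
lemma tilt2_eq {u h : ℝ} (hu : 0 ≤ u) (hh : 0 ≤ h) (p : (ι → Bool) → ℝ) (g g' : ι → ℝ) :
    ∀ x, tilt (tilt p spins u g) spins h g' x
      = tilt p spins (u + h) (fun i => (√u * g i + √h * g' i) / √(u + h)) x := by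
  intro x
  simp only [tilt, mul_assoc, ← exp_add, dotk_spins]
  refine congrArg (fun t => p x * exp t) ?_
  rcases (add_nonneg hu hh).eq_or_lt with h0 | h0
  · obtain ⟨rfl, rfl⟩ := (add_eq_zero_iff_of_nonneg hu hh).1 h0.symm
    simp
  · have hs := (Real.sqrt_pos.2 h0).ne'
    have : √(u + h) * dotk (fun i => (√u * g i + √h * g' i) / √(u + h)) (spins x)
        = √u * dotk g (spins x) + √h * dotk g' (spins x) := by
      simp only [dotk, mul_sum, ← sum_add_distrib]
      refine sum_congr rfl fun k _ => ?_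
      field_simp
    rw [this]
    ring

lemma sum_tilt2 (J : ι → ι → ℝ) {u h : ℝ} (hu : 0 ≤ u) (hh : 0 ≤ h) (g g' : ι → ℝ)
    (Φ : (ι → Bool) → ℝ) : ∑ x, tilt (tilt (p0 J) spins u g) spins h g' x * Φ x
      = wgt2 J u h g g' * mean (gibbs J (fld2 u h g g')) Φ := by
  have e := tilt2_eq hu hh (p0 J) g g'
  have ef : fld (u + h) (fun i => (√u * g i + √h * g' i) / √(u + h)) = fld2 u h g g' := by
    funext i
    simp only [fld, fld2]
    rcases (add_nonneg hu hh).eq_or_lt with h0 | h0
    · obtain ⟨rfl, rfl⟩ := (add_eq_zero_iff_of_nonneg hu hh).1 h0.symm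
      simp
    · rw [mul_div_cancel₀ _ (Real.sqrt_pos.2 h0).ne']
  simp only [wgt2, tot, e, sum_tilt, ef]
  rfl

lemma wgt2_nonneg (J : ι → ι → ℝ) (u h : ℝ) (g g' : ι → ℝ) : 0 ≤ wgt2 J u h g g' :=
  sum_nonneg fun x _ => tilt_nonneg (fun y => tilt_nonneg (fun z => (p0_pos J z).le) spins u g y)
    spins h g' x

omit [DecidableEq ι] in
lemma continuous_tilt2 (p : (ι → Bool) → ℝ) (u h : ℝ) (x : ι → Bool) :
    Continuous fun q : (ι → ℝ) × (ι → ℝ) => tilt (tilt p spins u q.1) spins h q.2 x := by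
  simp only [tilt, dotk]
  fun_prop

lemma integrable_tilt2_mul {u h : ℝ} (hu : 0 ≤ u) (hh : 0 ≤ h) (p : (ι → Bool) → ℝ)
    (x : ι → Bool) {G : (ι → ℝ) × (ι → ℝ) → ℝ} (hG : Continuous G) {B : ℝ} (hB : ∀ q, |G q| ≤ B) :
    Integrable (fun q : (ι → ℝ) × (ι → ℝ) => tilt (tilt p spins u q.1) spins h q.2 x * G q)
      ((gauss ι).prod (gauss ι)) := by
  have h1 := ((integrable_exp_env (spins : (ι → Bool) → ι → ℝ) (rate u)).const_mul |p x|).mul_prod
    (integrable_exp_env (spins : (ι → Bool) → ι → ℝ) (rate h))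
  refine (h1.mono' (continuous_tilt2 p u h x).aestronglyMeasurable (ae_of_all _ fun q => ?_)
    ).mul_bdd hG.aestronglyMeasurable (ae_of_all _ fun q => (Real.norm_eq_abs _).le.trans (hB q))
  rw [Real.norm_eq_abs, tilt, tilt, abs_mul, abs_mul, abs_exp, abs_exp]
  exact mul_le_mul (mul_le_mul_of_nonneg_left
      (exp_le_exp.2 (abs_le.1 (abs_exponent_le_rate spins hu q.1 x)).2) (abs_nonneg _))
    (exp_le_exp.2 (abs_le.1 (abs_exponent_le_rate spins hh q.2 x)).2) (exp_pos _).le
    (mul_nonneg (abs_nonneg _) (exp_pos _).le)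

/-- Given the later field, the configuration has the law of the tilted component. -/
theorem pE2_eq {J : ι → ι → ℝ} (F : (ι → Bool) → ℝ) {u h : ℝ} (hu : 0 ≤ u) (hh : 0 ≤ h)
    {Φ : Obs2 ι} (hΦ : BddCont2 Φ) :
    pE2 J F u h Φ = ∫ q : (ι → ℝ) × (ι → ℝ), wgt2 J u h q.1 q.2
      * mean (gibbs J (fld2 u h q.1 q.2))
          (fun x => F x * Φ x (fld u q.1) (fld2 u h q.1 q.2)) ∂(gauss ι).prod (gauss ι) := by
  obtain ⟨B, hΦ⟩ := hΦ
  have hf : Continuous fun q : (ι → ℝ) × (ι → ℝ) => (fld u q.1, fld2 u h q.1 q.2) := by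
    unfold fld fld2; fun_prop
  have hi : ∀ x, Integrable (fun q : (ι → ℝ) × (ι → ℝ) =>
      tilt (tilt (p0 J) spins u q.1) spins h q.2 x * (F x * Φ x (fld u q.1) (fld2 u h q.1 q.2)))
      ((gauss ι).prod (gauss ι)) := fun x =>
    integrable_tilt2_mul hu hh (p0 J) x (continuous_const.mul ((hΦ x).1.comp hf))
      (B := |F x| * B) fun q => by
        rw [abs_mul]; exact mul_le_mul_of_nonneg_left ((hΦ x).2 _ _) (abs_nonneg _)
  simp only [← sum_tilt2 J hu hh]
  rw [integral_finsetSum _ fun x _ => hi x]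
  refine sum_congr rfl fun x _ => ?_
  rw [integral_prod _ (hi x)]
  have e : ∀ g g', tilt (tilt (p0 J) spins u g) spins h g' x
      * (F x * Φ x (fld u g) (fld2 u h g g')) = p0 J x * F x
        * (exp (√u * dotk g (spins x) - u * dotk (spins x) (spins x) / 2)
        * (exp (√h * dotk g' (spins x) - h * dotk (spins x) (spins x) / 2)
          * Φ x (fld u g) (fld2 u h g g'))) := fun g g' => by simp only [tilt]; ring
  simp only [e, integral_const_mul]
  have hcg : ∀ g, Continuous fun g' => Φ x (fld u g) (fld2 u h g g') := fun g =>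
    ((hΦ x).1.comp hf).comp (continuous_const.prodMk continuous_id)
  simp only [fun g => integral_shift' hh x (hcg g).measurable]
  have hc2 : StronglyMeasurable fun g => ∫ ξ', Φ x (fld u g)
      (fld2 u h g fun i => ξ' i + √h * spins x i) ∂gauss ι := by
    refine Continuous.stronglyMeasurable (f := fun q : (ι → ℝ) × (ι → ℝ) =>
      Φ x (fld u q.1) (fld2 u h q.1 fun i => q.2 i + √h * spins x i)) ?_ |>.integral_prod_right'
    have hm : Continuous fun q : (ι → ℝ) × (ι → ℝ) => (q.1, fun i => q.2 i + √h * spins x i) := by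
      fun_prop
    exact ((hΦ x).1.comp hf).comp hm
  rw [integral_shift' hu x hc2.measurable]
  refine congrArg _ (integral_congr_ae (ae_of_all _ fun ξ => ?_))
  refine integral_congr_ae (ae_of_all _ fun ξ' => ?_)
  have e1 : fld u (fun i => ξ i + √u * spins x i) = pfield u x ξ := by
    funext i
    simp only [fld, pfield, mul_add, ← mul_assoc, Real.mul_self_sqrt hu]
    ring
  have e2 : fld2 u h (fun i => ξ i + √u * spins x i) (fun i => ξ' i + √h * spins x i)
      = nfield h x (pfield u x ξ) ξ' := by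
    funext i
    simp only [fld2, nfield, pfield, mul_add, ← mul_assoc, Real.mul_self_sqrt hu,
      Real.mul_self_sqrt hh]
    ring
  beta_reduce
  rw [e1, e2]

/-- Dirichlet forms decrease in mean, two-time version. -/
lemma dirichlet_loc2_le (J : ι → ι → ℝ) {u h : ℝ} (hu : 0 ≤ u) (hh : 0 ≤ h)
    (f : (ι → Bool) → ℝ) :
    ∫ q : (ι → ℝ) × (ι → ℝ), wgt2 J u h q.1 q.2 * dirichlet (gibbs J (fld2 u h q.1 q.2)) f
      ∂(gauss ι).prod (gauss ι) ≤ dirichlet (p0 J) f := by
  set G := fun i => resample (p0 J) i f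
  set Φ := fun x => ∑ i, (f x - G i x) ^ 2
  have e : dirichlet (p0 J) f = mean (p0 J) Φ := by
    rw [dirichlet_eq_sub (ρ := p0 J) (IsWeight.gibbs J 0)]
    simp only [mean, Φ, G, mul_sum]
    exact sum_comm
  have hi : ∀ x, Integrable (fun q : (ι → ℝ) × (ι → ℝ) =>
      tilt (tilt (p0 J) spins u q.1) spins h q.2 x * Φ x) ((gauss ι).prod (gauss ι)) := fun x =>
    integrable_tilt2_mul hu hh (p0 J) x continuous_const (fun _ => le_rfl)
  have e2 : mean (p0 J) Φ = ∫ q : (ι → ℝ) × (ι → ℝ), wgt2 J u h q.1 q.2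
      * mean (gibbs J (fld2 u h q.1 q.2)) Φ ∂(gauss ι).prod (gauss ι) := by
    simp only [← sum_tilt2 J hu hh]
    rw [integral_finsetSum _ fun x _ => hi x]
    refine sum_congr rfl fun x _ => ?_
    rw [integral_prod _ (hi x)]
    simp only [integral_mul_const, integral_tilt _ _ hh, integral_tilt _ _ hu]
  rw [e, e2]
  refine integral_mono_of_nonneg (ae_of_all _ fun q => mul_nonneg (wgt2_nonneg J u h _ _)
    (dirichlet_nonneg' (IsWeight.gibbs _ _))) ?_ (ae_of_all _ fun q => ?_)
  · simp only [← sum_tilt2 J hu hh]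
    exact integrable_finsetSum _ fun x _ => hi x
  · refine mul_le_mul_of_nonneg_left ((dirichlet_le_sub (IsWeight.gibbs _ _) G
      fun i x b => resample_update_self _ i f x b).trans (le_of_eq ?_)) (wgt2_nonneg J u h _ _)
    simp only [mean, Φ, mul_sum]
    exact sum_comm

/-- A bound for every tilted Ising measure averages to a bound for the two-time mean. -/
theorem abs_pE2_le {J : ι → ι → ℝ} {F : (ι → Bool) → ℝ} (hF : ∀ x, 0 < F x)
    (hm : mean (p0 J) F = 1) {u h : ℝ} (hu : 0 ≤ u) (hh : 0 ≤ h) {Φ : Obs2 ι} (hΦ : BddCont2 Φ)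
    {K : ℝ} (hK : 0 ≤ K) (hb : ∀ y y', |tmean (gibbs J y') F (fun x => Φ x y y')|
      ≤ K * √(tdir (gibbs J y') F + 1)) :
    |pE2 J F u h Φ| ≤ K * √(dirichlet (p0 J) (fun x => √(F x)) + 1) := by
  set D := dirichlet (p0 J) (fun x => √(F x))
  have hD : 0 ≤ D := dirichlet_nonneg' (IsWeight.gibbs J 0)
  set lam := √(D + 1)
  have hl : 0 < lam := Real.sqrt_pos.2 (by linarith)
  set P := (gauss ι).prod (gauss ι)
  set W := fun q : (ι → ℝ) × (ι → ℝ) => wgt2 J u h q.1 q.2
  set m := fun q : (ι → ℝ) × (ι → ℝ) => mean (gibbs J (fld2 u h q.1 q.2)) F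
  set d := fun q : (ι → ℝ) × (ι → ℝ) =>
    dirichlet (gibbs J (fld2 u h q.1 q.2)) (fun x => √(F x))
  have hWm : Integrable (fun q => W q * m q) P ∧ ∫ q, W q * m q ∂P = 1 := by
    have hi : ∀ x, Integrable (fun q : (ι → ℝ) × (ι → ℝ) =>
        tilt (tilt (p0 J) spins u q.1) spins h q.2 x * F x) P := fun x =>
      integrable_tilt2_mul hu hh (p0 J) x continuous_const (fun _ => le_rfl)
    simp only [W, m, ← sum_tilt2 J hu hh]
    refine ⟨integrable_finsetSum _ fun x _ => hi x, ?_⟩
    rw [integral_finsetSum _ fun x _ => hi x, ← hm]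
    refine sum_congr rfl fun x _ => ?_
    rw [integral_prod _ (hi x)]
    simp only [integral_mul_const, integral_tilt _ _ hh, integral_tilt _ _ hu]
  have hWd : Integrable (fun q => W q * d q) P := by
    have hc : Continuous fun q => W q * d q := by
      refine Continuous.mul (continuous_finsetSum _ fun x _ => continuous_tilt2 (p0 J) u h x) ?_
      have hρ : ∀ z, Continuous fun q : (ι → ℝ) × (ι → ℝ) => gibbs J (fld2 u h q.1 q.2) z :=
        fun z => by
          simp only [gibbs, energy, fld2]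
          exact Continuous.div₀ (by fun_prop) (by fun_prop) fun q => partition_pos.ne'
      simp only [d, dirichlet, mean, generator, resample]
      refine (continuous_finsetSum _ fun z _ => (hρ z).mul (continuous_const.mul
        (continuous_finsetSum _ fun i _ => (Continuous.div₀ (((hρ _).mul continuous_const).add
          ((hρ _).mul continuous_const)) ((hρ _).add (hρ _)) fun q => ?_).sub continuous_const))).neg
      exact (add_pos (gibbs_pos _) (gibbs_pos _)).ne'
    set G := fun i => resample (p0 J) i fun x => √(F x)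
    set Φ' := fun x => ∑ i, (√(F x) - G i x) ^ 2
    refine (integrable_finsetSum univ fun x _ => integrable_tilt2_mul hu hh (p0 J) x
      (continuous_const (y := Φ' x)) (fun _ => le_rfl)).mono' hc.aestronglyMeasurable
      (ae_of_all _ fun q => ?_)
    rw [Real.norm_eq_abs, abs_of_nonneg (mul_nonneg (wgt2_nonneg J u h _ _)
      (dirichlet_nonneg' (IsWeight.gibbs _ _))), sum_tilt2 J hu hh]
    refine mul_le_mul_of_nonneg_left ((dirichlet_le_sub (IsWeight.gibbs _ _) G
      fun i x b => resample_update_self _ i _ x b).trans (le_of_eq ?_)) (wgt2_nonneg J u h _ _)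
    simp only [mean, Φ', mul_sum]
    exact sum_comm
  have hWd1 : ∫ q, W q * d q ∂P ≤ D := dirichlet_loc2_le J hu hh _
  rw [pE2_eq F hu hh hΦ]
  have key : ∀ q, |W q * mean (gibbs J (fld2 u h q.1 q.2))
      (fun x => F x * Φ x (fld u q.1) (fld2 u h q.1 q.2))|
      ≤ K / 2 * (lam * (W q * m q) + (W q * d q + W q * m q) / lam) := by
    intro q
    have hmq : 0 < m q := mean_pos (IsWeight.gibbs _ _) hF
    have hWq : 0 ≤ W q := wgt2_nonneg J u h _ _
    have hb' := hb (fld u q.1) (fld2 u h q.1 q.2)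
    set s := √(tdir (gibbs J (fld2 u h q.1 q.2)) F + 1)
    have hdq : 0 ≤ d q := dirichlet_nonneg' (IsWeight.gibbs _ _)
    have hs2 : s ^ 2 * m q = d q + m q := by
      have : tdir (gibbs J (fld2 u h q.1 q.2)) F = d q / m q := rfl
      rw [Real.sq_sqrt (by rw [this]; positivity), this, add_mul, div_mul_cancel₀ _ hmq.ne', one_mul]
    have hs : s ≤ (lam + s ^ 2 / lam) / 2 := by
      have := two_mul_le_add_sq lam s
      rw [le_div_iff₀ two_pos, ← sub_nonneg]
      have e : lam + s ^ 2 / lam - s * 2 = (lam - s) ^ 2 / lam := by field_simp; ring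
      rw [e]
      positivity
    calc |W q * mean (gibbs J (fld2 u h q.1 q.2))
          (fun x => F x * Φ x (fld u q.1) (fld2 u h q.1 q.2))|
        = W q * m q * |tmean (gibbs J (fld2 u h q.1 q.2)) F
            (fun x => Φ x (fld u q.1) (fld2 u h q.1 q.2))| := by
          rw [tmean, abs_div, abs_of_pos hmq, abs_mul, abs_of_nonneg hWq, mul_assoc,
            mul_div_cancel₀ _ hmq.ne']
      _ ≤ W q * m q * (K * ((lam + s ^ 2 / lam) / 2)) :=
          mul_le_mul_of_nonneg_left (hb'.trans (mul_le_mul_of_nonneg_left hs hK))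
            (mul_nonneg hWq hmq.le)
      _ = K / 2 * (lam * (W q * m q) + W q * (s ^ 2 * m q) / lam) := by ring
      _ = _ := by rw [hs2]; ring
  have iR : Integrable (fun q => K / 2 * (lam * (W q * m q) + (W q * d q + W q * m q) / lam)) P :=
    ((hWm.1.const_mul lam).fun_add ((hWd.fun_add hWm.1).div_const lam)).const_mul _
  refine abs_integral_le_integral_abs.trans ((integral_mono_of_nonneg
    (ae_of_all _ fun q => abs_nonneg _) iR (ae_of_all _ key)).trans ?_)
  rw [integral_const_mul, integral_add (hWm.1.const_mul lam) ((hWd.fun_add hWm.1).div_const lam),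
    integral_const_mul, integral_div, integral_add hWd hWm.1, hWm.2]
  calc K / 2 * (lam * 1 + ((∫ q, W q * d q ∂P) + 1) / lam)
      ≤ K / 2 * (lam * 1 + (D + 1) / lam) := by gcongr
    _ = K * lam := by
        rw [show D + 1 = lam * lam from (Real.mul_self_sqrt (by linarith)).symm,
          mul_div_cancel_right₀ _ hl.ne']
        ring

omit [Fintype ι] [DecidableEq ι] in
lemma continuous_pfield (u : ℝ) (x : ι → Bool) : Continuous (pfield u x) := by
  unfold pfield; fun_prop

omit [Fintype ι] [DecidableEq ι] in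
lemma continuous_nfield (h : ℝ) (x : ι → Bool) :
    Continuous fun q : (ι → ℝ) × (ι → ℝ) => nfield h x q.1 q.2 := by
  unfold nfield; fun_prop

/-- Observables of the first field only. -/
lemma pE2_fst (J : ι → ι → ℝ) (F : (ι → Bool) → ℝ) (u h : ℝ) (Φ : Obs ι) :
    pE2 J F u h (fun x y _ => Φ x y) = pE J F u Φ := by
  simp [pE2, pE]

/-- Observables of the second field only. -/
lemma pE2_snd (J : ι → ι → ℝ) (F : (ι → Bool) → ℝ) {u h : ℝ} (hu : 0 ≤ u) (hh : 0 ≤ h)
    {Φ : Obs ι} (hc : ∀ x, Continuous (Φ x)) {B : ℝ} (hB : ∀ x y, |Φ x y| ≤ B) :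
    pE2 J F u h (fun x _ y' => Φ x y') = pE J F (u + h) Φ := by
  refine sum_congr rfl fun x _ => congrArg _ ?_
  rcases (add_nonneg hu hh).eq_or_lt with h0 | h0
  · obtain ⟨rfl, rfl⟩ := (add_eq_zero_iff_of_nonneg hu hh).1 h0.symm
    have e1 : ∀ y ξ : ι → ℝ, nfield (0:ℝ) x y ξ = y := fun y ξ => by funext i; simp [nfield]
    simp [e1]
  set s := √(u + h)
  have hs : 0 < s := Real.sqrt_pos.2 h0
  let R : ι → ι ⊕ ι → ℝ := fun i => Sum.elim (fun k => if k = i then √u / s else 0)
    (fun k => if k = i then √h / s else 0)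
  have hR : ∀ i j, ∑ k, R i k * R j k = if i = j then 1 else 0 := fun i j => by
    simp only [Fintype.sum_sum_type, R, Sum.elim_inl, Sum.elim_inr, ite_mul, zero_mul, sum_ite_eq',
      mem_univ, if_true]
    split_ifs with hij
    · rw [div_mul_div_comm, div_mul_div_comm, Real.mul_self_sqrt hu, Real.mul_self_sqrt hh,
        Real.mul_self_sqrt h0.le, ← add_div, div_self h0.ne']
    · simp
  have hmix : ∀ ξ ξ' : ι → ℝ, nfield h x (pfield u x ξ) ξ'
      = pfield (u + h) x (rowMap R (Sum.elim ξ ξ')) := fun ξ ξ' => by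
    funext i
    simp only [nfield, pfield, rowMap, Fintype.sum_sum_type, R, Sum.elim_inl, Sum.elim_inr, ite_mul,
      zero_mul, sum_ite_eq', mem_univ, if_true]
    field_simp
    ring
  set G := fun g => Φ x (pfield (u + h) x g)
  have hG : Continuous G := (hc x).comp (continuous_pfield _ x)
  simp only [hmix]
  change ∫ ξ, ∫ ξ', G (rowMap R (Sum.elim ξ ξ')) ∂gauss ι ∂gauss ι = ∫ g, G g ∂gauss ι
  have hmeas : Measurable (rowMap R) := measurable_rowMap R
  conv_rhs => rw [← gauss_map_rowMap R hR]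
  rw [integral_map hmeas.aemeasurable hG.aestronglyMeasurable]
  have he := measurePreserving_sumPiEquivProdPi (fun _ : ι ⊕ ι => gaussianReal 0 1)
  have e1 : ∀ g g' : ι → ℝ, (MeasurableEquiv.sumPiEquivProdPi (fun _ : ι ⊕ ι => ℝ)).symm (g, g')
      = Sum.elim g g' := fun g g' => by
    funext k; cases k <;> rfl
  simp only [gauss]
  rw [← (he.symm _).integral_comp (MeasurableEquiv.measurableEmbedding _), integral_prod]
  · simp only [e1]
  · exact Integrable.of_bound ((hG.measurable.comp hmeas).comp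
      (MeasurableEquiv.measurable _)).aestronglyMeasurable B
      (ae_of_all _ fun q => (Real.norm_eq_abs _).le.trans (hB x _))

end Vale.Agent.P150.Beta1.Profile
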