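import Vale.Agent.P150.Beta1.Tests
import Vale.Agent.P150.Beta1.Rule.Fields

/-!
# Slow scalars of the iterates

Averages of bounded smooth functions of an iterate, and their products, have discrete gradient of
squared size `O(1/n)`; the iterates are continuous in the field.
-/

namespace Vale.Agent.P150.Beta1.Profile

open Finset Function Real

variable {n : ℕ}

/-- A test function with two bounded derivatives. -/
def Smooth2 (C : ℝ) (φ φ₁ φ₂ : ℝ → ℝ) : Prop :=
  ∀ t, HasDerivAt φ (φ₁ t) t ∧ HasDerivAt φ₁ (φ₂ t) t ∧ |φ t| ≤ C ∧ |φ₁ t| ≤ C ∧ |φ₂ t| ≤ C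

/-- Gradient bound of the field `ampZ k` at every configuration. -/
def GradBound (β : ℝ) (J : Fin n → Fin n → ℝ) (y : Fin n → ℝ) (k : ℕ) (C : ℝ) : Prop :=
  ∀ (a : Fin n → ℝ) (x : Fin n → Bool),
    ∑ j, (∑ i, a i * deriv2 j (fun z => ampZ β J y (spins z) k i) x) ^ 2 ≤ C * ∑ i, a i ^ 2

lemma slow_mono {A B : ℝ} {s : (Fin n → Bool) → ℝ} (h : SlowScalar A s) (hAB : A ≤ B) :
    SlowScalar B s := fun x => ⟨(h x).1, (h x).2.trans hAB⟩

lemma slow_cst {c : ℝ} (hc : |c| ≤ 1) : SlowScalar (n := n) 0 fun _ => c :=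
  fun x => ⟨hc, by simp [deriv2]⟩

lemma slow_smul {A c : ℝ} {s : (Fin n → Bool) → ℝ} (h : SlowScalar A s) (hc : |c| ≤ 1) :
    SlowScalar A fun x => c * s x := by
  intro x
  refine ⟨?_, le_trans ?_ (h x).2⟩
  · rw [abs_mul]
    exact mul_le_one₀ hc (abs_nonneg _) (h x).1
  · refine mul_le_mul_of_nonneg_left (sum_le_sum fun j _ => ?_) (Nat.cast_nonneg n)
    have e : deriv2 j (fun x => c * s x) x = c * deriv2 j s x := by simp only [deriv2]; ring
    rw [e, mul_pow]
    exact mul_le_of_le_one_left (sq_nonneg _) ((sq_le_one_iff_abs_le_one _).2 hc)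

lemma slow_half_sub {A B : ℝ} {s t : (Fin n → Bool) → ℝ} (hs : SlowScalar A s)
    (ht : SlowScalar B t) : SlowScalar ((A + B) / 2) fun x => (s x - t x) / 2 := by
  intro x
  refine ⟨?_, ?_⟩
  · rw [abs_div, abs_two, div_le_one two_pos]
    exact (abs_sub _ _).trans (by linarith [(hs x).1, (ht x).1])
  · have h : n * ∑ j, deriv2 j (fun x => (s x - t x) / 2) x ^ 2
        ≤ n * ∑ j, (deriv2 j s x ^ 2 + deriv2 j t x ^ 2) / 2 := by
      refine mul_le_mul_of_nonneg_left (sum_le_sum fun j _ => ?_) (Nat.cast_nonneg n)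
      simp only [deriv2]
      nlinarith [sq_nonneg ((s (update x j true) - s (update x j false))
        + (t (update x j true) - t (update x j false)))]
    refine h.trans ?_
    rw [← sum_div, sum_add_distrib, mul_div_assoc', mul_add]
    linarith [(hs x).2, (ht x).2]

lemma slow_mul {A B : ℝ} {s t : (Fin n → Bool) → ℝ} (hs : SlowScalar A s) (ht : SlowScalar B t) :
    SlowScalar (2 * A + 2 * B) fun x => s x * t x := by
  intro x
  refine ⟨by rw [abs_mul]; exact mul_le_one₀ (hs x).1 (abs_nonneg _) (ht x).1, ?_⟩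
  have h : n * ∑ j, deriv2 j (fun x => s x * t x) x ^ 2
      ≤ n * ∑ j, (2 * deriv2 j s x ^ 2 + 2 * deriv2 j t x ^ 2) := by
    refine mul_le_mul_of_nonneg_left (sum_le_sum fun j _ => ?_) (Nat.cast_nonneg n)
    set a := deriv2 j s x
    set b := deriv2 j t x
    have e : deriv2 j (fun x => s x * t x) x
        = a * t (update x j true) + s (update x j false) * b := by
      simp only [a, b, deriv2]; ring
    rw [e]
    refine (add_sq_le).trans (le_of_eq_of_le (mul_add 2 _ _) (add_le_add ?_ ?_))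
    · rw [mul_pow]
      exact mul_le_mul_of_nonneg_left (mul_le_of_le_one_right (sq_nonneg _)
        ((sq_le_one_iff_abs_le_one _).2 (ht _).1)) (by norm_num)
    · rw [mul_pow]
      exact mul_le_mul_of_nonneg_left (mul_le_of_le_one_left (sq_nonneg _)
        ((sq_le_one_iff_abs_le_one _).2 (hs _).1)) (by norm_num)
  refine h.trans ?_
  rw [sum_add_distrib, ← mul_sum, ← mul_sum, mul_add, mul_left_comm, mul_left_comm (n : ℝ) 2]
  linarith [(hs x).2, (ht x).2]

variable {β C Cg : ℝ} {J : Fin n → Fin n → ℝ} {y : Fin n → ℝ} {k : ℕ} {φ φ₁ φ₂ : ℝ → ℝ}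

/-- Columns of the gradient. -/
lemma col_le (hC : 0 ≤ Cg) (hg : GradBound β J y k Cg) (x : Fin n → Bool) (j : Fin n) :
    ∑ i, deriv2 j (fun z => ampZ β J y (spins z) k i) x ^ 2 ≤ Cg := by
  set a := fun i => deriv2 j (fun z => ampZ β J y (spins z) k i) x
  set S := ∑ i, a i ^ 2
  have h : S ^ 2 ≤ Cg * S := by
    refine le_trans ?_ (hg a x)
    refine le_trans (le_of_eq ?_) (single_le_sum (fun l _ => sq_nonneg _) (mem_univ j))
    simp only [S, a, sq]
  change S ≤ Cg
  rcases (sum_nonneg fun i (_ : i ∈ univ) => sq_nonneg (a i) : (0 : ℝ) ≤ S).eq_or_lt with h0 | h0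
  · change S ≤ Cg
    linarith [h0, hC]
  · rw [sq] at h
    exact le_of_mul_le_mul_right h h0

/-- Gradient of a weighted average of a function of the iterate. -/
lemma grad_avg_le (hCg : 0 ≤ Cg) (hg : GradBound β J y k Cg) (hC : 0 ≤ C)
    (hφ : Smooth2 C φ φ₁ φ₂) (w : Fin n → ℝ) (hw : ∀ i, |w i| ≤ 1) (x : Fin n → Bool) :
    n * ∑ j, deriv2 j (fun z => avg fun i => w i * φ (ampZ β J y (spins z) k i)) x ^ 2
      ≤ 2 * C ^ 2 * Cg + 8 * C ^ 2 * Cg ^ 2 := by
  rcases Nat.eq_zero_or_pos n with rfl | hn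
  · simp only [Nat.cast_zero, zero_mul]; positivity
  have hn' : (0 : ℝ) < n := Nat.cast_pos.2 hn
  have hlip : ∀ s t, |φ₁ s - φ₁ t| ≤ C * |s - t| := fun s t => by
    have h := (convex_univ (𝕜 := ℝ) (E := ℝ)).norm_image_sub_le_of_norm_hasDerivWithin_le
      (f := φ₁) (f' := φ₂) (C := C) (fun u _ => (hφ u).2.1.hasDerivWithinAt)
      (fun u _ => by rw [Real.norm_eq_abs]; exact (hφ u).2.2.2.2) (Set.mem_univ t) (Set.mem_univ s)
    simpa using h
  set z := fun x : Fin n → Bool => ampZ β J y (spins x) k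
  set e := fun i => w i * φ₁ (z x i)
  set d := fun j i => deriv2 j (fun v => z v i) x
  set f := fun v : Fin n → Bool => avg fun i => w i * φ (z v i)
  have key : ∀ j, |deriv2 j f x| ≤ (|∑ i, e i * d j i| + 2 * C * Cg) / n := by
    intro j
    set x' := update x j (!x j)
    have hd : ∀ g : (Fin n → Bool) → ℝ, g x' - g x = -2 * spin (x j) * deriv2 j g x := fun g => by
      cases hxj : x j
      · have : update x j false = x := by rw [← hxj, update_eq_self]
        simp only [x', hxj, Bool.not_false, deriv2, this, spin, Bool.false_eq_true, if_false]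
        ring
      · have : update x j true = x := by rw [← hxj, update_eq_self]
        simp only [x', hxj, Bool.not_true, deriv2, this, spin, if_true]
        ring
    have hr : ∀ i, |φ (z x' i) - φ (z x i) - φ₁ (z x i) * (z x' i - z x i)|
        ≤ C * (4 * d j i ^ 2) := fun i => by
      refine (Rule.taylor_one (fun t => (hφ t).1) hlip hC _ _).trans (le_of_eq ?_)
      rw [hd fun v => z v i]
      rcases spin_cases (x j) with h | h <;> rw [h] <;> ring
    set r := fun i => w i * (φ (z x' i) - φ (z x i) - φ₁ (z x i) * (z x' i - z x i))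
    have hR : |∑ i, r i| ≤ 4 * C * Cg := by
      refine (abs_sum_le_sum_abs _ _).trans (le_trans (b := ∑ i, 4 * C * d j i ^ 2)
        (sum_le_sum fun i _ => ?_) ?_)
      · simp only [r, abs_mul]
        exact (mul_le_of_le_one_left (abs_nonneg _) (hw i)).trans ((hr i).trans_eq (by ring))
      · rw [← mul_sum]
        exact mul_le_mul_of_nonneg_left (col_le hCg hg x j) (by linarith)
    have e1 : -2 * spin (x j) * deriv2 j f x
        = ((-2 * spin (x j)) * ∑ i, e i * d j i + ∑ i, r i) / n := by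
      rw [← hd f]
      simp only [f, avg, Fintype.card_fin, ← sub_div, ← sum_sub_distrib, mul_sum, ← sum_add_distrib]
      refine congrArg (· / _) (sum_congr rfl fun i _ => ?_)
      simp only [r, e, d]
      linear_combination (w i * φ₁ (z x i)) * hd fun v => z v i
    have e2 : |(-2) * spin (x j) * deriv2 j f x| = 2 * |deriv2 j f x| := by
      rcases spin_cases (x j) with h | h <;> rw [h] <;> simp [abs_mul]
    rw [e1, abs_div, Nat.abs_cast] at e2
    rw [le_div_iff₀ hn']
    have h3 := abs_add_le ((-2 * spin (x j)) * ∑ i, e i * d j i) (∑ i, r i)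
    have h4 : |(-2 * spin (x j)) * ∑ i, e i * d j i| = 2 * |∑ i, e i * d j i| := by
      rcases spin_cases (x j) with h | h <;> rw [h] <;> simp [abs_mul]
    rw [div_eq_iff hn'.ne'] at e2
    linarith
  have hsq : ∀ j, deriv2 j f x ^ 2 ≤ (2 * (∑ i, e i * d j i) ^ 2 + 8 * C ^ 2 * Cg ^ 2) / n ^ 2 :=
    fun j => by
    rw [← sq_abs (deriv2 j f x)]
    refine (pow_le_pow_left₀ (abs_nonneg _) (key j) 2).trans ?_
    rw [div_pow]
    refine div_le_div_of_nonneg_right ?_ (sq_nonneg _)
    refine add_sq_le.trans (le_of_eq ?_)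
    rw [sq_abs]
    ring
  have he : ∑ i, e i ^ 2 ≤ n * C ^ 2 := by
    refine (sum_le_sum fun i _ => (?_ : e i ^ 2 ≤ C ^ 2)).trans (le_of_eq ?_)
    · simp only [e, mul_pow]
      exact (mul_le_of_le_one_left (sq_nonneg _) ((sq_le_one_iff_abs_le_one _).2 (hw i))).trans
        (sq_le_sq' (neg_le.1 ((neg_le_abs _).trans (hφ _).2.2.2.1))
          ((le_abs_self _).trans (hφ _).2.2.2.1))
    · simp
  calc n * ∑ j, deriv2 j f x ^ 2
      ≤ n * ∑ j, (2 * (∑ i, e i * d j i) ^ 2 + 8 * C ^ 2 * Cg ^ 2) / n ^ 2 :=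
        mul_le_mul_of_nonneg_left (sum_le_sum fun j _ => hsq j) hn'.le
    _ = (2 * (∑ j, (∑ i, e i * d j i) ^ 2) + n * (8 * C ^ 2 * Cg ^ 2)) / n := by
        rw [← sum_div, sum_add_distrib, ← mul_sum, sum_const, card_univ, Fintype.card_fin,
          nsmul_eq_mul]
        field_simp
    _ ≤ (2 * (Cg * (n * C ^ 2)) + n * (8 * C ^ 2 * Cg ^ 2)) / n := by
        refine div_le_div_of_nonneg_right ?_ hn'.le
        have := (hg e x).trans (mul_le_mul_of_nonneg_left he hCg)
        linarith
    _ = _ := by field_simp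

lemma abs_avg_le_of_le {a : Fin n → ℝ} {B : ℝ} (hB : 0 ≤ B) (h : ∀ i, |a i| ≤ B) : |avg a| ≤ B := by
  rcases Nat.eq_zero_or_pos n with rfl | hn
  · simpa [avg] using hB
  rw [avg, abs_div, Nat.abs_cast, div_le_iff₀ (by simpa using hn)]
  refine (abs_sum_le_sum_abs _ _).trans ((sum_le_sum fun i _ => h i).trans (le_of_eq ?_))
  simp [mul_comm]

/-- Averages of functions of an iterate are slow. -/
lemma slow_avg (hCg : 0 ≤ Cg) (hg : GradBound β J y k Cg) (hC : 0 ≤ C)
    (hφ : Smooth2 C φ φ₁ φ₂) (h1 : ∀ t, |φ t| ≤ 1) :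
    SlowScalar (2 * C ^ 2 * Cg + 8 * C ^ 2 * Cg ^ 2)
      fun x => avg fun i => φ (ampZ β J y (spins x) k i) := fun x =>
  ⟨abs_avg_le_of_le zero_le_one fun i => h1 _, by
    simpa only [one_mul] using grad_avg_le hCg hg hC hφ (fun _ => 1) (fun _ => by simp) x⟩

/-- Overlaps of the configuration with functions of an iterate are slow. -/
lemma slow_overlap (hCg : 0 ≤ Cg) (hg : GradBound β J y k Cg) (hC : 0 ≤ C)
    (hφ : Smooth2 C φ φ₁ φ₂) (h1 : ∀ t, |φ t| ≤ 1) :
    SlowScalar (2 * (2 * C ^ 2 * Cg + 8 * C ^ 2 * Cg ^ 2) + 18)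
      fun x => avg fun i => φ (ampZ β J y (spins x) k i) * spins x i := by
  intro x
  refine ⟨abs_avg_le_of_le zero_le_one fun i => ?_, ?_⟩
  · rw [abs_mul]
    exact mul_le_one₀ (h1 _) (abs_nonneg _) (Rule.abs_spins_le x i)
  rcases Nat.eq_zero_or_pos n with rfl | hn
  · simp only [Nat.cast_zero, zero_mul]; positivity
  have hn' : (0 : ℝ) < n := Nat.cast_pos.2 hn
  set z := fun x : Fin n → Bool => ampZ β J y (spins x) k
  set f := fun v : Fin n → Bool => avg fun i => φ (z v i) * spins v i
  set g := fun v : Fin n → Bool => avg fun i => spins x i * φ (z v i)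
  have key : ∀ j, |deriv2 j f x - deriv2 j g x| ≤ 3 / n := fun j => by
    have hv : ∀ b, ∑ i, (φ (z (update x j b) i) * spins (update x j b) i
        - spins x i * φ (z (update x j b) i)) = φ (z (update x j b) j) * (spin b - spins x j) := by
      intro b
      rw [sum_eq_single j (fun i _ hi => by simp only [spins, update_of_ne hi]; ring) (by simp)]
      simp only [spins, update_self]
      ring
    have hb : ∀ b, |φ (z (update x j b) j) * (spin b - spins x j)| ≤ 2 := fun b => by
      rw [abs_mul]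
      refine (mul_le_of_le_one_left (abs_nonneg _) (h1 _)).trans ((abs_sub _ _).trans ?_)
      have : |spin b| ≤ 1 := by rcases spin_cases b with h | h <;> simp [h]
      linarith [Rule.abs_spins_le x j]
    have e : deriv2 j f x - deriv2 j g x = (φ (z (update x j true) j) * (spin true - spins x j)
        - φ (z (update x j false) j) * (spin false - spins x j)) / (2 * n) := by
      simp only [← hv, deriv2, f, g, avg, Fintype.card_fin, sum_sub_distrib]
      field_simp
      ring
    rw [e, abs_div, abs_of_pos (by positivity : (0:ℝ) < 2 * n), div_le_div_iff₀ (by positivity) hn']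
    nlinarith [abs_sub (φ (z (update x j true) j) * (spin true - spins x j))
      (φ (z (update x j false) j) * (spin false - spins x j)), hb true, hb false]
  calc n * ∑ j, deriv2 j f x ^ 2 ≤ n * ∑ j, (2 * deriv2 j g x ^ 2 + 2 * (3 / n) ^ 2) := by
        refine mul_le_mul_of_nonneg_left (sum_le_sum fun j _ => ?_) hn'.le
        have := sq_le_sq' (abs_le.1 (key j)).1 (abs_le.1 (key j)).2
        nlinarith [sq_nonneg (deriv2 j g x - (deriv2 j f x - deriv2 j g x))]
    _ = 2 * (n * ∑ j, deriv2 j g x ^ 2) + 18 := by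
        rw [sum_add_distrib, ← mul_sum, sum_const, card_univ, Fintype.card_fin, nsmul_eq_mul]
        field_simp
        ring
    _ ≤ _ := by
        linarith [grad_avg_le hCg hg hC hφ (spins x) (fun i => Rule.abs_spins_le x i) x]

variable {ι : Type*} [Fintype ι]

@[fun_prop]
lemma continuous_tanh' : Continuous Real.tanh :=
  continuous_iff_continuousAt.2 fun x => (hasDerivAt_tanh' x).continuousAt

/-- The iterates are continuous in the field. -/
lemma continuous_ampZ_slow (β : ℝ) (J : ι → ι → ℝ) (x : ι → ℝ) (k : ℕ) :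
    Continuous fun y : ι → ℝ => ampZ β J y x k := by
  induction k using Nat.twoStepInduction with
  | zero => unfold ampZ act; fun_prop
  | one => simp only [ampZ, onsager, qav, avg, tanhv, act]; fun_prop
  | more k hk hk1 => simp only [ampZ, onsager, qav, avg, tanhv, act]; fun_prop

end Vale.Agent.P150.Beta1.Profile
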