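import Vale.Agent.P150.Beta1.Profile.Laws

/-!
# The profile statement

Along the localisation of a tilt of small Dirichlet energy, the squared mean magnetisation stays
below the replica-symmetric profile, followed on a fine grid through `profS`.
-/

namespace Vale.Agent.P150.Beta1.Profile

open MeasureTheory ProbabilityTheory Finset Real Filter
open scoped Topology

/-- `E (1 - tanh²)²` of the one-site field at signal `s`. -/
noncomputable def slopeSq (s : ℝ) : ℝ :=
  ∫ x, (1 - tanh (√s * x + s) ^ 2) ^ 2 ∂gaussianReal 0 1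

/-- The signal after `i` steps of length `h`. -/
noncomputable def profS (β h : ℝ) : ℕ → ℝ
  | 0 => 0
  | i + 1 => profS β h i + h / (1 - β ^ 2 * slopeSq (profS β h i))

/-- The magnetisation profile, on every fine enough grid of every interval. -/
def ProfileStatement (β : ℝ) : Prop :=
  ∀ T > 0, ∀ δ > 0, ∃ N₀ : ℕ, ∀ N ≥ N₀, 0 < N → ∃ ε > 0, Tendsto (fun n : ℕ =>
    Measure.pi (fun _ : Fin n × Fin n => gaussianReal 0 1)
      {g | ∀ F : (Fin n → Bool) → ℝ, (∀ x, 0 < F x) → mean (Local.p0 (skCoupling β g)) F = 1 →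
        dirichlet (Local.p0 (skCoupling β g)) (fun x => √(F x)) ≤ ε * n →
          ∀ i < N, ∀ v, (i : ℝ) * (T / N) ≤ v → v ≤ ((i : ℝ) + 1) * (T / N) →
            Local.magSq (skCoupling β g) F v ≤ n * (psi (profS β (T / N) i) + δ)})
    atTop (𝓝 1)

end Vale.Agent.P150.Beta1.Profile
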