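import Vale.Agent.P150.Beta1.Profile.Laws
import Vale.Agent.P150.Beta1.Profile.Slow

/-!
# Linear algebra of the two-time mean

Bounded observables and linear functions of the increment of the field are integrable; the mean
of the latter is the drift.
-/

namespace Vale.Agent.P150.Beta1.Profile

open MeasureTheory ProbabilityTheory Finset Function Real
open Local

variable {ι : Type*} [Fintype ι]

/-- Integrable along the planted two-time law, for every configuration. -/
def Int2 (u h : ℝ) (Φ : Obs2 ι) : Prop :=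
  ∀ x, Integrable (fun q : (ι → ℝ) × (ι → ℝ) =>
    Φ x (pfield u x q.1) (nfield h x (pfield u x q.1) q.2)) ((gauss ι).prod (gauss ι))

lemma continuous_pair (u h : ℝ) (x : ι → Bool) :
    Continuous fun q : (ι → ℝ) × (ι → ℝ) => (pfield u x q.1, nfield h x (pfield u x q.1) q.2) := by
  unfold nfield pfield
  fun_prop

lemma BddCont2.int2 {Φ : Obs2 ι} (hΦ : BddCont2 Φ) (u h : ℝ) : Int2 u h Φ := by
  obtain ⟨B, hB⟩ := hΦ
  intro x
  exact Integrable.of_bound ((hB x).1.comp (continuous_pair u h x)).aestronglyMeasurable B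
    (ae_of_all _ fun q => (Real.norm_eq_abs _).le.trans ((hB x).2 _ _))

lemma Int2.add {u h : ℝ} {Φ Ψ : Obs2 ι} (a : Int2 u h Φ) (b : Int2 u h Ψ) :
    Int2 u h fun x y y' => Φ x y y' + Ψ x y y' := fun x => (a x).fun_add (b x)

lemma Int2.sub {u h : ℝ} {Φ Ψ : Obs2 ι} (a : Int2 u h Φ) (b : Int2 u h Ψ) :
    Int2 u h fun x y y' => Φ x y y' - Ψ x y y' := fun x => (a x).sub' (b x)

lemma Int2.smul {u h : ℝ} {Φ : Obs2 ι} (a : Int2 u h Φ) (c : ℝ) :
    Int2 u h fun x y y' => c * Φ x y y' := fun x => (a x).const_mul c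

lemma Int2.sum {u h : ℝ} {α : Type*} (s : Finset α) {Φ : α → Obs2 ι} (a : ∀ i ∈ s, Int2 u h (Φ i)) :
    Int2 u h fun x y y' => ∑ i ∈ s, Φ i x y y' :=
  fun x => integrable_finsetSum _ fun i hi => a i hi x

variable [DecidableEq ι] {J : ι → ι → ℝ} {F : (ι → Bool) → ℝ} {u h : ℝ}

lemma pE2_prod {Φ : Obs2 ι} (a : Int2 u h Φ) : pE2 J F u h Φ = ∑ x, p0 J x * F x
    * ∫ q, Φ x (pfield u x q.1) (nfield h x (pfield u x q.1) q.2) ∂(gauss ι).prod (gauss ι) :=
  sum_congr rfl fun x _ => by rw [integral_prod _ (a x)]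

lemma pE2_add {Φ Ψ : Obs2 ι} (a : Int2 u h Φ) (b : Int2 u h Ψ) :
    pE2 J F u h (fun x y y' => Φ x y y' + Ψ x y y') = pE2 J F u h Φ + pE2 J F u h Ψ := by
  rw [pE2_prod a, pE2_prod b, pE2_prod (a.add b), ← sum_add_distrib]
  exact sum_congr rfl fun x _ => by rw [integral_add (a x) (b x)]; ring

lemma pE2_sub {Φ Ψ : Obs2 ι} (a : Int2 u h Φ) (b : Int2 u h Ψ) :
    pE2 J F u h (fun x y y' => Φ x y y' - Ψ x y y') = pE2 J F u h Φ - pE2 J F u h Ψ := by
  rw [pE2_prod a, pE2_prod b, pE2_prod (a.sub b), ← sum_sub_distrib]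
  exact sum_congr rfl fun x _ => by rw [integral_sub (a x) (b x)]; ring

lemma pE2_smul (Φ : Obs2 ι) (c : ℝ) :
    pE2 J F u h (fun x y y' => c * Φ x y y') = c * pE2 J F u h Φ := by
  simp only [pE2, integral_const_mul, mul_sum]
  exact sum_congr rfl fun x _ => by ring

lemma pE_smul (Φ : Obs ι) (c : ℝ) : pE J F u (fun x y => c * Φ x y) = c * pE J F u Φ := by
  simp only [pE, integral_const_mul, mul_sum]
  exact sum_congr rfl fun x _ => by ring

lemma pE2_sum {α : Type*} (s : Finset α) {Φ : α → Obs2 ι} (a : ∀ i ∈ s, Int2 u h (Φ i)) :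
    pE2 J F u h (fun x y y' => ∑ i ∈ s, Φ i x y y') = ∑ i ∈ s, pE2 J F u h (Φ i) := by
  rw [pE2_prod (Int2.sum s a), sum_congr rfl fun i hi => pE2_prod (a i hi), sum_comm (s := s)]
  exact sum_congr rfl fun x _ => by rw [integral_finsetSum _ fun i hi => a i hi x, mul_sum]

/-- The increment of the field against a function of the first field. -/
theorem eta_spec {G : ι → Obs ι} {B : ℝ} (hc : ∀ i x, Continuous (G i x))
    (hB : ∀ i x y, |G i x y| ≤ B) (hh : 0 ≤ h) :
    Int2 u h (fun x y y' => ∑ i, G i x y * (y' i - y i)) ∧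
      pE2 J F u h (fun x y y' => ∑ i, G i x y * (y' i - y i))
        = h * pE J F u fun x y => ∑ i, G i x y * spins x i := by
  classical
  have he : ∀ (x : ι → Bool) (y ξ' : ι → ℝ) (i : ι), nfield h x y ξ' i - y i = h * spins x i + √h * ξ' i := fun x y ξ' i => by
    simp only [nfield, add_sub_cancel_left]
  have h1 : ∀ i : ι, Integrable (fun g : ι → ℝ => g i) (gauss ι) := fun i =>
    (measurePreserving_eval (fun _ : ι => gaussianReal 0 1) i).integrable_comp_of_integrable
      ((memLp_id_gaussianReal 1).integrable le_rfl)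
  have h0 : ∀ i : ι, ∫ g, g i ∂gauss ι = 0 := fun i => by
    have e : (gauss ι).map (fun g => g i) = gaussianReal 0 1 :=
      (measurePreserving_eval (fun _ : ι => gaussianReal 0 1) i).map_eq
    have := integral_map (μ := gauss ι) (φ := fun g => g i) (measurable_pi_apply i).aemeasurable
      (f := fun x : ℝ => x) (by fun_prop)
    rw [e, integral_id_gaussianReal] at this
    exact this.symm
  have hI : Int2 u h (fun x y y' => ∑ i, G i x y * (y' i - y i)) := fun x => by
    refine integrable_finsetSum _ fun i _ => ?_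
    simp only [he]
    refine (((integrable_const (h * spins x i)).fun_add ((h1 i).const_mul (√h))).comp_snd
      (gauss ι)).bdd_mul (c := B) (((hc i x).comp (continuous_pfield u x)).comp
        continuous_fst).aestronglyMeasurable (ae_of_all _ fun q => ?_)
    exact (Real.norm_eq_abs _).le.trans (hB i x _)
  refine ⟨hI, ?_⟩
  simp only [pE2, pE, mul_sum]
  refine sum_congr rfl fun x _ => ?_
  rw [mul_left_comm, ← integral_const_mul h]
  refine congrArg _ (integral_congr_ae (ae_of_all _ fun ξ => ?_))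
  simp only [he]
  have ii : ∀ i, Integrable (fun g : ι → ℝ => G i x (pfield u x ξ) * (h * spins x i + √h * g i))
      (gauss ι) := fun i =>
    ((integrable_const _).fun_add ((h1 i).const_mul _)).const_mul _
  rw [integral_finsetSum _ fun i _ => ii i, mul_sum]
  refine sum_congr rfl fun i _ => ?_
  rw [integral_const_mul, integral_add (integrable_const _) ((h1 i).const_mul _)]
  simp only [integral_const_mul, integral_const, probReal_univ, one_smul, h0]
  ring

/-- A bound for every tilted Ising measure averages to a bound for the one-time mean. -/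
theorem abs_pE_le (hF : ∀ x, 0 < F x) (hm : mean (p0 J) F = 1) (hu : 0 ≤ u) {Φ : Obs ι}
    (hc : ∀ x, Continuous (Φ x)) {B : ℝ} (hB : ∀ x y, |Φ x y| ≤ B) {K : ℝ} (hK : 0 ≤ K)
    (hb : ∀ y, |tmean (gibbs J y) F (fun x => Φ x y)| ≤ K * √(tdir (gibbs J y) F + 1)) :
    |pE J F u Φ| ≤ K * √(dirichlet (p0 J) (fun x => √(F x)) + 1) := by
  have h := abs_pE2_le hF hm (u := u) (h := 0) hu le_rfl (Φ := fun x _ y' => Φ x y')
    ⟨B, fun x => ⟨(hc x).comp continuous_snd, fun _ y' => hB x y'⟩⟩ hK (fun _ y' => hb y')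
  rwa [pE2_snd J F hu le_rfl hc hB, add_zero] at h

end Vale.Agent.P150.Beta1.Profile
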